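import Vale.Agent.P165.EX.Semi.Decode
import Vale.Agent.P165.EX.Any.Rows

/-!
# A phase for semisimple images

In the chart of its type a candidate is a diagonal times a bounded matrix, so tests of order one
along a frame locate the diagonal and two candidates with equal data differ by a bounded element.
-/

namespace Vale.Agent.P165.EX.Semi

open Finset Matrix FF
open scoped Matrix.Norms.Elementwise MatrixGroups

variable {P : Type} [Fintype P] {k : P → Type} [∀ p, NontriviallyNormedField (k p)]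
  [∀ p, ProperSpace (k p)] {d : P → ℕ} {Γ : Type} [Group Γ] {ρ : ∀ p, Γ →* SL(d p, k p)}

variable {O ι : Type} [DecidableEq Γ] [DecidableEq O] [Fintype ι] [Fintype O]
  {G : SimpleGraph (Γ × O)} {nb : Γ × O → ι → Γ × O}

/-- Candidates of one product carry bounded mass from every vertex. -/
theorem flat_mass (hl : Labelling G nb) (hinv : Inv G) (hconn : G.Connected)
    (hd : ∀ p, 0 < d p) (S : ∀ p, Parts (ρ p)) (hgen : ∀ p, (S p).Generic)
    (hfin : Multi.BoxFinite ρ) {p₀ : ℝ} (hp : 0 < p₀) (hp1 : p₀ ≤ 1) (F : Finset Γ) (A : ℝ) :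
    ∃ C : ℝ, 0 ≤ C ∧ ∀ q, p₀ ≤ q → q ≤ 1 → Witness nb q →
      ∀ (y : Γ) (w : Γ × O) (o' : O) (Z : Finset Γ), (∀ z ∈ Z, Cand S F A y z) →
        ∑ z ∈ Z, T nb q w (z, o') ≤ C := by
  obtain ⟨F₁, A₁, N, hA₁, hdec⟩ := exists_decode hd S hgen hfin F A 0
  obtain ⟨K, hK0, hK⟩ := mass_of_fibres hl hinv hconn hp hp1 F₁
  refine ⟨K * N, by positivity, fun q hq hq1 hw y w o' Z hZ => ?_⟩
  obtain ⟨R, hR, hcard⟩ := hdec y fun _ i => i.elim0
  have h := hK q hq hq1 hw w o' Z (fun _ => 1) R N (Nat.cast_nonneg _) (fun _ => zero_le_one)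
    (fun z h => (hR z h).1) fun y' Z' hsub hZ' => ?_
  · simpa using h
  rw [sum_const, nsmul_eq_mul, mul_one, Nat.cast_le]
  exact hcard y' Z' fun z hz => ⟨hZ z (hsub hz), hZ' z hz⟩

/-- The bubble is bounded. -/
theorem bubble_mass (hl : Labelling G nb) (hinv : Inv G) (hconn : G.Connected)
    (hd : ∀ p, 0 < d p) (S : ∀ p, Parts (ρ p)) (hgen : ∀ p, (S p).Generic)
    (hfin : Multi.BoxFinite ρ) {p₀ : ℝ} (hp : 0 < p₀) (hp1 : p₀ ≤ 1) :
    ∃ C : ℝ, ∀ q, p₀ ≤ q → q ≤ 1 → Witness nb q →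
      ∀ (w : Γ × O) (o' : O) (Z : Finset Γ), ∑ z ∈ Z, T nb q w (z, o') ^ 2 ≤ C := by
  obtain ⟨F, A, hA, hest⟩ := est_of_generic hd S hgen 0
  obtain ⟨C, hC0, hC⟩ := flat_mass hl hinv hconn hd S hgen hfin hp hp1 F A
  obtain ⟨K, hK0, hK⟩ := mass_of_fibres hl hinv hconn hp hp1 F
  refine ⟨K * C, fun q hq hq1 hw w o' Z => ?_⟩
  choose R hR using fun z h : Γ => hest (fun _ i => i.elim0) z h
  simp only [pow_two]
  refine hK q hq hq1 hw w o' Z (fun z => T nb q w (z, o')) R C hC0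
    (fun z => T_nonneg (hp.le.trans hq) hq1 _ _) (fun z h => (hR z h).1)
    fun y Z' _ hZ' => hC q hq hq1 hw y w o' Z' fun z hz => ?_
  obtain ⟨g, rfl⟩ := hZ' z hz
  exact ⟨g, ⟨R z g, (hR z g).1, rfl⟩, fun p j i => ((hR z g).2 p).1 j i⟩

omit [DecidableEq Γ] in
/-- Children along one joint frame set keep the defects of two tests of order one at each place. -/
theorem exists_child (hd : ∀ p, 0 < d p) (S : ∀ p, Parts (ρ p)) (hgen : ∀ p, (S p).Generic) :
    ∃ (F : Finset Γ) (A : ℝ), 0 ≤ A ∧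
      ∀ (Q : ∀ p, Fin 2 → Matrix (Fin (d p)) (Fin (d p)) (k p)) (w h : Γ), ∃ σ ∈ F,
        Cand S F A (w * σ * h) w ∧ ∀ p,
          |lsize (ρ p) (w * σ * h) - lsize (ρ p) w - lsize (ρ p) h| ≤ A ∧
          ∀ i, Q p i ≠ 0 →
            |defect (ρ p) (Q p i) (w * σ * h) - defect (ρ p) (Q p i) w| ≤ A := by
  obtain ⟨F, A, hA, hest⟩ := est_of_generic hd S hgen 2
  refine ⟨F, 2 * A, by positivity, fun Q w h => ?_⟩
  obtain ⟨σ, hσ, hs⟩ := hest Q w h
  refine ⟨σ, hσ, ⟨h, ⟨σ, hσ, rfl⟩, fun p j i => ((hs p).1 j i).trans (by linarith)⟩,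
    fun p => ?_⟩
  obtain ⟨i₀⟩ := exists_one (S p) (hd p)
  have h1 : |(S p).psize 1 i₀ (w * σ * h) - (S p).psize 1 i₀ w - (S p).psize 1 i₀ h| ≤ A :=
    (hs p).1 ⟨1, Nat.succ_lt_succ (hd p)⟩ i₀
  rw [psize_one, psize_one, psize_one] at h1
  refine ⟨h1.trans (by linarith), fun i hi => ?_⟩
  have h2 := (hs p).2 i hi
  simp only [defect]
  rw [abs_le] at h1 h2 ⊢
  constructor <;> linarith

/-- Jointly box-finite representations whose factors of all exterior powers have generic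
coefficients give a phase. -/
theorem nonuniquePhase_of_parts {P : Type} [Fintype P] [Nonempty P] {k : P → Type}
    [∀ p, NontriviallyNormedField (k p)] [∀ p, ProperSpace (k p)] {d : P → ℕ} (hd : ∀ p, 0 < d p)
    {Γ : Type} [Group Γ] [Infinite Γ] (ρ : ∀ p, Γ →* SL(d p, k p)) (S : ∀ p, Parts (ρ p))
    (hgen : ∀ p, (S p).Generic) (hfin : Multi.BoxFinite ρ) : SG.NonuniquePhase Γ := by
  classical
  refine nonuniquePhase_of_forms fun O _ _ _ D G nb hl hinv hconn p hs => ?_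
  have hh0 : 0 < p / 2 := by linarith [hs.1]
  have hh1 : p / 2 ≤ 1 := by linarith [hs.1, hs.2.1]
  obtain ⟨F, A, hA, hchild⟩ := exists_child hd S hgen
  exact Multi.formsBelow_of_rel ρ hd hfin hl hinv hconn hs hA hchild
    (flat_mass hl hinv hconn hd S hgen hfin hh0 hh1 F A)
    (bubble_mass hl hinv hconn hd S hgen hfin hh0 hh1)

end Vale.Agent.P165.EX.Semi
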