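import Vale.Agent.P165.EX.Semi.Factors
import Vale.Agent.P165.EX.Kempf.Sizes

/-!
# Criterion for generic parts

An irreducible representation with irreducible closure over a proper field has generic parts.
-/

namespace Vale.Agent.P165.EX.Semi

open Matrix Finset
open scoped Matrix.Norms.Elementwise MatrixGroups

variable {k : Type} [NontriviallyNormedField k] [ProperSpace k] {n : ℕ} {Γ : Type} [Group Γ]

/-- Irreducible images: invariant subspaces meet the ranges of limits only in their images. -/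
theorem interRange_of_irreducible (ρ : Γ →* SL(n, k))
    (hirr : ∀ W : Submodule k (Fin n → k),
      (∀ g, ∀ w ∈ W, (ρ g : Matrix (Fin n) (Fin n) k) *ᵥ w ∈ W) → W = ⊥ ∨ W = ⊤) :
    InterRange ρ := fun j _ z hz F hF => by
  refine Kempf.inter_range_le ρ hirr j ?_ F hF
  refine closure_mono ?_ hz
  rintro _ ⟨x, rfl⟩
  exact ⟨x.1, x.2, rfl⟩

/-- Irreducible with prime vanishing ideal: generic parts exist. -/
theorem parts_of_semisimple (ρ : Γ →* SL(n, k))
    (hirr : ∀ W : Submodule k (Fin n → k),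
      (∀ g, ∀ w ∈ W, (ρ g : Matrix (Fin n) (Fin n) k) *ᵥ w ∈ W) → W = ⊥ ∨ W = ⊤)
    (hconn : ∀ f₁ f₂ : MvPolynomial (Fin n × Fin n) k,
      (∀ g, MvPolynomial.eval (fun e => (ρ g : Matrix (Fin n) (Fin n) k) e.1 e.2) f₁ = 0 ∨
        MvPolynomial.eval (fun e => (ρ g : Matrix (Fin n) (Fin n) k) e.1 e.2) f₂ = 0) →
      (∀ g, MvPolynomial.eval (fun e => (ρ g : Matrix (Fin n) (Fin n) k) e.1 e.2) f₁ = 0) ∨
        ∀ g, MvPolynomial.eval (fun e => (ρ g : Matrix (Fin n) (Fin n) k) e.1 e.2) f₂ = 0) :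
    ∃ S : Parts ρ, S.Generic :=
  parts_of_irreducible ρ hirr (interRange_of_irreducible ρ hirr) hconn

end Vale.Agent.P165.EX.Semi
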