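import Vale.Agent.P165.EX.Semi.Extend
import Vale.Agent.P165.EX.Semi.Criterion

/-!
# The criterion along field extensions

Full span and an irreducible closure of a representation pass to every field which receives the
entries.
-/

namespace Vale.Agent.P165.EX.Semi

open Matrix Finset
open scoped MatrixGroups

variable {k L : Type} [Field k] [Field L] {n : ℕ} {Γ : Type} [Group Γ]

/-- A representation into a special linear group over any field, as matrices. -/
def matRep (ρ : Γ →* SL(n, k)) : Γ →* Matrix (Fin n) (Fin n) k where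
  toFun g := (ρ g : Matrix (Fin n) (Fin n) k)
  map_one' := by simp
  map_mul' a b := by simp

/-- The image spans all matrices. -/
def Spanning (ρ : Γ →* SL(n, k)) : Prop :=
  Submodule.span k (Set.range fun g => (ρ g : Matrix (Fin n) (Fin n) k)) = ⊤

/-- The polynomials vanishing on the image form a prime ideal. -/
def PrimeClosure (ρ : Γ →* SL(n, k)) : Prop :=
  ∀ f₁ f₂ : MvPolynomial (Fin n × Fin n) k,
    (∀ g, MvPolynomial.eval (fun e => (ρ g : Matrix (Fin n) (Fin n) k) e.1 e.2) f₁ = 0 ∨
      MvPolynomial.eval (fun e => (ρ g : Matrix (Fin n) (Fin n) k) e.1 e.2) f₂ = 0) →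
    (∀ g, MvPolynomial.eval (fun e => (ρ g : Matrix (Fin n) (Fin n) k) e.1 e.2) f₁ = 0) ∨
      ∀ g, MvPolynomial.eval (fun e => (ρ g : Matrix (Fin n) (Fin n) k) e.1 e.2) f₂ = 0

theorem cmp_map (f : k →+* L) (j : ℕ) (A : Matrix (Fin n) (Fin n) k) :
    cmp j (A.map f) = (cmp j A).map f := by
  ext s t
  simp only [cmp, Matrix.of_apply, Matrix.map_apply, RingHom.map_det, RingHom.mapMatrix_apply]
  rfl

variable (f : k →+* L) (ρ : Γ →* SL(n, k)) (ρ' : Γ →* SL(n, L))
  (hmap : ∀ g, (ρ' g : Matrix (Fin n) (Fin n) L) = (ρ g : Matrix (Fin n) (Fin n) k).map f)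

include hmap

theorem cmpRep_map (j : ℕ) (g : Γ) :
    cmpRep (matRep ρ') j g = (cmpRep (matRep ρ) j g).map f := by
  rw [cmpRep_apply, cmpRep_apply, ← cmp_map]
  exact congrArg (cmp j) (hmap g)

theorem spanning_map (h : Spanning ρ) : Spanning ρ' := by
  classical
  refine eq_top_iff.2 fun M _ => ?_
  rw [Matrix.matrix_eq_sum_single M]
  refine Submodule.sum_mem _ fun a _ => Submodule.sum_mem _ fun c _ => ?_
  rw [show Matrix.single a c (M a c) = M a c • ((Matrix.single a c (1 : k)).map f) by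
    ext i j
    by_cases hij : a = i ∧ c = j <;> simp [Matrix.single, hij]]
  refine Submodule.smul_mem _ _ ?_
  have hmem : Matrix.single a c (1 : k) ∈
      Submodule.span k (Set.range fun g => (ρ g : Matrix (Fin n) (Fin n) k)) := by
    rw [h]; exact Submodule.mem_top
  revert hmem
  generalize Matrix.single a c (1 : k) = S
  intro hmem
  induction hmem using Submodule.span_induction with
  | mem x hx =>
    obtain ⟨g, rfl⟩ := hx
    exact Submodule.subset_span ⟨g, hmap g⟩
  | zero => rw [Matrix.map_zero f (map_zero f)]; exact Submodule.zero_mem _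
  | add x y _ _ hx hy => rw [Matrix.map_add f (map_add f)]; exact Submodule.add_mem _ hx hy
  | smul c x _ hx =>
    rw [show (c • x).map f = f c • x.map f by ext; simp]
    exact Submodule.smul_mem _ _ hx

theorem spanning_comap (h : Spanning ρ') : Spanning ρ := by
  classical
  by_contra hne
  obtain ⟨l, hl, hle⟩ := Submodule.exists_le_ker_of_lt_top _ (lt_top_iff_ne_top.2 hne)
  let l' : Matrix (Fin n) (Fin n) L →ₗ[L] L :=
    { toFun := fun X => ∑ a, ∑ c, f (l (Matrix.single a c 1)) * X a c
      map_add' := fun X Y => by simp [mul_add, sum_add_distrib]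
      map_smul' := fun t X => by simp [mul_sum, mul_left_comm] }
  have key : ∀ X : Matrix (Fin n) (Fin n) k, l' (X.map f) = f (l X) := fun X => by
    conv_rhs => rw [Matrix.matrix_eq_sum_single X, map_sum, map_sum]
    simp only [map_sum]
    change ∑ a, ∑ c, f (l (Matrix.single a c 1)) * (X.map f) a c = _
    refine sum_congr rfl fun a _ => sum_congr rfl fun c _ => ?_
    rw [show Matrix.single a c (X a c) = X a c • Matrix.single a c (1 : k) by simp, map_smul,
      smul_eq_mul, map_mul, mul_comm]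
    rfl
  have h0 : ∀ X, l' X = 0 := fun X => by
    have hX : X ∈ Submodule.span L (Set.range fun g => (ρ' g : Matrix (Fin n) (Fin n) L)) := by
      rw [h]; exact Submodule.mem_top
    refine (Submodule.span_le (p := LinearMap.ker l')).2 ?_ hX
    rintro _ ⟨g, rfl⟩
    rw [SetLike.mem_coe, LinearMap.mem_ker]
    simp only [hmap g, key]
    rw [show l (ρ g : Matrix (Fin n) (Fin n) k) = 0 from hle (Submodule.subset_span ⟨g, rfl⟩),
      map_zero]
  refine hl (LinearMap.ext fun X => f.injective ?_)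
  rw [← key, h0, LinearMap.zero_apply, map_zero]

theorem prime_comap (h : PrimeClosure ρ') : PrimeClosure ρ := by
  intro f₁ f₂ h12
  have key : ∀ (q : MvPolynomial (Fin n × Fin n) k) g,
      MvPolynomial.eval (fun e => (ρ' g : Matrix (Fin n) (Fin n) L) e.1 e.2)
        (MvPolynomial.map f q) =
        f (MvPolynomial.eval (fun e => (ρ g : Matrix (Fin n) (Fin n) k) e.1 e.2) q) := fun q g => by
    rw [MvPolynomial.map_eval, hmap g]
    rfl
  rcases h (MvPolynomial.map f f₁) (MvPolynomial.map f f₂) (fun g => by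
    simpa [key] using h12 g) with h1 | h1
  · exact Or.inl fun g => by simpa [key] using h1 g
  · exact Or.inr fun g => by simpa [key] using h1 g

theorem prime_map (h : PrimeClosure ρ) : PrimeClosure ρ' := by
  classical
  letI : Algebra k L := f.toAlgebra
  intro f₁ f₂ h12
  let F : (L →ₗ[k] k) → MvPolynomial (Fin n × Fin n) L → MvPolynomial (Fin n × Fin n) k :=
    fun l q => ∑ s ∈ q.support, MvPolynomial.monomial s (l (q.coeff s))
  have expand : ∀ (l : L →ₗ[k] k) (q : MvPolynomial (Fin n × Fin n) L) (g : Γ),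
      MvPolynomial.eval (fun e => (ρ g : Matrix (Fin n) (Fin n) k) e.1 e.2) (F l q) =
        l (MvPolynomial.eval (fun e => (ρ' g : Matrix (Fin n) (Fin n) L) e.1 e.2) q) := by
    intro l q g
    simp only [F, map_sum]
    rw [MvPolynomial.eval_eq' _ q, map_sum]
    refine sum_congr rfl fun s _ => ?_
    rw [MvPolynomial.eval_monomial, Finsupp.prod_fintype _ _ (by simp)]
    have e : ∏ u : Fin n × Fin n, (ρ' g : Matrix (Fin n) (Fin n) L) u.1 u.2 ^ s u =
        f (∏ u : Fin n × Fin n, (ρ g : Matrix (Fin n) (Fin n) k) u.1 u.2 ^ s u) := by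
      rw [map_prod]
      simp [hmap g]
    rw [e, mul_comm (q.coeff s), ← RingHom.algebraMap_toAlgebra f, ← Algebra.smul_def, map_smul,
      smul_eq_mul, mul_comm]
  by_contra hno
  rw [not_or, not_forall, not_forall] at hno
  obtain ⟨⟨g₁, hg₁⟩, ⟨g₂, hg₂⟩⟩ := hno
  obtain ⟨l₁, hl₁⟩ := not_forall.1 fun h0 => hg₁ ((Module.forall_dual_apply_eq_zero_iff k _).1 h0)
  obtain ⟨l₂, hl₂⟩ := not_forall.1 fun h0 => hg₂ ((Module.forall_dual_apply_eq_zero_iff k _).1 h0)
  rcases h (F l₁ f₁) (F l₂ f₂) (fun g => by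
    rw [expand, expand]
    exact (h12 g).imp (fun h => by rw [h, map_zero]) fun h => by rw [h, map_zero]) with h1 | h1
  · exact hl₁ ((expand l₁ f₁ g₁).symm.trans (h1 g₁))
  · exact hl₂ ((expand l₂ f₂ g₂).symm.trans (h1 g₂))

omit hmap

/-- Generic parts at every proper field receiving the entries. -/
theorem parts_of_map {k K L : Type} [Field k] [Field K]
    [NontriviallyNormedField L] [ProperSpace L] {n : ℕ} {Γ : Type} [Group Γ] (φ : k →+* K)
    (ψ : k →+* L) (ρ₀ : Γ →* SL(n, k)) (ρ : Γ →* SL(n, K)) (ρL : Γ →* SL(n, L))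
    (hφ : ∀ g, (ρ g : Matrix (Fin n) (Fin n) K) = (ρ₀ g : Matrix (Fin n) (Fin n) k).map φ)
    (hψ : ∀ g, (ρL g : Matrix (Fin n) (Fin n) L) = (ρ₀ g : Matrix (Fin n) (Fin n) k).map ψ)
    (hs : Spanning ρ) (hp : PrimeClosure ρ) : ∃ S : Parts ρL, S.Generic := by
  refine parts_of_semisimple ρL (fun W hW => ?_)
    (prime_map ψ ρ₀ ρL hψ (prime_comap φ ρ₀ ρ hφ hp))
  by_cases hW0 : W = ⊥
  · exact Or.inl hW0
  refine Or.inr (eq_top_iff.2 fun v _ => ?_)
  obtain ⟨w, hw, hw0⟩ := Submodule.exists_mem_ne_zero_of_ne_bot hW0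
  obtain ⟨i, hi⟩ := Function.ne_iff.1 hw0
  have hall : ∀ M : Matrix (Fin n) (Fin n) L, M *ᵥ w ∈ W := fun M => by
    have hM : M ∈ Submodule.span L (Set.range fun g => (ρL g : Matrix (Fin n) (Fin n) L)) := by
      rw [spanning_map ψ ρ₀ ρL hψ (spanning_comap φ ρ₀ ρ hφ hs)]; exact Submodule.mem_top
    induction hM using Submodule.span_induction with
    | mem x hx => obtain ⟨g, rfl⟩ := hx; exact hW g w hw
    | zero => rw [zero_mulVec]; exact W.zero_mem
    | add a b _ _ iha ihb => rw [add_mulVec]; exact W.add_mem iha ihb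
    | smul c a _ iha => rw [smul_mulVec]; exact W.smul_mem _ iha
  have := hall (vecMulVec v (Pi.single i (w i)⁻¹))
  rwa [vecMulVec_mulVec, single_dotProduct, inv_mul_cancel₀ hi, MulOpposite.op_one, one_smul] at this

end Vale.Agent.P165.EX.Semi
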