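import Vale.Agent.P165.EX.Semi.Criterion
import Vale.Agent.P165.EX.Instance

/-!
# The elementary integer points of a split orthogonal group

For a fixed point free involution of the coordinates the integer root unipotents of the split
symmetric form it defines generate a group of integer matrices whose closure is transpose stable,
irreducible and acts irreducibly; its exterior powers need not be transversal.
-/

namespace Vale.Agent.P165.EX.Semi

open Matrix Finset
open scoped MatrixGroups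

variable {d : ℕ} (σ : Fin d → Fin d) {R S : Type} [CommRing R] [CommRing S]

/-- The matrix of the form pairing each coordinate with its image. -/
def pairForm (R : Type) [CommRing R] : Matrix (Fin d) (Fin d) R :=
  Matrix.of fun a b => if σ a = b then 1 else 0

/-- The direction of a root. -/
def rootDir (a b : Fin d) : Matrix (Fin d) (Fin d) R :=
  Matrix.single a b 1 - Matrix.single (σ b) (σ a) 1

/-- The root unipotent. -/
def rootMat (a b : Fin d) (t : R) : Matrix (Fin d) (Fin d) R := 1 + t • rootDir σ a b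

/-- The indices of roots. -/
def IsRoot (a b : Fin d) : Prop := a ≠ b ∧ a ≠ σ b

variable {σ}

theorem rootDir_map (φ : R →+* S) (a b : Fin d) :
    (rootDir σ a b : Matrix (Fin d) (Fin d) R).map φ = rootDir σ a b := by
  ext i j
  simp [rootDir, Matrix.single_apply, apply_ite φ]

theorem rootMat_map (φ : R →+* S) (a b : Fin d) (t : R) :
    (rootMat σ a b t).map φ = rootMat σ a b (φ t) := by
  ext i j
  simp [rootMat, rootDir, Matrix.single_apply, Matrix.one_apply, apply_ite φ]

theorem rootMat_transpose (a b : Fin d) (t : R) :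
    (rootMat σ a b t)ᵀ = rootMat σ b a t := by
  simp [rootMat, rootDir]

theorem rootMat_det (hσ : Function.Involutive σ) (hfix : ∀ i, σ i ≠ i) {a b : Fin d}
    (h : IsRoot σ a b) (t : R) : (rootMat σ a b t).det = 1 := by
  have h1 : a ≠ b := h.1
  have h2 : σ b ≠ σ a := fun e => h1 (hσ.injective e).symm
  have : rootMat σ a b t = transvection a b t * transvection (σ b) (σ a) (-t) := by
    simp [transvection, rootMat, rootDir, mul_add, add_mul, Ne.symm (hfix b), smul_sub,
      ← single_neg]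
    abel
  rw [this, det_mul, det_transvection_of_ne _ _ h1, det_transvection_of_ne _ _ h2, one_mul]

theorem rootDir_sq (hfix : ∀ i, σ i ≠ i) (hσ : Function.Involutive σ) {a b : Fin d}
    (h : IsRoot σ a b) : (rootDir σ a b * rootDir σ a b : Matrix (Fin d) (Fin d) R) = 0 := by
  have h2 : σ a ≠ σ b := fun e => h.1 (hσ.injective e)
  simp [rootDir, sub_mul, mul_sub, h.1.symm, Ne.symm (hfix b), hfix a, h2]

theorem rootMat_mul (hfix : ∀ i, σ i ≠ i) (hσ : Function.Involutive σ) {a b : Fin d}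
    (h : IsRoot σ a b) (s t : R) :
    rootMat σ a b s * rootMat σ a b t = rootMat σ a b (s + t) := by
  simp [rootMat, mul_add, add_mul, rootDir_sq hfix hσ h, add_smul]
  abel

theorem rootMat_preserves (hσ : Function.Involutive σ) (hfix : ∀ i, σ i ≠ i) {a b : Fin d}
    (h : IsRoot σ a b) (t : R) :
    (rootMat σ a b t)ᵀ * pairForm σ R * rootMat σ a b t = pairForm σ R := by
  have hQ : ∀ x y : Fin d, pairForm σ R * Matrix.single x y (1 : R) = Matrix.single (σ x) y 1 := by
    intro x y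
    ext i j
    rw [Matrix.mul_apply, Finset.sum_eq_single x (fun z _ hz => by simp [Ne.symm hz])
      fun hz => absurd (Finset.mem_univ x) hz]
    by_cases hi : σ i = x
    · have hi' : σ x = i := by rw [← hi, hσ i]
      simp [pairForm, Matrix.single_apply, hi, hi']
    · have hi' : σ x ≠ i := fun e => hi (by rw [← e, hσ x])
      simp [pairForm, Matrix.single_apply, hi, hi']
  have hQ' : ∀ x y : Fin d, Matrix.single x y (1 : R) * pairForm σ R = Matrix.single x (σ y) 1 := by
    intro x y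
    ext i j
    simp only [pairForm, Matrix.mul_apply, Matrix.of_apply, Matrix.single_apply, mul_ite, mul_one,
      mul_zero, ← ite_and]
    rw [Finset.sum_eq_single y (fun z _ hz => by simp [Ne.symm hz])
      fun hy => absurd (Finset.mem_univ y) hy]
    exact if_congr (by simp [and_comm]) rfl rfl
  have h2 : σ a ≠ σ b := fun e => h.1 (hσ.injective e)
  have e1 : pairForm σ R * rootDir σ a b = Matrix.single (σ a) b 1 - Matrix.single b (σ a) 1 := by
    rw [rootDir, mul_sub, hQ, hQ, hσ b]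
  have e2 : (rootDir σ a b)ᵀ * pairForm σ R = Matrix.single b (σ a) 1 - Matrix.single (σ a) b 1 := by
    rw [rootDir, transpose_sub, transpose_single, transpose_single, sub_mul, hQ', hQ', hσ b]
  have e3 : (rootDir σ a b)ᵀ * pairForm σ R * rootDir σ a b = 0 := by
    rw [e2, rootDir]
    simp [sub_mul, mul_sub, hfix a, h2, h.1.symm, Ne.symm (hfix b)]
  rw [rootMat, transpose_add, transpose_one, transpose_smul, add_mul, one_mul, smul_mul_assoc,
    add_mul, mul_add, mul_one, mul_smul_comm, e1, smul_mul_assoc, mul_add, mul_one, smul_add,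
    mul_smul_comm, e3, e2]
  simp only [smul_sub, smul_zero, add_zero]
  abel

variable (σ) in
/-- The root unipotents with integer parameter. -/
def rootSet : Set SL(d, ℤ) :=
  {g | ∃ a b, IsRoot σ a b ∧ ∃ t : ℤ, (g : Matrix (Fin d) (Fin d) ℤ) = rootMat σ a b t}

variable (σ) in
/-- The elementary group of the split form. -/
def splitGroup : Subgroup SL(d, ℤ) := Subgroup.closure (rootSet σ)

variable (σ) in
/-- The inclusion into the real special linear group. -/
noncomputable def realRep : splitGroup σ →* SL(d, ℝ) :=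
  (ringHom d (Int.castRingHom ℝ)).comp (splitGroup σ).subtype

theorem realRep_apply (g : splitGroup σ) :
    (realRep σ g : Matrix (Fin d) (Fin d) ℝ) =
      (g.1 : Matrix (Fin d) (Fin d) ℤ).map (Int.castRingHom ℝ) := rfl

theorem mem_splitGroup (hσ : Function.Involutive σ) (hfix : ∀ i, σ i ≠ i) {a b : Fin d}
    (h : IsRoot σ a b) (t : ℤ) : ⟨rootMat σ a b t, rootMat_det hσ hfix h t⟩ ∈ splitGroup σ :=
  Subgroup.subset_closure ⟨a, b, h, t, rfl⟩

/-- Induction over products of root unipotents. -/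
theorem splitGroup_induction (hσ : Function.Involutive σ) (hfix : ∀ i, σ i ≠ i)
    {p : SL(d, ℤ) → Prop} (hroot : ∀ g ∈ rootSet σ, p g) (hone : p 1)
    (hmul : ∀ x y, x ∈ splitGroup σ → y ∈ splitGroup σ → p x → p y → p (x * y))
    {g : SL(d, ℤ)} (hg : g ∈ splitGroup σ) : p g := by
  refine Subgroup.closure_induction'' (p := fun x _ => p x) hroot (fun x hx => hroot _ ?_) hone
    hmul hg
  obtain ⟨a, b, h, t, ht⟩ := hx
  refine ⟨a, b, h, -t, ?_⟩
  have h1 : x * ⟨rootMat σ a b (-t), rootMat_det hσ hfix h _⟩ = 1 := by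
    refine Subtype.ext ?_
    show (x : Matrix (Fin d) (Fin d) ℤ) * rootMat σ a b (-t) = 1
    rw [ht, rootMat_mul hfix hσ h,
      add_neg_cancel, rootMat, zero_smul, add_zero]
  rw [inv_eq_of_mul_eq_one_right h1]

theorem splitGroup_transpose (hσ : Function.Involutive σ) (hfix : ∀ i, σ i ≠ i) {g : SL(d, ℤ)}
    (hg : g ∈ splitGroup σ) : SpecialLinearGroup.transpose g ∈ splitGroup σ := by
  refine splitGroup_induction hσ hfix (p := fun x => SpecialLinearGroup.transpose x ∈ splitGroup σ)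
    ?_ ?_ ?_ hg
  · rintro x ⟨a, b, h, t, ht⟩
    have h' : IsRoot σ b a := ⟨h.1.symm, fun e => h.2 (by rw [e, hσ a])⟩
    refine Subgroup.subset_closure ⟨b, a, h', t, ?_⟩
    rw [SpecialLinearGroup.coe_transpose, ht, rootMat_transpose]
  · convert (splitGroup σ).one_mem
    exact Subtype.ext transpose_one
  · intro x y _ _ hx hy
    convert (splitGroup σ).mul_mem hy hx
    exact Subtype.ext (transpose_mul _ _)

/-- The group preserves the split form. -/
theorem splitGroup_preserves (hσ : Function.Involutive σ) (hfix : ∀ i, σ i ≠ i)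
    (g : splitGroup σ) :
    (g.1 : Matrix (Fin d) (Fin d) ℤ)ᵀ * pairForm σ ℤ * (g.1 : Matrix (Fin d) (Fin d) ℤ) =
      pairForm σ ℤ := by
  refine splitGroup_induction hσ hfix (p := fun x : SL(d, ℤ) =>
    (x : Matrix (Fin d) (Fin d) ℤ)ᵀ * pairForm σ ℤ * (x : Matrix (Fin d) (Fin d) ℤ) =
      pairForm σ ℤ) ?_ ?_ ?_ g.2
  · rintro x ⟨a, b, h, t, ht⟩
    rw [ht, rootMat_preserves hσ hfix h]
  · simp
  · intro x y _ _ hx hy
    show ((x : Matrix (Fin d) (Fin d) ℤ) * (y : Matrix (Fin d) (Fin d) ℤ))ᵀ * pairForm σ ℤ *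
      ((x : Matrix (Fin d) (Fin d) ℤ) * (y : Matrix (Fin d) (Fin d) ℤ)) = pairForm σ ℤ
    rw [transpose_mul]
    conv_rhs => rw [← hy, ← hx]
    simp only [Matrix.mul_assoc]

/-- A polynomial vanishing on the image vanishes on its transpose. -/
theorem realRep_transpose (hσ : Function.Involutive σ) (hfix : ∀ i, σ i ≠ i)
    (f : MvPolynomial (Fin d × Fin d) ℝ)
    (hf : ∀ g, MvPolynomial.eval (fun e => (realRep σ g : Matrix (Fin d) (Fin d) ℝ) e.1 e.2) f = 0)
    (g : splitGroup σ) :
    MvPolynomial.eval (fun e => (realRep σ g : Matrix (Fin d) (Fin d) ℝ)ᵀ e.1 e.2) f = 0 :=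
  hf ⟨_, splitGroup_transpose hσ hfix g.2⟩

/-- A polynomial curve in the group through one and a given element. -/
def Reach (σ : Fin d → Fin d) (g : SL(d, ℤ)) : Prop :=
  ∃ (L : ℕ) (M : Matrix (Fin d) (Fin d) (MvPolynomial (Fin L) ℝ)) (x₁ x₀ : Fin L → ℤ),
    (∀ x : Fin L → ℤ, ∃ y : splitGroup σ,
      M.map (MvPolynomial.eval fun i => (x i : ℝ)) = (realRep σ y : Matrix (Fin d) (Fin d) ℝ)) ∧
    M.map (MvPolynomial.eval fun i => (x₁ i : ℝ)) =
      (g : Matrix (Fin d) (Fin d) ℤ).map (Int.castRingHom ℝ) ∧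
    M.map (MvPolynomial.eval fun i => (x₀ i : ℝ)) = 1

theorem reach_mul {x y : SL(d, ℤ)} (hx : Reach σ x) (hy : Reach σ y) :
    ∃ (L : ℕ) (M : Matrix (Fin d) (Fin d) (MvPolynomial (Fin L) ℝ)) (a b c e : Fin L → ℤ),
      (∀ z : Fin L → ℤ, ∃ y : splitGroup σ,
        M.map (MvPolynomial.eval fun i => (z i : ℝ)) = (realRep σ y : Matrix (Fin d) (Fin d) ℝ)) ∧
      M.map (MvPolynomial.eval fun i => (a i : ℝ)) =
        (x : Matrix (Fin d) (Fin d) ℤ).map (Int.castRingHom ℝ) ∧
      M.map (MvPolynomial.eval fun i => (b i : ℝ)) =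
        (y : Matrix (Fin d) (Fin d) ℤ).map (Int.castRingHom ℝ) ∧
      M.map (MvPolynomial.eval fun i => (c i : ℝ)) = 1 ∧
      M.map (MvPolynomial.eval fun i => (e i : ℝ)) =
        ((x * y : SL(d, ℤ)) : Matrix (Fin d) (Fin d) ℤ).map (Int.castRingHom ℝ) := by
  obtain ⟨L₁, M₁, a₁, b₁, hM₁, ha₁, hb₁⟩ := hx
  obtain ⟨L₂, M₂, a₂, b₂, hM₂, ha₂, hb₂⟩ := hy
  let M := M₁.map (MvPolynomial.rename (Fin.castAdd L₂) (R := ℝ)) *
    M₂.map (MvPolynomial.rename (Fin.natAdd L₁) (R := ℝ))
  have hev : ∀ z : Fin (L₁ + L₂) → ℤ, M.map (MvPolynomial.eval fun i => (z i : ℝ)) =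
      M₁.map (MvPolynomial.eval fun i => (z (Fin.castAdd L₂ i) : ℝ)) *
        M₂.map (MvPolynomial.eval fun i => (z (Fin.natAdd L₁ i) : ℝ)) := by
    intro z
    simp only [M, Matrix.map_mul, Matrix.map_map]
    congr 1 <;> ext i j <;> simp [MvPolynomial.eval_rename, Function.comp_def]
  refine ⟨L₁ + L₂, M, Fin.append a₁ b₂, Fin.append b₁ a₂, Fin.append b₁ b₂, Fin.append a₁ a₂,
    fun z => ?_, ?_, ?_, ?_, ?_⟩
  · obtain ⟨y₁, hy₁⟩ := hM₁ fun i => z (Fin.castAdd L₂ i)
    obtain ⟨y₂, hy₂⟩ := hM₂ fun i => z (Fin.natAdd L₁ i)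
    refine ⟨y₁ * y₂, ?_⟩
    rw [hev, hy₁, hy₂, map_mul]
    rfl
  all_goals rw [hev]; simp only [Fin.append_left, Fin.append_right]
  · rw [ha₁, hb₂, mul_one]
  · rw [hb₁, ha₂, one_mul]
  · rw [hb₁, hb₂, one_mul]
  · rw [ha₁, ha₂, ← Matrix.map_mul]
    rfl

theorem reach_of_mem (hσ : Function.Involutive σ) (hfix : ∀ i, σ i ≠ i) {g : SL(d, ℤ)}
    (hg : g ∈ splitGroup σ) : Reach σ g := by
  refine splitGroup_induction hσ hfix (p := Reach σ) ?_ ?_ ?_ hg
  · rintro x ⟨a, b, h, t, ht⟩
    refine ⟨1, rootMat σ a b (MvPolynomial.X 0), fun _ => t, fun _ => 0,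
      fun z => ⟨⟨_, mem_splitGroup hσ hfix h (z 0)⟩, ?_⟩, ?_, ?_⟩
    · rw [rootMat_map, realRep_apply, rootMat_map]; simp
    · rw [rootMat_map, ht, rootMat_map]; simp
    · rw [rootMat_map]; simp [rootMat]
  · exact ⟨0, 1, 0, 0, fun _ => ⟨1, by simp⟩, by simp, by simp⟩
  · intro x y _ _ hx hy
    obtain ⟨L, M, -, -, c, e, hM, -, -, hc, he⟩ := reach_mul hx hy
    exact ⟨L, M, e, c, hM, he, hc⟩

/-- No two polynomial functions that are not zero on the image multiply to zero on it. -/
theorem realRep_prime (hσ : Function.Involutive σ) (hfix : ∀ i, σ i ≠ i)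
    (f₁ f₂ : MvPolynomial (Fin d × Fin d) ℝ)
    (h : ∀ g, MvPolynomial.eval (fun e => (realRep σ g : Matrix (Fin d) (Fin d) ℝ) e.1 e.2) f₁ = 0 ∨
      MvPolynomial.eval (fun e => (realRep σ g : Matrix (Fin d) (Fin d) ℝ) e.1 e.2) f₂ = 0) :
    (∀ g, MvPolynomial.eval (fun e => (realRep σ g : Matrix (Fin d) (Fin d) ℝ) e.1 e.2) f₁ = 0) ∨
      ∀ g, MvPolynomial.eval (fun e => (realRep σ g : Matrix (Fin d) (Fin d) ℝ) e.1 e.2) f₂ = 0 := by
  rw [or_iff_not_imp_left, not_forall]
  rintro ⟨g₁, hg₁⟩ g₂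
  obtain ⟨L, M, a, b, -, -, hM, ha, hb, -, -⟩ :=
    reach_mul (reach_of_mem hσ hfix g₁.2) (reach_of_mem hσ hfix g₂.2)
  let F : MvPolynomial (Fin d × Fin d) ℝ → MvPolynomial (Fin L) ℝ :=
    MvPolynomial.bind₁ fun e => M e.1 e.2
  have hF : ∀ f z, MvPolynomial.eval (fun i => ((z : Fin L → ℤ) i : ℝ)) (F f) =
      MvPolynomial.eval (fun e => M.map (MvPolynomial.eval fun i => (z i : ℝ)) e.1 e.2) f := by
    intro f z
    simp only [F, MvPolynomial.eval, MvPolynomial.eval₂Hom_bind₁]
    rfl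
  have h0 : F f₁ * F f₂ = 0 := by
    refine MvPolynomial.funext_set (fun _ => Set.range ((↑) : ℤ → ℝ))
      (fun _ => Set.infinite_range_of_injective Int.cast_injective) fun x hx => ?_
    choose z hz using fun i => hx i (Set.mem_univ i)
    obtain rfl : (fun i => (z i : ℝ)) = x := funext hz
    obtain ⟨y, hy⟩ := hM z
    rw [map_zero, map_mul, hF, hF, hy]
    exact mul_eq_zero.2 (h y)
  rcases mul_eq_zero.1 h0 with h1 | h1
  · have := hF f₁ a
    rw [h1, map_zero, ha] at this
    exact absurd this.symm hg₁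
  · have := hF f₂ b
    rw [h1, map_zero, hb] at this
    exact this.symm

/-- The group acts irreducibly on `ℝ^d`: a product of two root elements has rank one. -/
theorem realRep_irreducible (hσ : Function.Involutive σ) (hfix : ∀ i, σ i ≠ i) (hd : 3 ≤ d)
    (W : Submodule ℝ (Fin d → ℝ))
    (hW : ∀ g, ∀ w ∈ W, (realRep σ g : Matrix (Fin d) (Fin d) ℝ) *ᵥ w ∈ W) : W = ⊥ ∨ W = ⊤ := by
  have hX : ∀ a b, IsRoot σ a b → ∀ w ∈ W,
      w b • Pi.single a (1 : ℝ) - w (σ a) • Pi.single (σ b) 1 ∈ W := by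
    intro a b h w hw
    have h1 := W.sub_mem (hW ⟨_, mem_splitGroup hσ hfix h 1⟩ w hw) hw
    rw [realRep_apply, rootMat_map, map_one, rootMat, one_smul, add_mulVec, one_mulVec,
      add_sub_cancel_left, rootDir, sub_mulVec] at h1
    convert h1 using 2 <;> ext i <;> simp [Matrix.mulVec, dotProduct, Matrix.single_apply,
      Pi.single_apply, ite_and, Finset.sum_ite_eq, eq_comm]
  rw [or_iff_not_imp_left]
  intro hne
  obtain ⟨v, hv, hv0⟩ := Submodule.exists_mem_ne_zero_of_ne_bot hne
  obtain ⟨c, hc⟩ := Function.ne_iff.1 hv0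
  have flip : ∀ c, ∀ w ∈ W, w c ≠ 0 → Pi.single (σ c) (1 : ℝ) ∈ W := by
    intro c w hw hwc
    obtain ⟨x, hx⟩ : ∃ x, x ∉ ({c, σ c} : Finset (Fin d)) := by
      by_contra hno
      simp only [not_exists, not_not] at hno
      have h1 := Finset.card_le_card (show (univ : Finset (Fin d)) ⊆ {c, σ c} from fun x _ => hno x)
      simp only [card_univ, Fintype.card_fin] at h1
      have h2 := Finset.card_le_two (a := c) (b := σ c)
      omega
    simp only [mem_insert, mem_singleton, not_or] at hx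
    have r1 : IsRoot σ x c := ⟨hx.1, hx.2⟩
    have r2 : IsRoot σ (σ c) x :=
      ⟨fun e => hx.2 e.symm, fun e => hx.1 (hσ.injective e).symm⟩
    have h2 := hX _ _ r2 _ (hX _ _ r1 w hw)
    refine (Submodule.smul_mem_iff W hwc).1 ?_
    convert h2 using 1
    ext i
    simp only [Pi.sub_apply, Pi.smul_apply, smul_eq_mul, Pi.single_apply, hσ c]
    have e1 : x ≠ σ c := hx.2
    have e2 : c ≠ x := Ne.symm hx.1
    simp [e1, e2, (hfix c).symm]
  have pair : ∀ c, Pi.single c (1 : ℝ) ∈ W → Pi.single (σ c) (1 : ℝ) ∈ W :=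
    fun c h => flip c _ h (by simp)
  have h0 : Pi.single (σ c) (1 : ℝ) ∈ W := flip c v hv hc
  refine eq_top_iff.2 fun u _ => ?_
  rw [pi_eq_sum_univ' u]
  refine W.sum_mem fun a _ => W.smul_mem _ ?_
  rcases eq_or_ne a (σ c) with rfl | ha
  · exact h0
  rcases eq_or_ne a c with rfl | ha'
  · simpa [hσ a] using pair _ h0
  have r : IsRoot σ a (σ c) := ⟨ha, by rwa [hσ c]⟩
  have h1 := hX _ _ r _ h0
  have e : σ a ≠ σ c := fun h => ha' (hσ.injective h)
  simpa [hσ c, Pi.single_eq_of_ne e] using h1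

theorem splitGroup_finite (C : ℝ) :
    {g : splitGroup σ | ∀ i j, ‖(realRep σ g : Matrix (Fin d) (Fin d) ℝ) i j‖ ≤ C}.Finite :=
  (ringHom_discrete (Int.castRingHom ℝ) int_balls C).preimage Subtype.val_injective.injOn

theorem splitGroup_infinite (hσ : Function.Involutive σ) (hfix : ∀ i, σ i ≠ i) (hd : 3 ≤ d) :
    Infinite (splitGroup σ) := by
  obtain ⟨a, b, h⟩ : ∃ a b, IsRoot σ a b := by
    let b : Fin d := ⟨0, by omega⟩
    by_contra hno
    simp only [not_exists, IsRoot, not_and, not_not] at hno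
    have h1 := Finset.card_le_card (show (univ : Finset (Fin d)) ⊆ {b, σ b} from fun x _ => by
      rcases eq_or_ne x b with rfl | hx
      · exact mem_insert_self _ _
      · exact mem_insert_of_mem (mem_singleton.2 (hno x b hx)))
    simp only [card_univ, Fintype.card_fin] at h1
    have h2 := Finset.card_le_two (a := b) (b := σ b)
    omega
  refine Infinite.of_injective (fun t : ℤ => (⟨_, mem_splitGroup hσ hfix h t⟩ : splitGroup σ))
    fun s t hst => ?_
  have := congrFun (congrFun (congrArg (fun g : splitGroup σ =>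
    (g.1 : Matrix (Fin d) (Fin d) ℤ)) hst) a) b
  simp only [rootMat, rootDir, Matrix.add_apply, Matrix.smul_apply, Matrix.sub_apply] at this
  simpa [Matrix.one_apply, Matrix.single_apply, h.1, h.2.symm] using this

/-- The elementary integer group of a split form has generic parts. -/
theorem parts_splitGroup (hσ : Function.Involutive σ) (hfix : ∀ i, σ i ≠ i) (hd : 3 ≤ d) :
    ∃ S : Parts (realRep σ), S.Generic :=
  parts_of_semisimple (realRep σ) (realRep_irreducible hσ hfix hd)
    (realRep_prime hσ hfix)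

/-- The half swap. -/
def halfSwap (m : ℕ) : Fin (m + m) → Fin (m + m) :=
  Fin.addCases (fun i => Fin.natAdd m i) (fun i => Fin.castAdd m i)

theorem halfSwap_involutive (m : ℕ) : Function.Involutive (halfSwap m) := fun i => by
  induction i using Fin.addCases <;> simp only [halfSwap, Fin.addCases_left, Fin.addCases_right]

theorem halfSwap_ne (m : ℕ) (i : Fin (m + m)) : halfSwap m i ≠ i := by
  induction i using Fin.addCases with
  | left i =>
    simp only [halfSwap, Fin.addCases_left, ne_eq, Fin.ext_iff, Fin.val_natAdd, Fin.val_castAdd]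
    omega
  | right i =>
    simp only [halfSwap, Fin.addCases_right, ne_eq, Fin.ext_iff, Fin.val_natAdd, Fin.val_castAdd]
    omega

/-- The elementary integer group of the split orthogonal group in dimension `2m`, `m ≥ 2`. -/
theorem parts_splitOrth (m : ℕ) (hm : 2 ≤ m) :
    Infinite (splitGroup (halfSwap m)) ∧ (∃ S : Parts (realRep (halfSwap m)), S.Generic) ∧
      ∀ C : ℝ, {g : splitGroup (halfSwap m) |
        ∀ i j, ‖(realRep (halfSwap m) g : Matrix (Fin (m + m)) (Fin (m + m)) ℝ) i j‖ ≤ C}.Finite :=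
  ⟨splitGroup_infinite (halfSwap_involutive m) (halfSwap_ne m) (by omega),
    parts_splitGroup (halfSwap_involutive m) (halfSwap_ne m) (by omega), splitGroup_finite⟩

end Vale.Agent.P165.EX.Semi
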