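import Vale.Agent.P165.EX.Semi.Flat
import Vale.Agent.P165.EX.Semi.SplitOrth
import Vale.Agent.P165.EX.Join.Classes

/-!
# The phase for semisimple images and the split orthogonal example
-/

namespace Vale.Agent.P165.EX.Semi

open Matrix
open scoped MatrixGroups

/-- Semisimple images at every place and finite boxes give a phase. -/
theorem nonuniquePhase_of_semisimple {P : Type} [Fintype P] [Nonempty P] {k : P → Type}
    [∀ v, NontriviallyNormedField (k v)] [∀ v, ProperSpace (k v)] {d : P → ℕ} {Γ : Type} [Group Γ]
    (ρ : ∀ v, Γ →* SL(d v, k v)) (h : ∀ v, SemisimpleImage (ρ v)) (hfin : FiniteBoxes ρ) :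
    SG.NonuniquePhase Γ := by
  obtain ⟨v⟩ := ‹Nonempty P›
  have := infinite_of_semisimpleImage (h v)
  choose S hS using fun v => parts_of_semisimpleImage (h v)
  refine nonuniquePhase_of_parts (fun v => Nat.zero_lt_two.trans_le (h v).1) ρ S hS ?_
  open scoped Matrix.Norms.Elementwise in
  exact fun R => (hfin R).subset fun g hg v i j =>
    (norm_entry_le_entrywise_sup_norm (ρ v g : Matrix (Fin (d v)) (Fin (d v)) (k v))
      (i := i) (j := j)).trans (hg v)

/-- The elementary integer group of the split orthogonal group in dimension `2m` has a phase. -/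
theorem nonuniquePhase_splitOrth (m : ℕ) (hm : 2 ≤ m) :
    SG.NonuniquePhase (splitGroup (halfSwap m)) := by
  obtain ⟨hinf, ⟨S, hS⟩, hfin⟩ := parts_splitOrth m hm
  refine nonuniquePhase_of_parts (P := Unit) (k := fun _ => ℝ) (d := fun _ => m + m)
    (fun _ => by omega) (fun _ => realRep (halfSwap m)) (fun _ => S) (fun _ => hS) ?_
  open scoped Matrix.Norms.Elementwise in
  exact fun R => (hfin R).subset fun g hg i j =>
    (norm_entry_le_entrywise_sup_norm (realRep (halfSwap m) g : Matrix (Fin (m + m)) (Fin (m + m)) ℝ)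
      (i := i) (j := j)).trans (hg ())

end Vale.Agent.P165.EX.Semi
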