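import Vale.Agent.P165.EX.Semi.Core

/-!
# Semisimple images: one chart for every product and type

For every element and every type one matrix puts all factors of that type with sizes additive on
all factors into the form of a diagonal times a bounded matrix.
-/

namespace Vale.Agent.P165.EX.Semi

open Finset Matrix
open scoped Matrix.Norms.Elementwise MatrixGroups

variable {k : Type} [NontriviallyNormedField k] {n : ℕ} {Γ : Type} [Group Γ] {ρ : Γ →* SL(n, k)}

/-- Real types: the top columns of one frame pushed at full size by finitely many elements. -/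
theorem exists_push_type (S : Parts ρ) (hh : S.Hits) :
    ∃ (F : Finset Γ) (c M : ℝ), 0 < c ∧ 0 ≤ M ∧ ∀ (y : Γ) (τ : Pattern S), τ.Real →
      ∃ σ ∈ F, ∃ U : Matrix (Fin n) (Fin n) k, ∀ l i, τ l = some i →
        S.lift l.1 i *ᵥ topCol l.2.le U = topCol l.2.le U ∧ ‖topCol l.2.le U‖ ≤ M ∧
          c * ‖S.blk l.1 i y‖ ≤ ‖cm ρ l.1 (y * σ) *ᵥ topCol l.2.le U‖ := by
  classical
  have hone : ∀ τ : {τ : Pattern S // τ.Real}, ∃ (F : Finset Γ) (c M : ℝ), 0 < c ∧ 0 ≤ M ∧
      ∀ y : Γ, ∃ σ ∈ F, ∃ U : Matrix (Fin n) (Fin n) k, ∀ l i, τ.1 l = some i →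
        S.lift l.1 i *ᵥ topCol l.2.le U = topCol l.2.le U ∧ ‖topCol l.2.le U‖ ≤ M ∧
          c * ‖S.blk l.1 i y‖ ≤ ‖cm ρ l.1 (y * σ) *ᵥ topCol l.2.le U‖ := by
    rintro ⟨τ, U, hU, hUτ⟩
    set e := (Fintype.equivFin {l : Fin n // (τ l).isSome}).symm with he
    obtain ⟨F, c, hc, hF⟩ := hh _ (fun m => (e m).1.1) (fun m => (τ (e m).1).get (e m).2)
      (fun m => topCol (e m).1.2.le U) (fun m => (e m).1.2.le)
      (fun m => (hUτ _ _ (Option.some_get _).symm).1) (fun m => (hUτ _ _ (Option.some_get _).symm).2)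
    refine ⟨F, c, ∑ l : Fin n, ‖topCol l.2.le U‖, hc, sum_nonneg fun _ _ => norm_nonneg _,
      fun y => ?_⟩
    obtain ⟨σ, hσ, hs⟩ := hF y
    refine ⟨σ, hσ, U, fun l i hl => ⟨(hUτ l i hl).1,
      single_le_sum (f := fun l : Fin n => ‖topCol l.2.le U‖) (fun _ _ => norm_nonneg _)
        (mem_univ l), ?_⟩⟩
    change τ l = some i at hl
    obtain ⟨m, hm⟩ := e.surjective ⟨l, Option.isSome_iff_exists.2 ⟨i, hl⟩⟩
    have hl' : (e m).1 = l := congrArg Subtype.val hm
    subst hl'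
    have := hs m
    rwa [show (τ (e m).1).get (e m).2 = i from Option.get_of_eq_some _ hl] at this
  choose F c M hc hM hF using hone
  have hpos : 0 < 1 + ∑ τ, 1 / c τ :=
    add_pos_of_pos_of_nonneg one_pos (sum_nonneg fun τ _ => (one_div_pos.2 (hc τ)).le)
  refine ⟨univ.biUnion F, 1 / (1 + ∑ τ, 1 / c τ), ∑ τ, M τ, one_div_pos.2 hpos,
    sum_nonneg fun τ _ => hM τ, fun y τ hτ => ?_⟩
  obtain ⟨σ, hσ, U, h⟩ := hF ⟨τ, hτ⟩ y
  refine ⟨σ, mem_biUnion.2 ⟨_, mem_univ _, hσ⟩, U, fun l i hl => ⟨(h l i hl).1,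
    (h l i hl).2.1.trans (single_le_sum (fun τ _ => hM τ) (mem_univ _)),
    (mul_le_mul_of_nonneg_right ?_ (norm_nonneg _)).trans (h l i hl).2.2⟩⟩
  rw [one_div_le hpos (hc _)]
  exact (single_le_sum (fun τ _ => (one_div_pos.2 (hc τ)).le) (mem_univ _)).trans
    (le_add_of_nonneg_left zero_le_one)

/-- The chart of every element and type. -/
theorem exists_chart [ProperSpace k] (S : Parts ρ) (hh : S.Hits) (C₀ : ℝ) :
    ∃ (B : ℝ) (X : Γ → Pattern S → Matrix (Fin n) (Fin n) k),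
      (∀ y τ, ∃ Xi, Bdd B (X y τ) Xi) ∧ ∀ y g : Γ,
      (∀ j ≤ n, ∀ i, ‖S.blk j i g‖ * ‖S.blk j i (g⁻¹ * y)‖ ≤ C₀ * ‖S.blk j i y‖) →
      ∃ (τ : Pattern S) (a : Fin n → k) (R Ri : Matrix (Fin n) (Fin n) k),
        X y τ * (ρ g : Matrix (Fin n) (Fin n) k) = diagonal a * R ∧ Bdd B R Ri ∧ (∀ i, a i ≠ 0) ∧
          ∀ i l, i ≤ l → ‖a l‖ ≤ B * ‖a i‖ := by
  classical
  obtain ⟨C, hC, hpiv⟩ := exists_pivot (k := k) n
  obtain ⟨Cl, hCl, hlu⟩ := exists_lu (k := k) n
  obtain ⟨T, hT, htypes⟩ := exists_types S hC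
  obtain ⟨F, c, MU, hc, hMU, hpush⟩ := exists_push_type S hh
  have hC0 : 0 ≤ C := zero_le_one.trans hC
  set C₁ : ℝ := n * (C * Cl) + Cl + 1 with hC₁
  have hC₁1 : 1 ≤ C₁ := le_add_of_nonneg_left (by positivity)
  choose CL hCL using fun (l : Fin n) i => S.lift_le l.1 i l.2.le
  set Lb : ℝ := 1 + ∑ l, ∑ i, |CL l i|
  have hLb0 : 0 ≤ Lb :=
    add_nonneg zero_le_one (sum_nonneg fun _ _ => sum_nonneg fun _ _ => abs_nonneg _)
  set N : ℕ → ℝ := fun j => (Fintype.card (Sub n j) : ℝ) with hN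
  set H : ℕ → ℝ := fun j => j.factorial * C₁ ^ j with hH
  set Fs : ℕ → ℝ := fun j => 1 + ∑ σ ∈ F, ‖cm ρ j σ‖ with hFs
  set G : ℕ → ℝ := fun j => N j * (H j * (j.factorial * C ^ j)) * (N j * (N j * Fs j) * MU * Lb)
    with hG
  have hH0 : ∀ j, 0 ≤ H j := fun j => by simp only [hH]; positivity
  have hFs0 : ∀ j, 0 ≤ Fs j := fun j => by
    simp only [hFs]; exact add_nonneg zero_le_one (sum_nonneg fun _ _ => norm_nonneg _)
  set C₂ : ℝ := C + C₁ + |C₀| * T / c * (1 + ∑ j ∈ range (n + 1), H j * G j) with hC₂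
  have hG0 : ∀ j, 0 ≤ G j := fun j => by
    have := hH0 j
    have := hFs0 j
    have : 0 ≤ N j := by simp only [hN]; exact Nat.cast_nonneg _
    simp only [hG]
    positivity
  have hS0 : 0 ≤ ∑ j ∈ range (n + 1), H j * G j := sum_nonneg fun j _ => mul_nonneg (hH0 j) (hG0 j)
  have hC₂1 : 1 ≤ C₂ := le_trans hC ((le_add_of_nonneg_right (zero_le_one.trans hC₁1)).trans
    (le_add_of_nonneg_right (by positivity)))
  set c₁ : ℝ := 1 / (1 + ∑ j ∈ range (n + 1), N j * H j) with hc₁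
  have hc₁0 : 0 < c₁ := one_div_pos.2 (add_pos_of_pos_of_nonneg one_pos
    (sum_nonneg fun j _ => mul_nonneg (Nat.cast_nonneg _) (hH0 j)))
  obtain ⟨B, hB, hcore⟩ := core_gap (k := k) n hC₂1 hc₁0 (hT.trans (le_add_of_nonneg_right hC0))
  set Bi : ℝ := n.factorial * C₁ ^ n * (n.factorial * (B + 1) ^ n) with hBi
  have hsel : ∀ y (τ : Pattern S), ∃ (K Ki : Matrix (Fin n) (Fin n) k), Bdd Cl K Ki ∧
      (τ.Real → ∃ σ ∈ F, ∃ U : Matrix (Fin n) (Fin n) k, ∀ l i, τ l = some i →
        S.lift l.1 i *ᵥ topCol l.2.le U = topCol l.2.le U ∧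
          ‖topCol l.2.le U‖ ≤ MU ∧
          c * ‖S.blk l.1 i y‖ ≤ ‖cm ρ l.1 (y * σ) *ᵥ topCol l.2.le U‖ ∧
          ∃ μ : k, cm ρ l.1 (y * σ) *ᵥ topCol l.2.le U = μ • topCol l.2.le K) := by
    intro y τ
    by_cases hτ : τ.Real
    swap
    · obtain ⟨K, Ki, -, -, hK, -⟩ := hlu (1 : Matrix (Fin n) (Fin n) k)
      exact ⟨K, Ki, hK, fun h => absurd h hτ⟩
    obtain ⟨σ, hσ, U, h⟩ := hpush y τ hτ
    obtain ⟨K, Ki, R, hM, hK, hR⟩ := hlu ((ρ (y * σ) : Matrix (Fin n) (Fin n) k) * U)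
    refine ⟨K, Ki, hK, fun _ => ⟨σ, hσ, U, fun l i hl => ⟨(h l i hl).1, (h l i hl).2.1,
      (h l i hl).2.2, _,
      Eq.trans ?_ (topCol_mul_upper l.2.le K R hR)⟩⟩⟩
    rw [← hM]
    funext s
    rw [topCol, cmp_mul]
    rfl
  choose K Ki hK hKτ using hsel
  refine ⟨Cl + (n * ((Bi + B + 1) * C) + C), fun y τ => Ki y τ, fun y τ => ⟨K y τ,
    (hK y τ).2.1, (hK y τ).1, (hK y τ).2.2.2.trans (le_add_of_nonneg_right (by positivity)),
    (hK y τ).2.2.1.trans (le_add_of_nonneg_right (by positivity))⟩, fun y g hadd => ?_⟩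
  obtain ⟨U, Ui, U', Ui', e, hz, hU, hU', hdec⟩ := hpiv (ρ g : Matrix (Fin n) (Fin n) k)
  have he : ∀ i, e i ≠ 0 := fun i hi => by
    have := congrArg det hz
    rw [(ρ g).2, det_mul, det_mul, det_diagonal, prod_eq_zero (mem_univ i) hi] at this
    simp at this
  obtain ⟨τ, hτ, hfull, hgap⟩ := htypes g U Ui U' Ui' e hz hU hU' he hdec
  obtain ⟨σ, hσ, U₀, hU₀⟩ := hKτ y τ hτ
  set K₀ := K y τ
  set Ki₀ := Ki y τ
  have hK₀ : Bdd Cl K₀ Ki₀ := hK y τ
  have hNb : ‖Ui * K₀‖ ≤ C₁ ∧ ‖Ki₀ * U‖ ≤ C₁ := by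
    constructor <;> refine (norm_mul_le_card _ _).trans ?_ <;> rw [Fintype.card_fin, hC₁]
    · linarith [mul_le_mul_of_nonneg_left (mul_le_mul hU.2.2.2 hK₀.2.2.1 (norm_nonneg _) hC0)
        (Nat.cast_nonneg (α := ℝ) n)]
    · linarith [mul_le_mul_of_nonneg_left (mul_le_mul hK₀.2.2.2 hU.2.2.1 (norm_nonneg _)
        (zero_le_one.trans hCl)) (Nat.cast_nonneg (α := ℝ) n)]
  have hHb : ∀ j, ∀ A : Matrix (Fin n) (Fin n) k, ‖A‖ ≤ C₁ → ‖cmp j A‖ ≤ H j := fun j A hA =>
    (norm_cmp_le j A).trans (mul_le_mul_of_nonneg_left (pow_le_pow_left₀ (norm_nonneg _) hA j)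
      (Nat.cast_nonneg _))
  set α : Fin n → ℝ := fun i => ‖e i‖
  have hα : ∀ i, 0 < α i := fun i => norm_pos_iff.2 (he i)
  have hCC₂ : C ≤ C₂ := (le_add_of_nonneg_right (zero_le_one.trans hC₁1)).trans
    (le_add_of_nonneg_right (by positivity))
  have f1 : ∀ i l, ‖(Ui * K₀) i l‖ * α l ≤ B * α i := by
    refine hcore (Ui * K₀) α (fun l => (τ l).isSome) hα (fun i l h => (hdec i l h).trans
      (mul_le_mul_of_nonneg_right hCC₂ (norm_nonneg _))) (fun i l =>
        (norm_entry_le_entrywise_sup_norm _).trans (hNb.1.trans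
          ((le_add_of_nonneg_left hC0).trans (le_add_of_nonneg_right (by positivity))))) ?_ ?_ ?_
    · intro b hb
      obtain ⟨t, π, ht⟩ := exists_sub (Fin.castLE hb) (Fin.castLE_injective hb)
      have h1 : cmp b (Ki₀ * U) * cmp b (Ui * K₀) = 1 := by
        rw [← cmp_mul, Matrix.mul_assoc, ← Matrix.mul_assoc U, hU.1, one_mul, hK₀.2.1, cmp_one]
      have h2 := congrFun (congrFun h1 t) t
      rw [Matrix.mul_apply, one_apply_eq] at h2
      have : Nonempty (Sub n b) := ⟨t⟩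
      obtain ⟨s, hs⟩ := Finite.exists_max fun s => ‖cmp b (Ui * K₀) s t‖
      have h4 : 1 ≤ N b * H b * ‖cmp b (Ui * K₀) s t‖ := by
        rw [← norm_one (α := k), ← h2]
        refine (norm_sum_le _ _).trans ((sum_le_card_nsmul _ _
          (H b * ‖cmp b (Ui * K₀) s t‖) fun r _ => ?_).trans_eq ?_)
        · rw [norm_mul]
          exact mul_le_mul ((norm_entry_le_entrywise_sup_norm _).trans (hHb b _ hNb.2)) (hs r)
            (norm_nonneg _) (hH0 b)
        · rw [nsmul_eq_mul, card_univ, mul_assoc (N b)]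
      refine ⟨fun i => emb s (π i), (emb s).injective.comp π.injective, ?_⟩
      rw [show (Ui * K₀).submatrix (fun i => emb s (π i)) (Fin.castLE hb) =
        ((Ui * K₀).submatrix (emb s) (emb t)).submatrix π π by ext u v; simp [ht], norm_det_perm]
      change c₁ ≤ ‖cmp b (Ui * K₀) s t‖
      have hNH : N b * H b ≤ 1 + ∑ j ∈ range (n + 1), N j * H j :=
        (single_le_sum (f := fun j => N j * H j) (fun j _ => mul_nonneg (Nat.cast_nonneg _) (hH0 j))
          (mem_range.2 (Nat.lt_succ_of_le hb))).trans (le_add_of_nonneg_left zero_le_one)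
      rw [hc₁, div_le_iff₀ (lt_of_lt_of_le one_pos (le_add_of_nonneg_right
        (sum_nonneg fun j _ => mul_nonneg (Nat.cast_nonneg _) (hH0 j))))]
      linarith [mul_le_mul_of_nonneg_right hNH (norm_nonneg (cmp b (Ui * K₀) s t))]
    · rintro ⟨j, hjn⟩ hl f hf
      obtain ⟨i, hi⟩ := Option.isSome_iff_exists.1 hl
      obtain ⟨hPu, huM, hlow, μ, hμ⟩ := hU₀ ⟨j, hjn⟩ i hi
      change S.lift j i *ᵥ _ = _ at hPu
      set u := topCol hjn.le U₀
      set P := S.lift j i
      set x := g⁻¹ * y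
      have hxy : cm ρ j (y * σ) = cm ρ j g * (cm ρ j x * cm ρ j σ) := by
        rw [← cm_mul, ← cm_mul, ← mul_assoc g, mul_inv_cancel_left]
      set w : Sub n j → k := cmp j U' *ᵥ (cm ρ j x * P * cm ρ j σ) *ᵥ u with hw
      have hcol : μ • topCol hjn.le (Ui * K₀) = diagonal (fun s => ∏ i, e (emb s i)) *ᵥ w := by
        have e1 : topCol hjn.le (Ui * K₀) = cmp j Ui *ᵥ topCol hjn.le K₀ := by
          funext s; rw [topCol, cmp_mul]; rfl
        have e2 : (cm ρ j x * cm ρ j σ) *ᵥ u = (cm ρ j x * P * cm ρ j σ) *ᵥ u := by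
          have e3 : P *ᵥ (cm ρ j σ *ᵥ u) = cm ρ j σ *ᵥ u := by
            conv_rhs => rw [← hPu, mulVec_mulVec, S.lift_inv]
            rw [← mulVec_mulVec, ← mulVec_mulVec, hPu]
          rw [← mulVec_mulVec, ← mulVec_mulVec, ← mulVec_mulVec, e3]
        rw [e1, ← mulVec_smul, ← hμ]
        change cmp j Ui *ᵥ (cm ρ j (y * σ) *ᵥ u) = _
        rw [hxy, ← mulVec_mulVec u (cm ρ j g), e2, hw]
        simp only [mulVec_mulVec]
        congr 1
        rw [cm, hz, cmp_mul, cmp_mul, cmp_diagonal]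
        simp only [Matrix.mul_assoc]
        rw [← Matrix.mul_assoc (cmp j Ui), ← cmp_mul, hU.2.1, cmp_one, one_mul]
      have hpx : 0 < ‖S.blk j i x‖ := S.norm_blk_pos hjn.le x i
      -- the column pushed by the frame
      have hwb : ‖w‖ ≤ G j * ‖S.blk j i x‖ := by
        refine (norm_mulVec_le _ _).trans ?_
        have h1 : ‖cmp j U'‖ ≤ H j * (j.factorial * C ^ j) := ((norm_cmp_le j U').trans
          (mul_le_mul_of_nonneg_left (pow_le_pow_left₀ (norm_nonneg _) hU'.2.2.1 j)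
            (Nat.cast_nonneg _))).trans (le_mul_of_one_le_left (by positivity)
              (one_le_mul_of_one_le_of_one_le (Nat.one_le_cast.2 j.factorial_pos)
                (one_le_pow₀ hC₁1)))
        have hσ' : ‖cm ρ j σ‖ ≤ Fs j :=
          (single_le_sum (f := fun σ => ‖cm ρ j σ‖) (fun _ _ => norm_nonneg _) hσ).trans
            (le_add_of_nonneg_left zero_le_one)
        have hN0 : 0 ≤ N j := by simp only [hN]; exact Nat.cast_nonneg _
        have h3 : ‖cm ρ j x * P‖ ≤ Lb * ‖S.blk j i x‖ :=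
          (hCL (⟨j, hjn⟩ : Fin n) i x).trans (mul_le_mul_of_nonneg_right ((le_abs_self _).trans
            (((single_le_sum (f := fun i => |CL (⟨j, hjn⟩ : Fin n) i|) (fun _ _ => abs_nonneg _)
              (mem_univ i)).trans (single_le_sum (f := fun l => ∑ i, |CL l i|)
                (fun _ _ => sum_nonneg fun _ _ => abs_nonneg _) (mem_univ (⟨j, hjn⟩ : Fin n)))).trans
              (le_add_of_nonneg_left zero_le_one))) (norm_nonneg _))
        have h2 : ‖(cm ρ j x * P * cm ρ j σ) *ᵥ u‖ ≤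
            N j * (N j * Fs j) * MU * Lb * ‖S.blk j i x‖ := by
          refine le_trans (le_trans ?_ (mul_le_mul_of_nonneg_left h3
            (show 0 ≤ N j * (N j * Fs j) * MU from
              mul_nonneg (mul_nonneg hN0 (mul_nonneg hN0 (hFs0 j))) hMU))) (le_of_eq (by ring))
          refine (norm_mulVec_le _ _).trans ?_
          refine (mul_le_mul_of_nonneg_left (mul_le_mul ((norm_mul_le_card _ _).trans
            (mul_le_mul_of_nonneg_left (mul_le_mul_of_nonneg_left hσ' (norm_nonneg _))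
              (Nat.cast_nonneg _))) huM (norm_nonneg _)
            (mul_nonneg hN0 (mul_nonneg (norm_nonneg _) (hFs0 j)))) (Nat.cast_nonneg _)).trans_eq ?_
          simp only [hN]
          ring
        refine (mul_le_mul_of_nonneg_left (mul_le_mul h1 h2 (norm_nonneg _)
          (mul_nonneg (hH0 j) (by positivity))) (Nat.cast_nonneg _)).trans_eq ?_
        simp only [hG, hN]
        ring
      obtain ⟨s, π, hs⟩ := exists_sub f hf
      obtain ⟨t, π', ht⟩ := exists_sub (Fin.castLE hjn.le) (Fin.castLE_injective hjn.le)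
      have htop : t = topSub hjn.le := by
        refine Subtype.ext (Finset.ext fun v => ?_)
        rw [topSub, mem_iff]
        simp only [mem_map, mem_univ, true_and, Fin.castLEEmb_apply]
        constructor
        · rintro ⟨b, rfl⟩
          obtain ⟨b', rfl⟩ := π'.surjective b
          exact ⟨b', ht b'⟩
        · rintro ⟨b, rfl⟩
          exact ⟨π' b, (ht b).symm⟩
      have hdet : ‖((Ui * K₀).submatrix f (Fin.castLE hjn.le)).det‖ =
          ‖topCol hjn.le (Ui * K₀) s‖ := by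
        rw [show (Ui * K₀).submatrix f (Fin.castLE hjn.le) =
          ((Ui * K₀).submatrix (emb s) (emb t)).submatrix π π' by ext u v; simp [hs, ht],
          norm_det_perm, htop]
        rfl
      have hprod : ∏ i, α (f i) = ∏ i, α (emb s i) := by
        simp only [hs]; exact Equiv.prod_comp π fun i => α (emb s i)
      rw [hdet, hprod]
      have h3 : ‖μ‖ * ‖topCol hjn.le (Ui * K₀) s‖ ≤ (∏ i, α (emb s i)) * ‖w‖ := by
        rw [← norm_mul, show μ * topCol hjn.le (Ui * K₀) s = _ from congrFun hcol s,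
          mulVec_diagonal, norm_mul, norm_prod]
        exact mul_le_mul_of_nonneg_left (norm_le_pi_norm w s) (prod_nonneg fun _ _ => (hα _).le)
      have h4 : c * ‖S.blk j i y‖ ≤ ‖μ‖ * H j := by
        refine hlow.trans ?_
        rw [hμ, norm_smul]
        refine mul_le_mul_of_nonneg_left ((pi_norm_le_iff_of_nonneg (hH0 j)).2 fun r =>
          (norm_entry_le_entrywise_sup_norm (cmp j K₀) (i := r) (j := topSub hjn.le)).trans
            (hHb j K₀ (hK₀.2.2.1.trans ?_))) (norm_nonneg μ)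
        rw [hC₁]
        linarith [show 0 ≤ (n : ℝ) * (C * Cl) by positivity]
      have h5 := hadd j hjn.le i
      have h6 := hfull ⟨j, hjn⟩ i hi
      change pa α hjn.le ≤ T * ‖S.blk j i g‖ at h6
      have hc2 : |C₀| * T * (H j * G j) ≤ C₂ * c := by
        have := single_le_sum (f := fun j => H j * G j) (fun j _ => mul_nonneg (hH0 j) (hG0 j))
          (mem_range.2 (Nat.lt_succ_of_le hjn.le))
        have h7 : |C₀| * T / c * (1 + ∑ j ∈ range (n + 1), H j * G j) ≤ C₂ :=
          le_add_of_nonneg_left (by positivity)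
        rw [div_mul_eq_mul_div, div_le_iff₀ hc] at h7
        linarith [mul_le_mul_of_nonneg_left this (show 0 ≤ |C₀| * T by positivity),
          show 0 ≤ |C₀| * T by positivity]
      have hC0' : ‖S.blk j i g‖ * ‖S.blk j i x‖ ≤ |C₀| * ‖S.blk j i y‖ :=
        h5.trans (mul_le_mul_of_nonneg_right (le_abs_self C₀) (norm_nonneg _))
      set t := ‖topCol hjn.le (Ui * K₀) s‖
      set Q := ∏ i, α (emb s i)
      have hQ : 0 ≤ Q := prod_nonneg fun _ _ => (hα _).le
      have h7 : c * t * pa α hjn.le * ‖S.blk j i x‖ ≤ |C₀| * T * (H j * G j) * Q * ‖S.blk j i x‖ :=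
        calc c * t * pa α hjn.le * ‖S.blk j i x‖
            ≤ c * t * (T * ‖S.blk j i g‖) * ‖S.blk j i x‖ :=
              mul_le_mul_of_nonneg_right (mul_le_mul_of_nonneg_left h6
                (mul_nonneg hc.le (norm_nonneg _))) (norm_nonneg _)
          _ = T * t * (c * (‖S.blk j i g‖ * ‖S.blk j i x‖)) := by ring
          _ ≤ T * t * (c * (|C₀| * ‖S.blk j i y‖)) :=
              mul_le_mul_of_nonneg_left (mul_le_mul_of_nonneg_left hC0' hc.le) (by positivity)
          _ = T * t * |C₀| * (c * ‖S.blk j i y‖) := by ring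
          _ ≤ T * t * |C₀| * (‖μ‖ * H j) := mul_le_mul_of_nonneg_left h4 (by positivity)
          _ = T * |C₀| * H j * (‖μ‖ * t) := by ring
          _ ≤ T * |C₀| * H j * (Q * (G j * ‖S.blk j i x‖)) :=
              mul_le_mul_of_nonneg_left (h3.trans (mul_le_mul_of_nonneg_left hwb hQ))
                (mul_nonneg (by positivity) (hH0 j))
          _ = _ := by ring
      refine le_of_mul_le_mul_left ?_ hc
      have h8 := le_of_mul_le_mul_right h7 hpx
      have h9 := mul_le_mul_of_nonneg_right hc2 hQ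
      linarith
    · intro l hl hno
      refine (hgap l hl (Option.not_isSome_iff_eq_none.1 hno)).trans ?_
      exact mul_le_mul_of_nonneg_right (le_add_of_nonneg_right hC0) (norm_nonneg _)
  set D : Matrix (Fin n) (Fin n) k := diagonal e
  set W : Matrix (Fin n) (Fin n) k := diagonal (fun i => (e i)⁻¹) * (Ui * K₀) * D with hW
  set W' : Matrix (Fin n) (Fin n) k := diagonal (fun i => (e i)⁻¹) * (Ki₀ * U) * D with hW'
  have hdd : D * diagonal (fun i => (e i)⁻¹) = 1 := by
    rw [diagonal_mul_diagonal, ← diagonal_one]; congr 1; funext i; exact mul_inv_cancel₀ (he i)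
  have hWW : W * W' = 1 := by
    rw [hW, hW']
    simp only [Matrix.mul_assoc]
    rw [← Matrix.mul_assoc D (diagonal _), hdd, one_mul, ← Matrix.mul_assoc K₀,
      hK₀.1, one_mul, ← Matrix.mul_assoc Ui, hU.2.1, one_mul]
    rw [diagonal_mul_diagonal, ← diagonal_one]; congr 1; funext i; exact inv_mul_cancel₀ (he i)
  have hWb : ∀ i l, ‖W i l‖ ≤ B + 1 := fun i l => by
    rw [hW, mul_diagonal, diagonal_mul, norm_mul, norm_mul, norm_inv, mul_assoc,
      inv_mul_le_iff₀ (norm_pos_iff.2 (he i))]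
    linarith [f1 i l, hα i]
  have hBi0 : 0 ≤ Bi := by positivity
  have hW'adj : W' = W'.det • W.adjugate := by
    have h1 : W.adjugate = W.det • W' := by
      calc W.adjugate = W.adjugate * (W * W') := by rw [hWW, mul_one]
        _ = W.det • W' := by rw [← Matrix.mul_assoc, adjugate_mul, Matrix.smul_mul, one_mul]
    rw [h1, smul_smul, ← det_mul, mul_eq_one_comm.1 hWW, det_one, one_smul]
  have hW'b : ∀ i l, ‖W' i l‖ ≤ Bi := fun i l => by
    have hdet : ‖W'.det‖ ≤ n.factorial * C₁ ^ n := by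
      have e1 : W'.det = (Ki₀ * U).det := by
        rw [hW', det_mul, det_mul, mul_comm, ← mul_assoc, ← det_mul, hdd, det_one, one_mul]
      rw [e1]
      exact norm_det_le _ fun u v => (norm_entry_le_entrywise_sup_norm _).trans hNb.2
    rw [hW'adj, Matrix.smul_apply, smul_eq_mul, norm_mul]
    exact mul_le_mul hdet (adjugate_entry_le (le_add_of_nonneg_left hB) W hWb i l) (norm_nonneg _)
      (by positivity)
  have hWB : Bdd (Bi + B + 1) W' W := ⟨mul_eq_one_comm.1 hWW, hWW,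
    (Matrix.norm_le_iff (by positivity)).2 fun i l => (hW'b i l).trans (by linarith),
    (Matrix.norm_le_iff (by positivity)).2 fun i l => (hWb i l).trans (by linarith)⟩
  have hR := hWB.mul hU'
  have hCB : C ≤ Cl + (n * ((Bi + B + 1) * C) + C) :=
    (le_add_of_nonneg_left (by positivity)).trans (le_add_of_nonneg_left (zero_le_one.trans hCl))
  refine ⟨τ, e, _, _, ?_, ⟨hR.1, hR.2.1,
    (hR.2.2.1.trans (le_add_of_nonneg_right hC0)).trans
      (le_add_of_nonneg_left (zero_le_one.trans hCl)),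
    (hR.2.2.2.trans (le_add_of_nonneg_right hC0)).trans
      (le_add_of_nonneg_left (zero_le_one.trans hCl))⟩, he,
    fun i l h => (hdec i l h).trans (mul_le_mul_of_nonneg_right hCB (norm_nonneg _))⟩
  change Ki₀ * (ρ g : Matrix (Fin n) (Fin n) k) = _
  rw [hz, hW']
  simp only [← Matrix.mul_assoc]
  rw [show diagonal e * diagonal (fun i => (e i)⁻¹) = 1 from hdd, one_mul]

end Vale.Agent.P165.EX.Semi
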