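import Vale.Agent.P165.EX.Semi.Decode

/-!
# Semisimple images: kept tests read off the sizes of candidates

The defects of the rows of all charts of one product change coarsely as fast as the sizes on the
summands at its candidates, so a Lipschitz function of them gives the sizes there.
-/

namespace Vale.Agent.P165.EX.Semi

open Finset Matrix
open scoped Matrix.Norms.Elementwise MatrixGroups

/-- A function which is coarsely Lipschitz on a set in finitely many coordinates agrees there,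
up to a constant, with a Lipschitz function of them. -/
theorem exists_extension {α β κ : Type} [Fintype β] (f : α → β → ℝ) (g : α → κ → ℝ) {L C : ℝ}
    (hL : 0 ≤ L) (s : Set α) (h : ∀ z ∈ s, ∀ w ∈ s, ∀ j, g w j - g z j ≤ L * ‖f w - f z‖ + C) :
    ∃ code : α → κ → ℝ, (∀ a b j, code a j - code b j ≤ L * ‖f a - f b‖) ∧
      ∀ z ∈ s, ∀ j, |code z j - g z j| ≤ C := by
  refine ⟨fun a j => ⨆ w : s, (g w j - L * ‖f a - f w‖), fun a b j => ?_, fun z hz j => ?_⟩
  all_goals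
    have hbdd : ∀ a j, BddAbove (Set.range fun w : s => g w j - L * ‖f a - f w‖) := fun a j => by
      rcases s.eq_empty_or_nonempty with rfl | ⟨z, hz⟩
      · exact ⟨0, by rintro _ ⟨⟨w, hw⟩, -⟩; exact absurd hw (Set.notMem_empty w)⟩
      refine ⟨g z j + C + L * ‖f a - f z‖, ?_⟩
      rintro _ ⟨⟨w, hw⟩, rfl⟩
      have h1 := h z hz w hw j
      have h2 := mul_le_mul_of_nonneg_left (norm_sub_le_norm_sub_add_norm_sub (f w) (f a) (f z)) hL
      rw [norm_sub_rev (f w) (f a)] at h2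
      linarith
  · rcases isEmpty_or_nonempty s with hs | hs
    · simp only [Real.iSup_of_isEmpty, sub_zero]
      positivity
    rw [sub_le_iff_le_add]
    refine ciSup_le fun w => ?_
    refine le_trans ?_ (add_le_add_right (le_ciSup (hbdd b j) w) _)
    have h2 := mul_le_mul_of_nonneg_left (norm_sub_le_norm_sub_add_norm_sub (f b) (f a) (f w)) hL
    rw [norm_sub_rev (f b) (f a)] at h2
    linarith
  · have : Nonempty s := ⟨⟨z, hz⟩⟩
    have h1 := le_ciSup (hbdd z j) ⟨z, hz⟩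
    rw [sub_self, norm_zero, mul_zero, sub_zero] at h1
    have h2 : (⨆ w : s, (g w j - L * ‖f z - f w‖)) ≤ g z j + C := ciSup_le fun w => by
      have := h z hz w w.2 j
      rw [norm_sub_rev] at this
      linarith
    have hC : 0 ≤ C := by
      have := h z hz z hz j
      simpa using this
    rw [abs_le]
    constructor <;> linarith

section Place

variable {k : Type} [NontriviallyNormedField k] {n : ℕ}

/-- Hadamard's bound in the entrywise norm. -/
theorem norm_det_le_rows (M : Matrix (Fin n) (Fin n) k) :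
    ‖M.det‖ ≤ n.factorial * ∏ i, ‖M i‖ := by
  rw [det_apply]
  refine (norm_sum_le _ _).trans
    ((sum_le_card_nsmul _ _ (∏ i, ‖M i‖) fun σ _ => ?_).trans_eq (by simp [Fintype.card_perm]))
  have h1 : ‖∏ i, M (σ i) i‖ ≤ ∏ i, ‖M i‖ := by
    rw [norm_prod, ← Equiv.prod_comp σ fun i => ‖M i‖]
    exact prod_le_prod (fun _ _ => norm_nonneg _) fun i _ => norm_le_pi_norm (M (σ i)) i
  rcases Int.units_eq_one_or (Equiv.Perm.sign σ) with hs | hs <;> simpa [hs, norm_prod] using h1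

/-- In any bounded basis the sum of the logarithms of the rows is bounded below. -/
theorem sum_log_rows_ge (B : ℝ) : ∃ Λ : ℝ, 0 ≤ Λ ∧ ∀ z X Xi : Matrix (Fin n) (Fin n) k,
    z.det = 1 → Bdd B X Xi → -Λ ≤ ∑ i, Real.log ‖(X * z) i‖ := by
  set G : ℝ := n.factorial * (n.factorial * B ^ n)
  refine ⟨|Real.log G|, abs_nonneg _, fun z X Xi hz hX => ?_⟩
  set P := ∏ i, ‖(X * z) i‖
  have h1 : 1 ≤ P * G := by
    have hd : 1 = ‖(X * z).det‖ * ‖Xi.det‖ := by
      rw [det_mul, hz, mul_one, ← norm_mul, ← det_mul, hX.1, det_one, norm_one]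
    rw [hd]
    refine (mul_le_mul (norm_det_le_rows _) (norm_det_le Xi fun a b =>
      (norm_entry_le_entrywise_sup_norm Xi).trans hX.2.2.2) (norm_nonneg _) ?_).trans (le_of_eq ?_)
    · positivity
    · simp only [P, G]; ring
  have hP : 0 < P := lt_of_le_of_ne (prod_nonneg fun _ _ => norm_nonneg _) fun h => by
    rw [← h, zero_mul] at h1
    linarith
  have hG : 0 < G := pos_of_mul_pos_right (zero_lt_one.trans_le h1) hP.le
  have hne : ∀ i ∈ (univ : Finset (Fin n)), ‖(X * z) i‖ ≠ 0 := fun i hi h =>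
    hP.ne' (prod_eq_zero hi h)
  rw [← Real.log_prod hne]
  have h2 := Real.log_le_log one_pos h1
  rw [Real.log_one, Real.log_mul hP.ne' hG.ne'] at h2
  linarith [le_abs_self (Real.log G)]

variable {Γ : Type} [Group Γ] {ρ : Γ →* SL(n, k)}

/-- The sizes on the factors grow at most by the size of the quotient. -/
theorem psize_le (hn : 0 < n) (S : Parts ρ) : ∃ C : ℝ, ∀ (j : Fin (n + 1)) (i : Fin (S.cnt j))
    (z w : Γ), S.psize j i w - S.psize j i z ≤ n * max 0 (lsize ρ (z⁻¹ * w)) + C := by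
  set K : ∀ j : Fin (n + 1), Fin (S.cnt j) → ℝ := fun j i => (Fintype.card (Sub n j) : ℝ) ^ 3 *
    j.1.factorial * (‖S.quot j i‖ * ‖S.quot j i‖)
  refine ⟨∑ j : Fin (n + 1), ∑ i : Fin (S.cnt j), |Real.log (K j i)|, fun j i z w => ?_⟩
  have hj : j.1 ≤ n := Nat.le_of_lt_succ j.2
  have hpz := S.norm_blk_pos hj z i
  have hpw := S.norm_blk_pos hj w i
  set g : Γ := z⁻¹ * w
  have hg : 0 < ‖(ρ g : Matrix (Fin n) (Fin n) k)‖ := by
    rw [← norm_cmp_one]
    exact norm_cm_pos ρ hn g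
  have hP : 0 < ‖S.quot j i‖ := norm_pos_iff.2 (S.ne_zero j i hj)
  have hN : 0 < (Fintype.card (Sub n j) : ℝ) := by
    have : Nonempty (Sub n j) := sub_nonempty hj
    exact Nat.cast_pos.2 Fintype.card_pos
  have h1 : ‖S.blk j i w‖ ≤ K j i *
      (‖S.blk j i z‖ * ‖(ρ g : Matrix (Fin n) (Fin n) k)‖ ^ j.1) := by
    have e : S.blk j i w = S.blk j i z * (S.quot j i * cm ρ j g * S.quot j i) := by
      change _ = S.blk j i z * S.blk j i g
      rw [← S.blk_mul, mul_inv_cancel_left]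
    rw [e]
    refine (norm_mul_le_card _ _).trans ?_
    refine le_trans (mul_le_mul_of_nonneg_left (mul_le_mul_of_nonneg_left ((norm_mul_le_card _ _).trans
      (mul_le_mul_of_nonneg_left (mul_le_mul_of_nonneg_right ((norm_mul_le_card _ _).trans
        (mul_le_mul_of_nonneg_left (mul_le_mul_of_nonneg_left (norm_cmp_le _ _) (norm_nonneg _))
          (Nat.cast_nonneg _))) (norm_nonneg _))
        (Nat.cast_nonneg _))) (norm_nonneg _)) (Nat.cast_nonneg _)) (le_of_eq ?_)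
    simp only [K]
    ring
  have h2 := Real.log_le_log hpw h1
  have hK : 0 < K j i :=
    mul_pos (mul_pos (pow_pos hN 3) (Nat.cast_pos.2 (Nat.factorial_pos _))) (mul_pos hP hP)
  rw [Real.log_mul hK.ne' (mul_pos hpz (pow_pos hg _)).ne', Real.log_mul hpz.ne' (pow_pos hg _).ne',
    Real.log_pow] at h2
  have h3 : (j.1 : ℝ) * Real.log ‖(ρ g : Matrix (Fin n) (Fin n) k)‖ ≤
      n * max 0 (lsize ρ g) :=
    (mul_le_mul_of_nonneg_left (le_max_right 0 _) (Nat.cast_nonneg _)).trans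
      (mul_le_mul_of_nonneg_right (Nat.cast_le.2 hj) (le_max_left _ _))
  have h4 := (le_abs_self (Real.log (K j i))).trans
    ((single_le_sum (f := fun i => |Real.log (K j i)|) (fun _ _ => abs_nonneg _)
        (mem_univ i)).trans
      (single_le_sum (f := fun j => ∑ i, |Real.log (K j i)|)
        (fun _ _ => sum_nonneg fun _ _ => abs_nonneg _) (mem_univ j)))
  simp only [Parts.psize]
  linarith

/-- Two elements in charts differ by at most twice the change of the defects of the rows. -/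
theorem lsize_div_le (hn : 0 < n) (B : ℝ) : ∃ C : ℝ, 0 ≤ C ∧
    ∀ (X X' Xi Xi' R Ri R' Ri' : Matrix (Fin n) (Fin n) k) (a a' : Fin n → k) (z w : Γ) (δ : ℝ),
      Bdd B X Xi → Bdd B X' Xi' → Bdd B R Ri → Bdd B R' Ri' → (∀ i, a i ≠ 0) → 0 ≤ δ →
      X * (ρ z : Matrix (Fin n) (Fin n) k) = diagonal a * R →
      X' * (ρ w : Matrix (Fin n) (Fin n) k) = diagonal a' * R' →
      (∀ i, |defect ρ (rowTest X i) w - defect ρ (rowTest X i) z| ≤ δ) →
      (∀ i, |defect ρ (rowTest X' i) w - defect ρ (rowTest X' i) z| ≤ δ) →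
      lsize ρ (z⁻¹ * w) ≤ 2 * δ + C := by
  obtain ⟨Λ, hΛ0, hΛ⟩ := sum_log_rows (k := k) hn B
  obtain ⟨Λ', hΛ'0, hΛ'⟩ := sum_log_rows_ge (k := k) (n := n) B
  set K : ℝ := n * (B * B)
  refine ⟨|Real.log K| + Λ + Λ', by positivity, ?_⟩
  intro X X' Xi Xi' R Ri R' Ri' a a' z w δ hX hX' hR hR' ha hδ hz hw hd hd'
  have hB : 0 ≤ B := (norm_nonneg R).trans hR.2.2.1
  have hrow : ∀ (Y : Matrix (Fin n) (Fin n) k) (v : Γ) i,
      Real.log ‖(Y * (ρ v : Matrix (Fin n) (Fin n) k)) i‖ =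
        lsize ρ v - defect ρ (rowTest Y i) v := fun Y v i => by
    rw [defect, sub_sub_cancel, norm_rowTest]
  -- the sizes of the two elements
  have hn0 : (1 : ℝ) ≤ n := Nat.one_le_cast.2 hn
  have hsz : lsize ρ w - lsize ρ z ≤ δ + (Λ + Λ') := by
    have h1 := (abs_le.1 (hΛ _ X' Xi' R' Ri' a' (ρ w).2 hX' hR' hw)).2
    have h2 := hΛ' _ X' Xi' (ρ z).2 hX'
    simp only [hrow, sum_sub_distrib, sum_const, card_univ, Fintype.card_fin, nsmul_eq_mul] at h1 h2
    have h3 : ∑ i, defect ρ (rowTest X' i) w - ∑ i, defect ρ (rowTest X' i) z ≤ n * δ := by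
      rw [← sum_sub_distrib]
      exact (sum_le_card_nsmul _ _ δ fun i _ => (abs_le.1 (hd' i)).2).trans_eq (by simp)
    have h4 : (n : ℝ) * (lsize ρ w - lsize ρ z) ≤ n * (δ + (Λ + Λ')) := by
      have := le_mul_of_one_le_left (add_nonneg hΛ0 hΛ'0) hn0
      linarith
    exact le_of_mul_le_mul_left h4 (zero_lt_one.trans_le hn0)
  set E : ℝ := Real.exp (2 * δ + (Λ + Λ'))
  have hpos : ∀ i, 0 < ‖(diagonal a * R) i‖ := fun i => pos_of_mul_pos_right
    ((norm_pos_iff.2 (ha i)).trans_le (row_of_diag hR a i).2) (mul_nonneg (Nat.cast_nonneg _) hB)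
  have hcmp : ∀ i, ‖(X * (ρ w : Matrix (Fin n) (Fin n) k)) i‖ ≤ E * (B * ‖a i‖) := fun i => by
    refine le_trans ?_ (mul_le_mul_of_nonneg_left (row_of_diag hR a i).1 (Real.exp_pos _).le)
    rcases (norm_nonneg ((X * (ρ w : Matrix (Fin n) (Fin n) k)) i)).eq_or_lt with h | h
    · rw [← h]; positivity
    rw [← Real.log_le_log_iff h (mul_pos (Real.exp_pos _) (hpos i)),
      Real.log_mul (Real.exp_pos _).ne' (hpos i).ne', Real.log_exp, ← hz, hrow, hrow]
    linarith [(abs_le.1 (hd i)).1]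
  have hdd : diagonal (fun i => (a i)⁻¹) * diagonal a = 1 := by
    rw [diagonal_mul_diagonal, ← diagonal_one]; congr 1; funext i; exact inv_mul_cancel₀ (ha i)
  have hzi : (ρ (z⁻¹ * w) : Matrix (Fin n) (Fin n) k) =
      Ri * (diagonal (fun i => (a i)⁻¹) * (X * (ρ w : Matrix (Fin n) (Fin n) k))) := by
    conv_rhs => rw [show w = z * (z⁻¹ * w) from (mul_inv_cancel_left z w).symm, coe_mul,
      ← Matrix.mul_assoc X, hz, ← Matrix.mul_assoc (diagonal _), ← Matrix.mul_assoc (diagonal _),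
      hdd, Matrix.one_mul, ← Matrix.mul_assoc, hR.2.1, Matrix.one_mul]
  have hbound : ‖(ρ (z⁻¹ * w) : Matrix (Fin n) (Fin n) k)‖ ≤ n * (B * (E * B)) := by
    rw [hzi]
    refine (norm_mul_le_card _ _).trans ?_
    rw [Fintype.card_fin]
    refine mul_le_mul_of_nonneg_left (mul_le_mul hR.2.2.2
      ((Matrix.norm_le_iff (by positivity)).2 fun i l => ?_) (norm_nonneg _) hB) (Nat.cast_nonneg _)
    rw [diagonal_mul, norm_mul, norm_inv, inv_mul_le_iff₀ (norm_pos_iff.2 (ha i))]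
    exact ((norm_le_pi_norm _ l).trans (hcmp i)).trans (le_of_eq (by ring))
  have hg : 0 < ‖(ρ (z⁻¹ * w) : Matrix (Fin n) (Fin n) k)‖ := by
    rw [← norm_cmp_one]
    exact norm_cm_pos ρ hn _
  have hK : 0 < K := by
    have := pos_of_mul_pos_left (hg.trans_le (hbound.trans_eq (by ring :
      (n : ℝ) * (B * (E * B)) = n * (B * B) * E))) (Real.exp_pos _).le
    exact this
  have h5 := Real.log_le_log hg (hbound.trans_eq
    (by ring : (n : ℝ) * (B * (E * B)) = n * (B * B) * E))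
  rw [Real.log_mul hK.ne' (Real.exp_pos _).ne', Real.log_exp] at h5
  simp only [lsize]
  linarith [le_abs_self (Real.log K)]

end Place

variable {P : Type} [Fintype P] {k : P → Type} [∀ p, NontriviallyNormedField (k p)]
  [∀ p, ProperSpace (k p)] {d : P → ℕ} {Γ : Type} [Group Γ] {ρ : ∀ p, Γ →* SL(d p, k p)}

/-- One frame set: children keep any `q` tests, and a code which is the size on every factor at
the candidates of `y₀`. -/
theorem exists_code (hd : ∀ p, 0 < d p) (S : ∀ p, Parts (ρ p)) (hgen : ∀ p, (S p).Generic) (q : ℕ) :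
    ∃ (F : Finset Γ) (A₁ A : ℝ), 0 ≤ A₁ ∧ A₁ ≤ A ∧
      (∀ (Q : ∀ p, Fin q → Matrix (Fin (d p)) (Fin (d p)) (k p)) (w h : Γ), ∃ σ ∈ F,
        Cand S F A₁ (w * σ * h) w ∧ ∀ p,
          |lsize (ρ p) (w * σ * h) - lsize (ρ p) w - lsize (ρ p) h| ≤ A ∧
          ∀ i, Q p i ≠ 0 →
            |defect (ρ p) (Q p i) (w * σ * h) - defect (ρ p) (Q p i) w| ≤ A) ∧
      ∀ y₀ : Γ, ∃ (R : Γ → Γ → Γ)
      (code : Γ → (Σ p, Σ j : Fin (d p + 1), Fin ((S p).cnt j)) → ℝ),
      (∀ z h, R z h ∈ F ∧ Cand S F A₁ (z * R z h * h) z ∧ ∀ x,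
        |(S x.1).psize x.2.1 x.2.2 (z * R z h * h) - (S x.1).psize x.2.1 x.2.2 z -
          (S x.1).psize x.2.1 x.2.2 h| ≤ A₁ ∧ |code (z * R z h * h) x - code z x| ≤ A) ∧
      ∀ z, Cand S F A₁ y₀ z → ∀ x, |code z x - (S x.1).psize x.2.1 x.2.2 z| ≤ A := by
  classical
  set c : P → ℕ := fun p => Fintype.card (Pattern (S p) × Fin (d p))
  have hle : ∀ p, c p ≤ ∑ p, c p + q := fun p =>
    (single_le_sum (fun _ _ => Nat.zero_le _) (mem_univ p)).trans (Nat.le_add_right _ q)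
  obtain ⟨F, A₁, hA₁, hest⟩ := est_of_generic hd S hgen (∑ p, c p + q)
  have hone : ∀ (z h σ : Γ) p, (∀ (j : Fin (d p + 1)) (i : Fin ((S p).cnt j)),
      |(S p).psize j i (z * σ * h) - (S p).psize j i z - (S p).psize j i h| ≤ A₁) →
      |lsize (ρ p) (z * σ * h) - lsize (ρ p) z - lsize (ρ p) h| ≤ A₁ := fun z h σ p hs => by
    obtain ⟨i₀⟩ := exists_one (S p) (hd p)
    have h1 : |(S p).psize 1 i₀ (z * σ * h) - (S p).psize 1 i₀ z - (S p).psize 1 i₀ h| ≤ A₁ :=
      hs ⟨1, Nat.succ_lt_succ (hd p)⟩ i₀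
    rwa [psize_one, psize_one, psize_one] at h1
  obtain ⟨B, X, hX, hfitX⟩ := exists_fit S hgen F A₁
  choose Cl hCl0 hCl using fun p => lsize_div_le (ρ := ρ p) (hd p) (B p)
  choose Cp hCp using fun p => psize_le (hd p) (S p)
  set L : ℝ := ∑ p, 2 * (d p : ℝ)
  set C : ℝ := ∑ p, (|Cp p| + (d p : ℝ) * Cl p)
  have hL : 0 ≤ L := by positivity
  set A : ℝ := max (2 * A₁) (max C (L * (2 * A₁)))
  have hAA : A₁ ≤ A := le_trans (by linarith) (le_max_left _ _)
  refine ⟨F, A₁, A, hA₁, hAA, fun Q w h => ?_, fun y₀ => ?_⟩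
  · obtain ⟨σ, hσ, hs⟩ := hest (fun p l => if hl : l.1 < q then Q p ⟨l.1, hl⟩ else 0) w h
    refine ⟨σ, hσ, ⟨h, ⟨σ, hσ, rfl⟩, fun p j i => (hs p).1 j i⟩, fun p =>
      ⟨(hone w h σ p (hs p).1).trans hAA, fun i hi => le_trans ?_ (le_max_left _ _)⟩⟩
    have h1 := hone w h σ p (hs p).1
    have h2 := (hs p).2 (Fin.castLE (Nat.le_add_left _ _) i)
      (by simpa [Fin.castLE, i.2] using hi)
    simp only [Fin.val_castLE, i.2, dif_pos, Fin.eta] at h2
    simp only [defect]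
    rw [abs_le] at h1 h2 ⊢
    constructor <;> linarith
  let tests : ∀ p, Fin (∑ p, c p + q) → Matrix (Fin (d p)) (Fin (d p)) (k p) := fun p i =>
    if h : i.1 < c p then
      rowTest (X p y₀ ((Fintype.equivFin _).symm ⟨i.1, h⟩).1) ((Fintype.equivFin _).symm ⟨i.1, h⟩).2
    else 0
  choose R hR using fun z h : Γ => hest tests z h
  set f : Γ → (Σ p, Pattern (S p) × Fin (d p)) → ℝ := fun z x =>
    defect (ρ x.1) (rowTest (X x.1 y₀ x.2.1) x.2.2) z
  have hLip : ∀ z, Cand S F A₁ y₀ z → ∀ w, Cand S F A₁ y₀ w →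
      ∀ x : Σ p, Σ j : Fin (d p + 1), Fin ((S p).cnt j),
        (S x.1).psize x.2.1 x.2.2 w - (S x.1).psize x.2.1 x.2.2 z ≤ L * ‖f w - f z‖ + C := by
    rintro z hz w hw ⟨p, j, i⟩
    obtain ⟨τ, a, U, Ui, e, hU, ha, -⟩ := hfitX y₀ z hz p
    obtain ⟨τ', a', U', Ui', e', hU', -, -⟩ := hfitX y₀ w hw p
    obtain ⟨Xi, hXi⟩ := hX p y₀ τ
    obtain ⟨Xi', hXi'⟩ := hX p y₀ τ'
    have hf : ∀ t i, |defect (ρ p) (rowTest (X p y₀ t) i) w -
        defect (ρ p) (rowTest (X p y₀ t) i) z| ≤ ‖f w - f z‖ := fun t i =>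
      norm_le_pi_norm (f w - f z) ⟨p, t, i⟩
    have h1 := hCl p _ _ Xi Xi' U Ui U' Ui' a a' z w _ hXi hXi' hU hU' ha (norm_nonneg _) e e'
      (hf τ) (hf τ')
    have h2 := hCp p j i z w
    have h3 : max 0 (lsize (ρ p) (z⁻¹ * w)) ≤ 2 * ‖f w - f z‖ + Cl p :=
      max_le (by linarith [hCl0 p, norm_nonneg (f w - f z)]) h1
    have h4 := mul_le_mul_of_nonneg_left h3 (Nat.cast_nonneg (d p) (α := ℝ))
    have h5 : 2 * (d p : ℝ) * ‖f w - f z‖ ≤ L * ‖f w - f z‖ := mul_le_mul_of_nonneg_right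
      (single_le_sum (f := fun p => 2 * (d p : ℝ)) (fun _ _ => by positivity) (mem_univ p))
      (norm_nonneg _)
    have h6 : |Cp p| + (d p : ℝ) * Cl p ≤ C := single_le_sum
      (f := fun p => |Cp p| + (d p : ℝ) * Cl p)
      (fun p _ => add_nonneg (abs_nonneg _) (mul_nonneg (Nat.cast_nonneg _) (hCl0 p))) (mem_univ p)
    change (S p).psize j i w - (S p).psize j i z ≤ _
    linarith [le_abs_self (Cp p)]
  obtain ⟨code, hc1, hc2⟩ := exists_extension f
    (fun z (x : Σ p, Σ j : Fin (d p + 1), Fin ((S p).cnt j)) => (S x.1).psize x.2.1 x.2.2 z)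
    hL {z | Cand S F A₁ y₀ z} hLip
  refine ⟨R, code, fun z h => ⟨(hR z h).1, ⟨h, ⟨R z h, (hR z h).1, rfl⟩, fun p j i =>
    ((hR z h).2 p).1 j i⟩, fun x => ⟨((hR z h).2 x.1).1 x.2.1 x.2.2, ?_⟩⟩,
    fun z hz x => (hc2 z hz x).trans ((le_max_left _ _).trans (le_max_right _ _))⟩
  have hkeep : ‖f (z * R z h * h) - f z‖ ≤ 2 * A₁ := by
    refine (pi_norm_le_iff_of_nonneg (by positivity)).2 fun ⟨p, t, i⟩ => ?_
    have h1 := hone z h (R z h) p ((hR z h).2 p).1
    set l : Fin (∑ p, c p + q) := Fin.castLE (hle p) (Fintype.equivFin _ (t, i))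
    have e : tests p l = rowTest (X p y₀ t) i := by
      have h : l.1 < c p := (Fintype.equivFin _ (t, i)).2
      simp only [tests, dif_pos h]
      rw [show (⟨l.1, h⟩ : Fin (c p)) = Fintype.equivFin _ (t, i) from rfl, Equiv.symm_apply_apply]
    have hne : rowTest (X p y₀ t) i ≠ 0 := fun h0 => by
      obtain ⟨Xi, hXi⟩ := hX p y₀ t
      have e := norm_rowTest (X p y₀ t) 1 i
      rw [h0, Matrix.zero_mul, norm_zero, Matrix.mul_one, eq_comm, norm_eq_zero] at e
      have := congrFun (congrFun hXi.1 i) i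
      rw [Matrix.mul_apply, one_apply_eq, e] at this
      simp at this
    have h2 := ((hR z h).2 p).2 l (e ▸ hne)
    rw [e] at h2
    rw [Pi.sub_apply, Real.norm_eq_abs]
    simp only [f, defect]
    rw [abs_le] at h1 h2 ⊢
    constructor <;> linarith
  have h1 := (hc1 (z * R z h * h) z x).trans (mul_le_mul_of_nonneg_left hkeep hL)
  have h2 := (hc1 z (z * R z h * h) x).trans (mul_le_mul_of_nonneg_left
    (norm_sub_rev (f z) (f (z * R z h * h)) ▸ hkeep) hL)
  have h3 : L * (2 * A₁) ≤ A :=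
    (le_max_right _ _).trans (le_max_right _ _)
  rw [abs_le]
  constructor <;> linarith

end Vale.Agent.P165.EX.Semi
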