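import Vale.Agent.P165.EX.Trans.Main

/-!
# Irreducible images: sizes factor by factor

At each order the exterior power is cut by idempotents onto the factors of a composition series.
Each factor has a lift on which its size bounds the size of the group, and a product close to rank
one has its column near one lift. The sizes on the factors add along frames as soon as finitely many
matrix coefficients of the factors are non-zero at one element.
-/

namespace Vale.Agent.P165.EX.Semi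

open Finset Matrix FF
open scoped Matrix.Norms.Elementwise MatrixGroups

section Place

variable {k : Type} [NontriviallyNormedField k] {n : ℕ} {Γ : Type} [Group Γ] (ρ : Γ →* SL(n, k))

/-- Factors of all exterior powers, one at order one, with their lifts. -/
structure Parts where
  cnt : ℕ → ℕ
  quot : ∀ j, Fin (cnt j) → Matrix (Sub n j) (Sub n j) k
  lift : ∀ j, Fin (cnt j) → Matrix (Sub n j) (Sub n j) k
  quot_sq : ∀ j i, quot j i * quot j i = quot j i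
  quot_mul : ∀ j i g h, quot j i * cm ρ j g * quot j i * (cm ρ j h * quot j i) =
    quot j i * cm ρ j (g * h) * quot j i
  lift_inv : ∀ j i g, cm ρ j g * lift j i = lift j i * cm ρ j g * lift j i
  quot_lift : ∀ j i g, quot j i * cm ρ j g * lift j i = quot j i * cm ρ j g * quot j i * lift j i
  ne_zero : ∀ j i, j ≤ n → quot j i ≠ 0
  one : ∀ i, quot 1 i = 1
  lift_le : ∀ j i, j ≤ n → ∃ C : ℝ, ∀ g,
    ‖cm ρ j g * lift j i‖ ≤ C * ‖quot j i * cm ρ j g * quot j i‖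
  total : ∀ j, j ≤ n → ∃ C : ℝ, ∀ g,
    ‖cm ρ j g‖ ≤ C * ∑ i, ‖quot j i * cm ρ j g * quot j i‖
  dominant : ∀ j, j ≤ n → ∃ c : ℝ, 0 < c ∧ ∀ ε : ℝ, 0 < ε → ∃ δ : ℝ, 0 < δ ∧
    ∀ (g : Γ) (u r : Sub n j → k), ‖cm ρ j g - vecMulVec u r‖ ≤ δ * ‖cm ρ j g‖ →
      ∃ i, ‖lift j i *ᵥ u - u‖ ≤ ε * ‖u‖ ∧ c * ‖u‖ ≤ ‖quot j i *ᵥ u‖ ∧
        c * ‖cm ρ j g‖ ≤ ‖quot j i * cm ρ j g * quot j i‖

variable {ρ}

/-- The action on one factor. -/
noncomputable def Parts.blk (S : Parts ρ) (j : ℕ) (i : Fin (S.cnt j)) (g : Γ) :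
    Matrix (Sub n j) (Sub n j) k :=
  S.quot j i * cm ρ j g * S.quot j i

/-- The size on one factor. -/
noncomputable def Parts.psize (S : Parts ρ) (j : ℕ) (i : Fin (S.cnt j)) (g : Γ) : ℝ :=
  Real.log ‖S.blk j i g‖

theorem Parts.quot_blk (S : Parts ρ) (j : ℕ) (i : Fin (S.cnt j)) (g : Γ) :
    S.quot j i * S.blk j i g = S.blk j i g := by
  rw [Parts.blk, ← Matrix.mul_assoc, ← Matrix.mul_assoc, S.quot_sq]

theorem Parts.blk_quot (S : Parts ρ) (j : ℕ) (i : Fin (S.cnt j)) (g : Γ) :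
    S.blk j i g * S.quot j i = S.blk j i g := by
  rw [Parts.blk, Matrix.mul_assoc (S.quot j i * cm ρ j g), S.quot_sq]

theorem Parts.blk_mul (S : Parts ρ) (j : ℕ) (i : Fin (S.cnt j)) (g h : Γ) :
    S.blk j i (g * h) = S.blk j i g * S.blk j i h := by
  rw [Parts.blk, Parts.blk, Parts.blk, ← S.quot_mul j i g h]
  simp only [← Matrix.mul_assoc]
  rw [Matrix.mul_assoc (S.quot j i * cm ρ j g) (S.quot j i) (S.quot j i), S.quot_sq]

theorem Parts.blk_one (S : Parts ρ) (j : ℕ) (i : Fin (S.cnt j)) :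
    S.blk j i 1 = S.quot j i := by
  rw [Parts.blk, cm_one, Matrix.mul_one, S.quot_sq]

theorem Parts.blk_ne (S : Parts ρ) {j : ℕ} (hj : j ≤ n) (i : Fin (S.cnt j)) (g : Γ) :
    S.blk j i g ≠ 0 := fun h => S.ne_zero j i hj (by
  rw [← S.blk_one, ← inv_mul_cancel g, S.blk_mul, h, Matrix.mul_zero])

theorem Parts.norm_blk_pos (S : Parts ρ) {j : ℕ} (hj : j ≤ n) (g : Γ) (i : Fin (S.cnt j)) :
    0 < ‖S.blk j i g‖ :=
  norm_pos_iff.2 (S.blk_ne hj i g)

/-- A triple (factor, row, column) to be paired. -/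
def Parts.Inside (S : Parts ρ) {j : ℕ} (i : Fin (S.cnt j)) (r u : Sub n j → k) : Prop :=
  r ≠ 0 ∧ u ≠ 0 ∧ r ᵥ* S.quot j i = r ∧ S.quot j i *ᵥ u = u

theorem Parts.dot_blk (S : Parts ρ) {j : ℕ} {i : Fin (S.cnt j)} {r u : Sub n j → k}
    (hr : r ᵥ* S.quot j i = r) (hu : S.quot j i *ᵥ u = u) (g : Γ) :
    r ⬝ᵥ (S.blk j i g *ᵥ u) = r ⬝ᵥ (cm ρ j g *ᵥ u) := by
  rw [Parts.blk, ← mulVec_mulVec, ← mulVec_mulVec, hu, dotProduct_mulVec, hr]

/-- Finitely many matrix coefficients of the factors are non-zero at one element. -/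
def Parts.Generic (S : Parts ρ) : Prop :=
  ∀ (m : ℕ) (deg : Fin m → ℕ) (idx : ∀ l, Fin (S.cnt (deg l))) (r u : ∀ l, Sub n (deg l) → k),
    (∀ l, deg l ≤ n) → (∀ l, S.Inside (idx l) (r l) (u l)) →
      ∃ g, ∀ l, r l ⬝ᵥ (cm ρ (deg l) g *ᵥ u l) ≠ 0

/-- Finitely many given vectors of the lifts are pushed at full size by one of finitely many
elements behind every element. -/
def Parts.Hits (S : Parts ρ) : Prop :=
  ∀ (m : ℕ) (deg : Fin m → ℕ) (idx : ∀ l, Fin (S.cnt (deg l))) (u : ∀ l, Sub n (deg l) → k),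
    (∀ l, deg l ≤ n) → (∀ l, S.lift (deg l) (idx l) *ᵥ u l = u l) →
    (∀ l, S.quot (deg l) (idx l) *ᵥ u l ≠ 0) →
      ∃ (F : Finset Γ) (c : ℝ), 0 < c ∧ ∀ y : Γ, ∃ σ ∈ F, ∀ l,
        c * ‖S.blk (deg l) (idx l) y‖ ≤ ‖cm ρ (deg l) (y * σ) *ᵥ u l‖

end Place

variable {P : Type} {k : P → Type} [∀ p, NontriviallyNormedField (k p)] {d : P → ℕ}
  {Γ : Type} [Group Γ] {ρ : ∀ p, Γ →* SL(d p, k p)}

/-- Frames along which the sizes on all summands and tests of order one add at every place. -/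
def Est (S : ∀ p, Parts (ρ p)) : Prop :=
  ∀ q : ℕ, ∃ (F : Finset Γ) (A : ℝ), 0 ≤ A ∧
    ∀ (Q : ∀ p, Fin q → Matrix (Fin (d p)) (Fin (d p)) (k p)) (z h : Γ), ∃ σ ∈ F, ∀ p,
      (∀ (j : Fin (d p + 1)) (i : Fin ((S p).cnt j)),
        |(S p).psize j i (z * σ * h) - (S p).psize j i z - (S p).psize j i h| ≤ A) ∧
      ∀ l, Q p l ≠ 0 →
        |Real.log ‖Q p l * (ρ p (z * σ * h) : Matrix (Fin (d p)) (Fin (d p)) (k p))‖ -
          Real.log ‖Q p l * (ρ p z : Matrix (Fin (d p)) (Fin (d p)) (k p))‖ - lsize (ρ p) h| ≤ A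

/-- Elements at which the sizes on all summands of all places add up along a frame. -/
def Cand (S : ∀ p, Parts (ρ p)) (F : Finset Γ) (A : ℝ) (y z : Γ) : Prop :=
  ∃ h : Γ, (∃ σ ∈ F, z * σ * h = y) ∧ ∀ p, ∀ (j : Fin (d p + 1)) (i : Fin ((S p).cnt j)),
    |(S p).psize j i y - (S p).psize j i z - (S p).psize j i h| ≤ A

end Vale.Agent.P165.EX.Semi
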