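import Vale.Agent.P165.EX.Semi.Criteria
import Vale.Agent.P165.EX.Semi.Defs
import Vale.Agent.P165.EX.Pivot

/-!
# Factors of exterior powers over a proper field

An invariant subspace contains the part of the range of every limit of multiples of the exterior
powers that it meets as the image of itself. With this, the factors of a composition series, lifted
to the span of the ranges of limits of rank one, bound the sizes and catch the top columns.
-/

namespace Vale.Agent.P165.EX.Semi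

open Matrix Finset
open scoped Matrix.Norms.Elementwise MatrixGroups

variable {k : Type} [NontriviallyNormedField k]

section Linear

variable {ν : Type} [Fintype ν]

theorem norm_vecMulVec_eq (u r : ν → k) : ‖vecMulVec u r‖ = ‖u‖ * ‖r‖ := by
  refine le_antisymm ((Matrix.norm_le_iff (by positivity)).2 fun a b => ?_) ?_
  · rw [vecMulVec_apply, norm_mul]
    exact mul_le_mul (norm_le_pi_norm u a) (norm_le_pi_norm r b) (norm_nonneg _) (norm_nonneg _)
  · rcases isEmpty_or_nonempty ν with h | h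
    · rw [Subsingleton.elim u 0, norm_zero, zero_mul]
      exact norm_nonneg _
    obtain ⟨a, ha⟩ := Finite.exists_max fun a => ‖u a‖
    obtain ⟨b, hb⟩ := Finite.exists_max fun b => ‖r b‖
    refine le_trans ?_ (norm_entry_le_entrywise_sup_norm (vecMulVec u r) (i := a) (j := b))
    rw [vecMulVec_apply, norm_mul]
    exact mul_le_mul ((pi_norm_le_iff_of_nonneg (norm_nonneg _)).2 ha)
      ((pi_norm_le_iff_of_nonneg (norm_nonneg _)).2 hb) (norm_nonneg _) (norm_nonneg _)

/-- Some multiple of a nonzero matrix has norm one. -/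
theorem exists_unit_smul (A : Matrix ν ν k) (hA : A ≠ 0) : ∃ c : k, ‖c • A‖ = 1 ∧ ‖c‖ * ‖A‖ = 1 := by
  obtain ⟨e, he⟩ := Function.ne_iff.1 hA
  have : Nonempty (ν × ν) := ⟨(e, e)⟩
  obtain ⟨x, hx⟩ := Finite.exists_max fun x : ν × ν => ‖A x.1 x.2‖
  have hn : ‖A‖ = ‖A x.1 x.2‖ := le_antisymm
    ((Matrix.norm_le_iff (norm_nonneg _)).2 fun a b => hx (a, b)) (norm_entry_le_entrywise_sup_norm A)
  have h0 : A x.1 x.2 ≠ 0 := fun h => hA (norm_eq_zero.1 (by rw [hn, h, norm_zero]))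
  refine ⟨(A x.1 x.2)⁻¹, ?_, ?_⟩
  · rw [norm_smul, norm_inv, ← hn, inv_mul_cancel₀ (by rwa [hn, norm_ne_zero_iff])]
  · rw [norm_inv, ← hn, inv_mul_cancel₀ (by rwa [hn, norm_ne_zero_iff])]

variable [ProperSpace k]

/-- A homogeneous function vanishing at no nonzero limit bounds the norm on a cone. -/
theorem bound_of_closure (S : Set (Matrix ν ν k)) (hS : ∀ c : k, ∀ A ∈ S, c • A ∈ S)
    (f : Matrix ν ν k → ℝ) (hf : Continuous f) (hfc : ∀ (c : k) A, f (c • A) = ‖c‖ * f A)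
    (hf0 : ∀ A, 0 ≤ f A) (h : ∀ A ∈ closure S, A ≠ 0 → f A ≠ 0) :
    ∃ C : ℝ, ∀ A ∈ S, ‖A‖ ≤ C * f A := by
  have : ProperSpace (Matrix ν ν k) := FiniteDimensional.proper k _
  set X : Set (Matrix ν ν k) := Metric.sphere 0 1 ∩ closure S
  have hX : IsCompact X := (isCompact_sphere 0 1).inter_right isClosed_closure
  obtain ⟨C, hC0, hC⟩ : ∃ C : ℝ, 0 ≤ C ∧ ∀ A ∈ X, 1 ≤ C * f A := by
    rcases X.eq_empty_or_nonempty with h0 | h0
    · exact ⟨0, le_rfl, fun A hA => absurd hA (h0 ▸ Set.notMem_empty A)⟩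
    obtain ⟨B, hB, hmin⟩ := hX.exists_isMinOn h0 hf.continuousOn
    have hB0 : B ≠ 0 := fun e => by simpa [e] using hB.1
    have hpos : 0 < f B := lt_of_le_of_ne (hf0 B) (Ne.symm (h B hB.2 hB0))
    refine ⟨(f B)⁻¹, (inv_pos.2 hpos).le, fun A hA => ?_⟩
    rw [le_inv_mul_iff₀ hpos, mul_one]
    exact isMinOn_iff.1 hmin A hA
  refine ⟨C, fun A hA => ?_⟩
  by_cases hA0 : A = 0
  · rw [hA0, norm_zero]
    exact mul_nonneg hC0 (hf0 _)
  obtain ⟨c, hc, hc'⟩ := exists_unit_smul A hA0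
  have h1 := hC (c • A) ⟨by simpa using hc, subset_closure (hS c A hA)⟩
  rw [hfc] at h1
  have hcp : 0 < ‖c‖ := pos_of_mul_pos_left (hc'.symm ▸ zero_lt_one) (norm_nonneg _)
  refine le_of_mul_le_mul_left ?_ hcp
  rw [hc']
  linarith

omit [ProperSpace k] in
/-- A projection onto a subspace. -/
theorem exists_onto [DecidableEq ν] (W : Submodule k (ν → k)) :
    ∃ P : Matrix ν ν k, (∀ v, P *ᵥ v ∈ W) ∧ ∀ w ∈ W, P *ᵥ w = w := by
  obtain ⟨W', hW⟩ := exists_isCompl W
  refine ⟨LinearMap.toMatrix' (W.projection W' hW), fun v => ?_, fun w hw => ?_⟩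
  · rw [LinearMap.toMatrix'_mulVec]; exact Submodule.projection_apply_mem hW v
  · rw [LinearMap.toMatrix'_mulVec]; exact Submodule.projection_apply_of_mem_left hW hw

end Linear

section Place

variable {n : ℕ} {Γ : Type} [Group Γ] (ρ : Γ →* SL(n, k))

/-- A subspace invariant under the exterior power of one order. -/
def Stable (j : ℕ) (W : Submodule k (Sub n j → k)) : Prop :=
  ∀ g, ∀ w ∈ W, cm ρ j g *ᵥ w ∈ W

/-- The multiples of the exterior powers of one order. -/
def multiples (j : ℕ) : Set (Matrix (Sub n j) (Sub n j) k) :=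
  Set.range fun x : k × Γ => x.1 • cm ρ j x.2

/-- Invariant subspaces meet the range of a limit only in their image. -/
def InterRange : Prop :=
  ∀ j, j ≤ n → ∀ z ∈ closure (multiples ρ j), ∀ F, Stable ρ j F →
    F ⊓ LinearMap.range z.mulVecLin ≤ F.map z.mulVecLin

variable {ρ} {j : ℕ}

theorem Stable.limit {F : Submodule k (Sub n j → k)} [CompleteSpace k] (hF : Stable ρ j F)
    {z : Matrix (Sub n j) (Sub n j) k} (hz : z ∈ closure (multiples ρ j)) {w : Sub n j → k}
    (hw : w ∈ F) : z *ᵥ w ∈ F := by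
  have hcl : IsClosed {A : Matrix (Sub n j) (Sub n j) k | A *ᵥ w ∈ F} :=
    F.closed_of_finiteDimensional.preimage (continuous_id.matrix_mulVec continuous_const)
  refine closure_minimal ?_ hcl hz
  rintro _ ⟨x, rfl⟩
  show (x.1 • cm ρ j x.2) *ᵥ w ∈ F
  rw [smul_mulVec]
  exact F.smul_mem _ (hF _ w hw)

/-- Left multiples of limits are limits. -/
theorem cm_mul_limit (c : k) (g : Γ) {z : Matrix (Sub n j) (Sub n j) k}
    (hz : z ∈ closure (multiples ρ j)) : c • (cm ρ j g * z) ∈ closure (multiples ρ j) := by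
  refine map_mem_closure (f := fun A => c • (cm ρ j g * A)) ?_ hz ?_
  · exact (continuous_const.matrix_mul continuous_id).const_smul c
  · rintro _ ⟨x, rfl⟩
    exact ⟨(c * x.1, g * x.2), by simp [cm_mul, smul_smul]⟩

/-- A composition series. -/
theorem exists_series (ρ : Γ →* SL(n, k)) (j : ℕ) :
    ∃ F : ℕ → Submodule k (Sub n j → k), F 0 = ⊥ ∧ (∀ i, Stable ρ j (F i)) ∧
      (∀ i, F i ≤ F (i + 1)) ∧ (∃ N, F N = ⊤) ∧
      ∀ i W, Stable ρ j W → F i ≤ W → W ≤ F (i + 1) → W = F i ∨ W = F (i + 1) := by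
  classical
  have step : ∀ A, ∃ B, Stable ρ j A → A ≤ B ∧ Stable ρ j B ∧ (A = ⊤ ∨ A ≠ B) ∧
      ∀ W, Stable ρ j W → A ≤ W → W ≤ B → W = A ∨ W = B := by
    intro A
    by_cases hA : A = ⊤
    · exact ⟨A, fun h => ⟨le_rfl, h, Or.inl hA, fun W _ h1 h2 => Or.inl (le_antisymm h2 h1)⟩⟩
    obtain ⟨B, -, hB⟩ := exists_minimal_le_of_wellFoundedLT
      (fun B : Submodule k (Sub n j → k) => A < B ∧ Stable ρ j B) ⊤
      ⟨lt_top_iff_ne_top.2 hA, fun _ _ _ => Submodule.mem_top⟩
    refine ⟨B, fun _ => ⟨hB.1.1.le, hB.1.2, Or.inr hB.1.1.ne, fun W hW h1 h2 => ?_⟩⟩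
    rcases h1.eq_or_lt with h | h
    · exact Or.inl h.symm
    · exact Or.inr (le_antisymm h2 (hB.2 ⟨h, hW⟩ h2))
  choose nx hnx using step
  set F : ℕ → Submodule k (Sub n j → k) := fun i => nx^[i] ⊥
  have hs : ∀ i, Stable ρ j (F i) := by
    intro i
    induction i with
    | zero =>
      intro g w hw
      rw [(Submodule.mem_bot k).1 hw, mulVec_zero]
      exact Submodule.zero_mem _
    | succ i ih =>
      simp only [F, Function.iterate_succ_apply']
      exact (hnx _ ih).2.1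
  have hsucc : ∀ i, F (i + 1) = nx (F i) := fun i => Function.iterate_succ_apply' nx i ⊥
  refine ⟨F, rfl, hs, fun i => hsucc i ▸ (hnx _ (hs i)).1, ?_,
    fun i => hsucc i ▸ (hnx _ (hs i)).2.2.2⟩
  by_contra hno
  push Not at hno
  have hgrow : ∀ i, i ≤ Module.finrank k (F i) := by
    intro i
    induction i with
    | zero => exact Nat.zero_le _
    | succ i ih =>
      have hlt : F i < F (i + 1) := hsucc i ▸ lt_of_le_of_ne (hnx _ (hs i)).1
        ((hnx _ (hs i)).2.2.1.resolve_left (hno i))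
      exact Nat.succ_le_of_lt (ih.trans_lt (Submodule.finrank_lt_finrank_of_lt hlt))
  exact absurd ((hgrow _).trans (Submodule.finrank_le _)) (Nat.not_succ_le_self _)

/-- The idempotent of a step of the series. -/
theorem exists_quot (A B : Submodule k (Sub n j → k)) (hAB : A ≤ B) :
    ∃ Q : Matrix (Sub n j) (Sub n j) k, Q * Q = Q ∧ (∀ v, Q *ᵥ v ∈ B) ∧ (∀ a ∈ A, Q *ᵥ a = 0) ∧
      ∀ b ∈ B, b - Q *ᵥ b ∈ A := by
  obtain ⟨PA, hA, hA'⟩ := exists_onto A
  obtain ⟨PB, hB, hB'⟩ := exists_onto B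
  have key : ∀ v, ((1 - PA) * PB) *ᵥ v = PB *ᵥ v - PA *ᵥ (PB *ᵥ v) := fun v => by
    rw [← mulVec_mulVec, sub_mulVec, one_mulVec]
  have hmem : ∀ v, ((1 - PA) * PB) *ᵥ v ∈ B := fun v =>
    key v ▸ B.sub_mem (hB v) (hAB (hA _))
  refine ⟨(1 - PA) * PB, ?_, hmem, fun a ha => ?_, fun b hb => ?_⟩
  · refine Matrix.ext_of_mulVec_single fun s => ?_
    rw [← mulVec_mulVec, key, hB' _ (hmem _), key, mulVec_sub,
      hA' (PA *ᵥ _) (hA _), sub_self, sub_zero]
  · rw [key, hB' a (hAB ha), hA' a ha, sub_self]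
  · rw [key, hB' b hb, sub_sub_cancel]
    exact hA b

/-- The span of the ranges of limits of rank one in a step of the series. -/
def liftSpace (ρ : Γ →* SL(n, k)) (A B : Submodule k (Sub n j → k)) :
    Submodule k (Sub n j → k) :=
  Submodule.span k {u | ∃ r, vecMulVec u r ∈ closure (multiples ρ j) ∧ r ≠ 0 ∧ u ∈ B ∧
    ∀ a ∈ A, vecMulVec u r *ᵥ a = 0}

theorem liftSpace_le (A B : Submodule k (Sub n j → k)) : liftSpace ρ A B ≤ B :=
  Submodule.span_le.2 fun _ ⟨_, _, _, hu, _⟩ => hu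

theorem liftSpace_stable {A B : Submodule k (Sub n j → k)} (hB : Stable ρ j B) :
    Stable ρ j (liftSpace ρ A B) := by
  intro g w hw
  refine Submodule.span_induction (p := fun x _ => cm ρ j g *ᵥ x ∈ liftSpace ρ A B) ?_
    (by simp) (fun a b _ _ ha hb => by rw [mulVec_add]; exact Submodule.add_mem _ ha hb)
    (fun c a _ ha => by rw [mulVec_smul]; exact Submodule.smul_mem _ c ha) hw
  rintro u ⟨r, hx, hr, hu, hA⟩
  have e : (1 : k) • (cm ρ j g * vecMulVec u r) = vecMulVec (cm ρ j g *ᵥ u) r := by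
    rw [one_smul, mul_vecMulVec]
  refine Submodule.subset_span ⟨r, e ▸ cm_mul_limit 1 g hx, hr, hB g u hu, fun a ha => ?_⟩
  rw [← mul_vecMulVec, ← mulVec_mulVec, hA a ha, mulVec_zero]

/-- A nonzero matrix of rank one in the closure with range in a step keeps its range outside the
smaller space. -/
theorem notMem_of_limit (hL : InterRange ρ) (hj : j ≤ n) {A : Submodule k (Sub n j → k)}
    (hA : Stable ρ j A) {u r : Sub n j → k} (hx : vecMulVec u r ∈ closure (multiples ρ j))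
    (hu : u ≠ 0) (hr : r ≠ 0) (h0 : ∀ a ∈ A, vecMulVec u r *ᵥ a = 0) : u ∉ A := by
  intro huA
  obtain ⟨b, hb⟩ := Function.ne_iff.1 hr
  have hmem : u ∈ LinearMap.range (vecMulVec u r).mulVecLin := ⟨Pi.single b (r b)⁻¹, by
    rw [mulVecLin_apply, vecMulVec_mulVec, dotProduct_single, mul_inv_cancel₀ hb,
      MulOpposite.op_one, one_smul]⟩
  obtain ⟨a, ha, e⟩ := hL j hj _ hx A hA ⟨huA, hmem⟩
  exact hu (e ▸ h0 a ha)

variable [ProperSpace k]

/-- The lift bounds the size on it by the size on the factor. -/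
theorem exists_lift_le (hL : InterRange ρ) (hj : j ≤ n) {A B : Submodule k (Sub n j → k)}
    (hA : Stable ρ j A) (hB : Stable ρ j B) (Q P : Matrix (Sub n j) (Sub n j) k)
    (hQA : ∀ a ∈ A, Q *ᵥ a = 0) (hQB : ∀ b ∈ B, b - Q *ᵥ b ∈ A)
    (hP : ∀ v, P *ᵥ v ∈ liftSpace ρ A B) (hP' : ∀ w ∈ liftSpace ρ A B, P *ᵥ w = w) :
    ∃ C : ℝ, ∀ g, ‖cm ρ j g * P‖ ≤ C * ‖Q * cm ρ j g * Q‖ := by
  suffices h0 : ∀ z ∈ closure (Set.range fun x : k × Γ => x.1 • (cm ρ j x.2 * P)),
      z ≠ 0 → ‖Q * z‖ ≠ 0 by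
    obtain ⟨C, hC⟩ := bound_of_closure (Set.range fun x : k × Γ => x.1 • (cm ρ j x.2 * P))
      (fun c _ ⟨x, hx⟩ => ⟨(c * x.1, x.2), by simp [← hx, smul_smul]⟩) (fun A => ‖Q * A‖)
      (continuous_const.matrix_mul continuous_id).norm
      (fun c A => by simp only [Matrix.mul_smul, norm_smul]) (fun _ => norm_nonneg _) h0
    refine ⟨|C| * ((Fintype.card (Sub n j) : ℝ) * ‖P‖), fun g => ?_⟩
    refine (hC _ ⟨(1, g), one_smul k _⟩).trans ?_
    have e : Q * (cm ρ j g * P) = Q * cm ρ j g * Q * P := by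
      refine Matrix.ext_of_mulVec_single fun s => ?_
      simp only [← mulVec_mulVec]
      set v := P *ᵥ Pi.single s (1 : k)
      have h := hQA _ (hA g _ (hQB v (liftSpace_le A B (hP _))))
      rw [mulVec_sub, mulVec_sub, sub_eq_zero] at h
      exact h
    simp only [e]
    refine (mul_le_mul (le_abs_self C) (norm_mul_le_card _ _) (norm_nonneg _)
      (abs_nonneg C)).trans (le_of_eq ?_)
    ring
  intro z hz hz0 hf
  rw [norm_eq_zero] at hf
  -- a generator of the lift space not killed by the limit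
  have hzP : z * P = z := by
    refine closure_minimal ?_ (isClosed_eq (continuous_id.matrix_mul continuous_const) continuous_id) hz
    rintro _ ⟨x, rfl⟩
    show (x.1 • (cm ρ j x.2 * P)) * P = x.1 • (cm ρ j x.2 * P)
    rw [Matrix.smul_mul, Matrix.mul_assoc]
    congr 2
    exact Matrix.ext_of_mulVec_single fun s => by rw [← mulVec_mulVec, hP' _ (hP _)]
  have hzB : ∀ w, z *ᵥ w ∈ liftSpace ρ A B := by
    intro w
    have hcl : IsClosed {M : Matrix (Sub n j) (Sub n j) k | M *ᵥ w ∈ liftSpace ρ A B} :=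
      (liftSpace ρ A B).closed_of_finiteDimensional.preimage
        (continuous_id.matrix_mulVec continuous_const)
    refine closure_minimal ?_ hcl hz
    rintro _ ⟨x, rfl⟩
    show (x.1 • (cm ρ j x.2 * P)) *ᵥ w ∈ liftSpace ρ A B
    rw [smul_mulVec, ← mulVec_mulVec]
    exact Submodule.smul_mem _ _ (liftSpace_stable hB _ _ (hP w))
  refine hz0 (hzP ▸ Matrix.ext_of_mulVec_single fun s => ?_)
  rw [← mulVec_mulVec, zero_mulVec]
  refine Submodule.span_induction (p := fun x _ => z *ᵥ x = 0) ?_ (mulVec_zero z)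
    (fun a b _ _ ha hb => by rw [mulVec_add, ha, hb, add_zero])
    (fun c a _ ha => by rw [mulVec_smul, ha, smul_zero]) (hP (Pi.single s 1))
  rintro u ⟨r, hx, hr, hu, h0⟩
  by_contra hne
  have hlim : vecMulVec (z *ᵥ u) r ∈ closure (multiples ρ j) := by
    rw [← mul_vecMulVec, ← closure_closure]
    refine map_mem_closure (f := fun M => M * vecMulVec u r)
      (continuous_id.matrix_mul continuous_const) hz ?_
    rintro _ ⟨x, rfl⟩
    show x.1 • (cm ρ j x.2 * P) * vecMulVec u r ∈ closure (multiples ρ j)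
    rw [Matrix.smul_mul, Matrix.mul_assoc, mul_vecMulVec P, hP' u
      (Submodule.subset_span ⟨r, hx, hr, hu, h0⟩)]
    exact cm_mul_limit x.1 x.2 hx
  refine notMem_of_limit hL hj hA hlim hne hr (fun a ha => ?_) ?_
  · rw [← mul_vecMulVec, ← mulVec_mulVec, h0 a ha, mulVec_zero]
  · have h := hQB _ (liftSpace_le A B (hzB u))
    rwa [mulVec_mulVec, hf, zero_mulVec, sub_zero] at h

/-- A limit vanishing on all factors is zero. -/
theorem eq_zero_of_factors (hL : InterRange ρ) (hj : j ≤ n) (F : ℕ → Submodule k (Sub n j → k))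
    (hF0 : F 0 = ⊥) (hFs : ∀ i, Stable ρ j (F i)) (N : ℕ) (hN : F N = ⊤)
    (Q : ℕ → Matrix (Sub n j) (Sub n j) k) (hQ : ∀ i v, Q i *ᵥ v ∈ F (i + 1))
    (hQB : ∀ i, ∀ b ∈ F (i + 1), b - Q i *ᵥ b ∈ F i) {z : Matrix (Sub n j) (Sub n j) k}
    (hz : z ∈ closure (multiples ρ j)) (h : ∀ i < N, Q i * z * Q i = 0) : z = 0 := by
  have key : ∀ i, i ≤ N → LinearMap.range z.mulVecLin ⊓ F i = ⊥ := by
    intro i
    induction i with
    | zero => intro _; rw [hF0, inf_bot_eq]
    | succ i ih =>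
      intro hi
      rw [eq_bot_iff, ← ih (Nat.le_of_succ_le hi)]
      refine le_inf inf_le_left ?_
      rw [inf_comm]
      refine (hL j hj z hz _ (hFs (i + 1))).trans ?_
      rintro _ ⟨b, hb, rfl⟩
      rw [mulVecLin_apply, ← sub_add_cancel b (Q i *ᵥ b), mulVec_add]
      refine Submodule.add_mem _ ((hFs i).limit hz (hQB i b hb)) ?_
      have h1 := hQB i _ ((hFs (i + 1)).limit hz (hQ i b))
      have h2 : Q i *ᵥ (z *ᵥ (Q i *ᵥ b)) = 0 := by
        rw [mulVec_mulVec, mulVec_mulVec, h i hi, zero_mulVec]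
      rwa [h2, sub_zero] at h1
  have h1 := key N le_rfl
  rw [hN, inf_top_eq, LinearMap.range_eq_bot] at h1
  exact Matrix.ext_of_mulVec_single fun s => by rw [← mulVecLin_apply, h1, zero_mulVec]; rfl

end Place

end Vale.Agent.P165.EX.Semi
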