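import Vale.Agent.P165.EX.Semi.Types

/-!
# Semisimple images: adapted bases and the bound from minors at gaps

Column elimination with partial pivoting gives a bounded basis of every flag. A change of frame
whose top minors at the gaps are dominated by the diagonal is bounded after conjugation by it.
-/

namespace Vale.Agent.P165.EX.Semi

open Finset Matrix
open scoped Matrix.Norms.Elementwise

variable {k : Type} [NontriviallyNormedField k] {n : ℕ}

/-- A bounded basis of every flag. -/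
theorem exists_lu (n : ℕ) : ∃ C : ℝ, 1 ≤ C ∧ ∀ M : Matrix (Fin n) (Fin n) k,
    ∃ K Ki R, M = K * R ∧ Bdd C K Ki ∧ ∀ a b : Fin n, b < a → R a b = 0 := by
  suffices h : ∀ j, ∃ C : ℝ, 1 ≤ C ∧ ∀ M : Matrix (Fin n) (Fin n) k,
      ∃ K Ki R, M = K * R ∧ Bdd C K Ki ∧ ∀ a b : Fin n, b.1 < j → b < a → R a b = 0 by
    obtain ⟨C, hC, h⟩ := h n
    refine ⟨C, hC, fun M => ?_⟩
    obtain ⟨K, Ki, R, h1, h2, h3⟩ := h M
    exact ⟨K, Ki, R, h1, h2, fun a b hba => h3 a b b.2 hba⟩
  intro j
  induction j with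
  | zero =>
    refine ⟨1, le_rfl, fun M => ⟨1, 1, M, (one_mul M).symm, ?_, fun a b h => by simp at h⟩⟩
    refine ⟨mul_one 1, mul_one 1, ?_, ?_⟩ <;>
      exact (Matrix.norm_le_iff zero_le_one).2 fun a b => by
        rw [Matrix.one_apply]; split_ifs <;> simp
  | succ j ih =>
    obtain ⟨C, hC, ih⟩ := ih
    refine ⟨C + n * ((n * (C * 1)) * 2), le_add_of_le_of_nonneg hC (by positivity), fun M => ?_⟩
    have hle : C ≤ C + n * ((n * (C * 1)) * 2) := le_add_of_nonneg_right (by positivity)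
    obtain ⟨K, Ki, R, hM, hK, hR⟩ := ih M
    by_cases hj : j < n
    swap
    · exact ⟨K, Ki, R, hM, ⟨hK.1, hK.2.1, hK.2.2.1.trans hle, hK.2.2.2.trans hle⟩,
        fun a b _ hba => hR a b (by omega) hba⟩
    set J : Fin n := ⟨j, hj⟩ with hJ
    obtain ⟨p, hp, hmax⟩ := exists_max_image (univ.filter fun a : Fin n => J ≤ a)
      (fun a => ‖R a J‖) ⟨J, by simp⟩
    simp only [mem_filter, mem_univ, true_and] at hp
    set σ : Equiv.Perm (Fin n) := Equiv.swap J p with hσ
    have hσge : ∀ a, J ≤ a → J ≤ σ a := fun a ha => by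
      rw [hσ, Equiv.swap_apply_def]
      split_ifs <;> first | exact hp | exact le_rfl | exact ha
    have hσlt : ∀ a, a < J → σ a = a := fun a ha =>
      Equiv.swap_apply_of_ne_of_ne ha.ne (ha.trans_le hp).ne
    set R1 := R.submatrix σ id with hR1
    set d := R1 J J with hd
    set x : Fin n → k := fun a => if J < a then R1 a J / d else 0 with hx
    have hdmax : ∀ a, J ≤ a → ‖R1 a J‖ ≤ ‖d‖ := fun a ha => by
      rw [hd, hR1, submatrix_apply, submatrix_apply, id, hσ, Equiv.swap_apply_left]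
      exact hmax _ (mem_filter.2 ⟨mem_univ _, hσge a ha⟩)
    have hxJ : x J = 0 := if_neg (lt_irrefl J)
    have hxb : ∀ a, ‖x a‖ ≤ 1 := fun a => by
      rw [hx]; dsimp only; split_ifs with h
      · rw [norm_div]; exact div_le_one_of_le₀ (hdmax a h.le) (norm_nonneg _)
      · simp
    set E : Matrix (Fin n) (Fin n) k := 1 - vecMulVec x (Pi.single J 1) with hE
    have hB := (hK.mul (bdd_permM σ.symm)).mul (bdd_elim x J hxJ hxb)
    refine ⟨_, _, E * R1, ?_, ⟨hB.1, hB.2.1,
      hB.2.2.1.trans (le_add_of_nonneg_left (zero_le_one.trans hC)),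
      hB.2.2.2.trans (le_add_of_nonneg_left (zero_le_one.trans hC))⟩, fun a b hb hba => ?_⟩
    · rw [hM, Matrix.mul_assoc (K * permM σ.symm), ← Matrix.mul_assoc (1 + vecMulVec x _), hE,
        (bdd_elim x J hxJ hxb).1, one_mul, Matrix.mul_assoc, permM_mul, hR1, submatrix_submatrix]
      congr 1
      ext a b
      simp [σ]
    · have e1 : (E * R1) a b = R1 a b - x a * R1 J b := by
        rw [hE, sub_mul, one_mul, Matrix.sub_apply, vecMulVec_mul, vecMulVec_apply,
          single_one_vecMul]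
        rfl
      rw [e1]
      rcases Nat.lt_succ_iff_lt_or_eq.1 hb with hb' | hb'
      · have hz : ∀ c : Fin n, b < c → R1 c b = 0 := fun c hc => by
          rw [hR1, submatrix_apply, id]
          refine hR _ _ hb' ?_
          rcases lt_or_ge c J with h | h
          · rw [hσlt c h]; exact hc
          · exact (show b < J from hb').trans_le (hσge c h)
        rw [hz a hba, hz J hb', mul_zero, sub_zero]
      · have hbJ : b = J := Fin.ext hb'
        subst hbJ
        rw [hx]
        dsimp only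
        rw [if_pos hba, ← hd]
        by_cases h0 : d = 0
        · have := hdmax a hba.le
          rw [h0, norm_zero] at this
          simp [norm_le_zero_iff.1 this, h0]
        · rw [div_mul_cancel₀ _ h0, sub_self]

/-- The top column of a product with a triangular matrix is a multiple of the top column. -/
theorem topCol_mul_upper {j : ℕ} (hj : j ≤ n) (K R : Matrix (Fin n) (Fin n) k)
    (hR : ∀ a b : Fin n, b < a → R a b = 0) :
    topCol hj (K * R) = cmp j R (topSub hj) (topSub hj) • topCol hj K := by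
  funext s
  rw [topCol, cmp_mul, Matrix.mul_apply, sum_eq_single (topSub hj), Pi.smul_apply, smul_eq_mul,
    mul_comm]
  · rfl
  · intro t _ ht
    obtain ⟨x, hx, hxt⟩ := (Set.powersetCard.exists_mem_notMem_iff_ne t (topSub hj)).mp ht
    obtain ⟨l, rfl⟩ := (mem_iff t x).1 hx
    refine mul_eq_zero_of_right _ (det_eq_zero_of_row_eq_zero l fun b => ?_)
    refine hR _ _ ?_
    obtain ⟨b', -, hb'⟩ := mem_map.1 ((mem_iff (topSub hj) _).2 ⟨b, rfl⟩)
    rw [← hb']
    by_contra h
    exact hxt (mem_map.2 ⟨⟨(emb t l).1, lt_of_le_of_lt (not_lt.1 h) b'.2⟩, mem_univ _, rfl⟩)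
  · exact fun h => absurd (mem_univ _) h

/-- Without a gap in between the diagonal cannot drop much. -/
theorem no_drop {α : Fin n → ℝ} {T : ℝ} (hT : 1 ≤ T) (hα : ∀ i, 0 < α i) (G : Fin n → Prop)
    (hgap : ∀ l (hl : l + 1 < n), ¬ G ⟨l + 1, hl⟩ → α ⟨l, by omega⟩ ≤ T * α ⟨l + 1, hl⟩)
    (b : Fin n) : ∀ m (hm : m < n), b.1 ≤ m → (∀ l : Fin n, b < l → l.1 ≤ m → ¬ G l) →
      α b ≤ T ^ n * α ⟨m, hm⟩ := by
  suffices h : ∀ m (hm : m < n), b.1 ≤ m → (∀ l : Fin n, b < l → l.1 ≤ m → ¬ G l) →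
      α b ≤ T ^ m * α ⟨m, hm⟩ from fun m hm h1 h2 =>
    (h m hm h1 h2).trans (mul_le_mul_of_nonneg_right (pow_le_pow_right₀ hT hm.le) (hα _).le)
  intro m
  induction m with
  | zero =>
    intro hm h1 _
    rw [pow_zero, one_mul, show b = ⟨0, hm⟩ from Fin.ext (Nat.le_zero.1 h1)]
  | succ m ih =>
    intro hm h1 h2
    rcases eq_or_lt_of_le h1 with h | h
    · rw [show b = ⟨m + 1, hm⟩ from Fin.ext h]
      exact le_mul_of_one_le_left (hα _).le (one_le_pow₀ hT)
    · refine (ih (by omega) (by omega) fun l hl hlm => h2 l hl (by omega)).trans ?_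
      rw [pow_succ, mul_assoc]
      exact mul_le_mul_of_nonneg_left (hgap m hm (h2 _ (Fin.lt_def.2 h) le_rfl))
        (pow_nonneg (zero_le_one.trans hT) m)

/-- The entries bound from the minors at the gaps. -/
theorem core_gap (n : ℕ) {C c T : ℝ} (hC : 1 ≤ C) (hc : 0 < c) (hT : 1 ≤ T) :
    ∃ B : ℝ, 0 ≤ B ∧ ∀ (N : Matrix (Fin n) (Fin n) k) (α : Fin n → ℝ) (G : Fin n → Prop),
      (∀ i, 0 < α i) → (∀ i l, i ≤ l → α l ≤ C * α i) → (∀ a b, ‖N a b‖ ≤ C) →
      (∀ b (hb : b ≤ n), ∃ f : Fin b → Fin n, Function.Injective f ∧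
        c ≤ ‖(N.submatrix f (Fin.castLE hb)).det‖) →
      (∀ l, G l → ∀ f : Fin l.1 → Fin n, Function.Injective f →
        ‖(N.submatrix f (Fin.castLE l.2.le)).det‖ * pa α l.2.le ≤ C * ∏ i, α (f i)) →
      (∀ l (hl : l + 1 < n), ¬ G ⟨l + 1, hl⟩ → α ⟨l, by omega⟩ ≤ T * α ⟨l + 1, hl⟩) →
      ∀ a b, ‖N a b‖ * α b ≤ B * α a := by
  classical
  set B₁ : ℝ := C * (C + T ^ n) with hB₁
  set B₂ : ℝ := n * C * (C * C ^ n) * T ^ n / c with hB₂
  have hC0 : 0 ≤ C := zero_le_one.trans hC
  have hTn : 0 ≤ T ^ n := pow_nonneg (zero_le_one.trans hT) n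
  have hB₁0 : 0 ≤ B₁ := mul_nonneg hC0 (add_nonneg hC0 hTn)
  have hB₂0 : 0 ≤ B₂ := by positivity
  refine ⟨B₁ + B₂, by positivity, fun N α G hα hdec hN hlow hminor hgap a b => ?_⟩
  have triv : α b ≤ (C + T ^ n) * α a → ‖N a b‖ * α b ≤ (B₁ + B₂) * α a := fun h => by
    refine (mul_le_mul (hN a b) h (hα b).le hC0).trans ?_
    rw [← mul_assoc]
    exact mul_le_mul_of_nonneg_right (le_add_of_nonneg_right hB₂0) (hα a).le
  rcases le_or_gt a b with hab | hab
  · exact triv ((hdec a b hab).trans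
      (mul_le_mul_of_nonneg_right (le_add_of_nonneg_right hTn) (hα a).le))
  by_cases hex : ∃ m, ∃ hm : m < n, b.1 < m ∧ m ≤ a.1 ∧ G ⟨m, hm⟩
  swap
  · push Not at hex
    exact triv ((no_drop hT hα G hgap b a.1 a.2 (le_of_lt hab) fun l hl hla => hex l l.2 hl hla).trans
      (mul_le_mul_of_nonneg_right (le_add_of_nonneg_left hC0) (hα a).le))
  obtain ⟨K, ⟨hk, hbk, hka, hG⟩, hmin⟩ : ∃ K, (∃ hK : K < n, b.1 < K ∧ K ≤ a.1 ∧ G ⟨K, hK⟩) ∧
      ∀ j < K, ¬ ∃ hj : j < n, b.1 < j ∧ j ≤ a.1 ∧ G ⟨j, hj⟩ :=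
    ⟨Nat.find hex, Nat.find_spec hex, fun j hj => Nat.find_min hex hj⟩
  obtain ⟨m, rfl⟩ : ∃ m, K = m + 1 := ⟨K - 1, by omega⟩
  have hbm : α b ≤ T ^ n * α ⟨m, by omega⟩ :=
    no_drop hT hα G hgap b m (by omega) (by omega) fun l hl hlm hGl =>
      hmin l.1 (by omega) ⟨l.2, hl, by omega, hGl⟩
  obtain ⟨f, hf, hfl⟩ := hlow (m + 1) hk.le
  set S := N.submatrix f (Fin.castLE hk.le) with hS
  set u : Fin (m + 1) → k := fun l => N a (Fin.castLE hk.le l) with hu
  set αm := α ⟨m, by omega⟩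
  have hcoef : ∀ l, ‖(u ᵥ* S.adjugate) l‖ * αm ≤ C * C ^ n * α a := by
    intro l
    have e : (u ᵥ* S.adjugate) l =
        (N.submatrix (Function.update f l a) (Fin.castLE hk.le)).det := by
      rw [← mulVec_transpose, adjugate_transpose, ← cramer_eq_adjugate_mulVec,
        cramer_transpose_apply]
      congr 1
      ext i j
      rw [updateRow_apply, submatrix_apply, Function.update_apply]
      split_ifs <;> rfl
    rw [e]
    by_cases hinj : Function.Injective (Function.update f l a)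
    · have h1 := hminor ⟨m + 1, hk⟩ hG _ hinj
      have h2 : ∏ i, α (Function.update f l a i) ≤
          α a * (C ^ n * pa α (show m ≤ n by omega)) := by
        rw [Fin.prod_univ_succAbove _ l, Function.update_self]
        refine mul_le_mul_of_nonneg_left ?_ (hα a).le
        exact prod_le_pa hC hα hdec (show m ≤ n by omega)
          (fun i => Function.update f l a (l.succAbove i))
          (hinj.comp Fin.succAbove_right_injective)
      rw [show pa α hk.le = pa α (show m ≤ n by omega) * αm from pa_succ α hk.le] at h1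
      refine le_of_mul_le_mul_right ?_ (pa_pos hα (show m ≤ n by omega))
      have h3 := h1.trans (mul_le_mul_of_nonneg_left h2 hC0)
      linarith
    · obtain ⟨i, i', hii, hne⟩ := Function.not_injective_iff.1 hinj
      rw [det_zero_of_row_eq hne (funext fun j => by simp [submatrix_apply, hii]), norm_zero,
        zero_mul]
      exact mul_nonneg (mul_nonneg hC0 (pow_nonneg hC0 n)) (hα a).le
  have hrow : S.det * N a b = ∑ l, (u ᵥ* S.adjugate) l * S l ⟨b.1, by omega⟩ := by
    have h := congrFun (show (u ᵥ* S.adjugate) ᵥ* S = S.det • u by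
      rw [vecMul_vecMul, adjugate_mul, vecMul_smul, vecMul_one]) ⟨b.1, by omega⟩
    rw [Pi.smul_apply, smul_eq_mul] at h
    exact h.symm
  have hmain : c * ‖N a b‖ * αm ≤ n * C * (C * C ^ n * α a) := by
    refine (mul_le_mul_of_nonneg_right (mul_le_mul_of_nonneg_right hfl (norm_nonneg _))
      (hα _).le).trans ?_
    rw [← norm_mul, hrow]
    refine (mul_le_mul_of_nonneg_right (norm_sum_le _ _) (hα _).le).trans ?_
    rw [sum_mul]
    refine (sum_le_card_nsmul _ _ (C * (C * C ^ n * α a)) fun l _ => ?_).trans ?_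
    · rw [norm_mul, mul_right_comm, mul_comm]
      exact mul_le_mul (hN _ _) (hcoef l) (mul_nonneg (norm_nonneg _) (hα _).le) hC0
    · rw [nsmul_eq_mul, card_univ, Fintype.card_fin, ← mul_assoc]
      exact mul_le_mul_of_nonneg_right (mul_le_mul_of_nonneg_right (Nat.cast_le.2 hk.le) hC0)
        (mul_nonneg (mul_nonneg hC0 (pow_nonneg hC0 n)) (hα a).le)
  refine le_trans ?_ (mul_le_mul_of_nonneg_right (le_add_of_nonneg_left hB₁0) (hα a).le)
  rw [hB₂, div_mul_eq_mul_div, le_div_iff₀ hc]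
  have h1 := mul_le_mul_of_nonneg_left hbm (mul_nonneg hc.le (norm_nonneg (N a b)))
  have h2 := mul_le_mul_of_nonneg_left hmain hTn
  linarith

end Vale.Agent.P165.EX.Semi
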