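import Vale.Agent.P165.EX.Compound

/-!
# Summands of exterior powers and generic pairs

A completely reducible representation has commuting orthogonal idempotents onto irreducible
summands; if no two nonzero polynomial functions on the image multiply to zero, finitely many
matrix coefficients of the summands are nonzero at one element. Over the reals complete
reducibility of every exterior power follows from a transpose stable closure.
-/

namespace Vale.Agent.P165.EX.Semi

open Matrix Finset

variable {k : Type} [Field k]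

section Projections

variable {ι : Type} [Fintype ι] [DecidableEq ι] {Γ : Type} [Group Γ]

/-- An invariant subspace of a matrix representation. -/
def Invariant (rep : Γ →* Matrix ι ι k) (W : Submodule k (ι → k)) : Prop :=
  ∀ g, ∀ w ∈ W, rep g *ᵥ w ∈ W

/-- Every invariant subspace has an invariant complement. -/
def Reducible (rep : Γ →* Matrix ι ι k) : Prop :=
  ∀ W, Invariant rep W → ∃ W', IsCompl W W' ∧ Invariant rep W'

/-- The coefficients between a row and a column of `P` do not vanish identically. -/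
def Coeff (rep : Γ →* Matrix ι ι k) (P : Matrix ι ι k) : Prop :=
  ∀ r u, r ᵥ* P = r → r ≠ 0 → P *ᵥ u = u → u ≠ 0 → ∃ g, r ⬝ᵥ (rep g *ᵥ u) ≠ 0

/-- The projection onto an invariant subspace along an invariant complement. -/
theorem exists_proj (rep : Γ →* Matrix ι ι k) {W W' : Submodule k (ι → k)} (h : IsCompl W W')
    (hW : Invariant rep W) (hW' : Invariant rep W') :
    ∃ Q : Matrix ι ι k, (∀ v, Q *ᵥ v ∈ W) ∧ (∀ w ∈ W, Q *ᵥ w = w) ∧
      ∀ g, Q * rep g = rep g * Q := by
  refine ⟨LinearMap.toMatrix' (W.projection W' h), fun v => ?_, fun w hw => ?_, fun g => ?_⟩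
  · rw [LinearMap.toMatrix'_mulVec]; exact Submodule.projection_apply_mem h v
  · rw [LinearMap.toMatrix'_mulVec]; exact Submodule.projection_apply_of_mem_left h hw
  · refine Matrix.ext_of_mulVec_single fun i => ?_
    set v : ι → k := Pi.single i 1
    rw [← mulVec_mulVec, ← mulVec_mulVec, LinearMap.toMatrix'_mulVec, LinearMap.toMatrix'_mulVec]
    obtain ⟨a, ha, b, hb, hab⟩ :=
      Submodule.mem_sup.1 ((h.sup_eq_top).ge (Submodule.mem_top (x := v)))
    rw [← hab, mulVec_add, map_add, map_add,
      Submodule.projection_apply_of_mem_left h (hW g a ha), Submodule.projection_apply_of_mem_left h ha,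
      (Submodule.projection_apply_eq_zero_iff h).2 (hW' g b hb),
      (Submodule.projection_apply_eq_zero_iff h).2 hb, mulVec_add, mulVec_zero, add_zero]

/-- Orthogonal idempotents with sum `P₀` onto irreducible summands. -/
def Splits (rep : Γ →* Matrix ι ι k) (P₀ : Matrix ι ι k) : Prop :=
  ∃ (N : ℕ) (P : Fin N → Matrix ι ι k), ∑ i, P i = P₀ ∧ (∀ i l, i ≠ l → P i * P l = 0) ∧
    (∀ i, P i * P i = P i ∧ P₀ * P i = P i ∧ P i * P₀ = P i) ∧
    (∀ i g, P i * rep g = rep g * P i) ∧ ∀ i, Coeff rep (P i)

theorem splits (rep : Γ →* Matrix ι ι k) (hcr : Reducible rep) :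
    ∀ (m : ℕ) (P : Matrix ι ι k), Module.finrank k (LinearMap.range P.mulVecLin) = m →
      P * P = P → (∀ g, P * rep g = rep g * P) → Splits rep P := by
  intro m
  induction m using Nat.strong_induction_on with
  | _ m ih =>
    intro P hm hPP hPc
    by_cases hirr : ∀ W : Submodule k (ι → k), W ≤ LinearMap.range P.mulVecLin →
        Invariant rep W → W = ⊥ ∨ W = LinearMap.range P.mulVecLin
    · refine ⟨1, fun _ => P, by simp, fun i l h => absurd (Subsingleton.elim i l) h,
        fun _ => ⟨hPP, hPP, hPP⟩, fun _ => hPc, fun _ r u hr hr0 hu hu0 => ?_⟩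
      by_contra hno
      simp only [not_exists, not_not] at hno
      set W : Submodule k (ι → k) := Submodule.span k (Set.range fun g => rep g *ᵥ u) with hWdef
      have hle : W ≤ LinearMap.range P.mulVecLin := by
        refine Submodule.span_le.2 ?_
        rintro _ ⟨g, rfl⟩
        exact ⟨rep g *ᵥ u, by rw [mulVecLin_apply, mulVec_mulVec, hPc, ← mulVec_mulVec, hu]⟩
      have hinv : Invariant rep W := by
        intro g w hw
        refine Submodule.span_induction (p := fun x _ => rep g *ᵥ x ∈ W) ?_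
          (by simp) (fun a b _ _ ha hb => by rw [mulVec_add]; exact W.add_mem ha hb)
          (fun c a _ ha => by rw [mulVec_smul]; exact W.smul_mem c ha) hw
        rintro _ ⟨h, rfl⟩
        exact Submodule.subset_span ⟨g * h, by simp [map_mul, mulVec_mulVec]⟩
      have hr' : ∀ w ∈ W, r ⬝ᵥ w = 0 := by
        intro w hw
        refine Submodule.span_induction (p := fun x _ => r ⬝ᵥ x = 0) ?_ (by simp)
          (fun a b _ _ ha hb => by rw [dotProduct_add, ha, hb, add_zero])
          (fun c a _ ha => by rw [dotProduct_smul, ha, smul_zero]) hw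
        rintro _ ⟨g, rfl⟩
        exact hno g
      rcases hirr W hle hinv with h | h
      · refine hu0 ?_
        have : u ∈ W := Submodule.subset_span ⟨1, by simp⟩
        rwa [h, Submodule.mem_bot] at this
      · refine hr0 (dotProduct_eq_zero r fun v => ?_)
        have := hr' (P *ᵥ v) (h.ge ⟨v, rfl⟩)
        rwa [dotProduct_mulVec, hr] at this
    · simp only [not_forall, not_or] at hirr
      obtain ⟨W, hle, hW, hbot, hne⟩ := hirr
      obtain ⟨W', hC, hW'⟩ := hcr W hW
      obtain ⟨Q, hQmem, hQid, hQc⟩ := exists_proj rep hC hW hW'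
      have hPW : ∀ w ∈ W, P *ᵥ w = w := fun w hw => by
        obtain ⟨v, rfl⟩ := hle hw
        rw [mulVecLin_apply, mulVec_mulVec, hPP]
      have hPQ : P * Q = Q := Matrix.ext_of_mulVec_single fun i => by
        rw [← mulVec_mulVec]; exact hPW _ (hQmem _)
      have hQQ : Q * Q = Q := Matrix.ext_of_mulVec_single fun i => by
        rw [← mulVec_mulVec]; exact hQid _ (hQmem _)
      set A := Q * P with hA
      set B := P - A with hB
      have hPA : P * A = A := by rw [hA, ← mul_assoc, hPQ]
      have hAP : A * P = A := by rw [hA, mul_assoc, hPP]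
      have hAA : A * A = A := by
        rw [hA, mul_assoc, ← mul_assoc P, hPQ, ← mul_assoc, hQQ]
      have hAB : A * B = 0 := by rw [hB, mul_sub, hAP, hAA, sub_self]
      have hBA : B * A = 0 := by rw [hB, sub_mul, hPA, hAA, sub_self]
      have hBB : B * B = B := by
        nth_rewrite 1 [hB]
        rw [sub_mul, hAB, sub_zero, hB, mul_sub, hPP, hPA]
      have hPB : P * B = B := by rw [hB, mul_sub, hPP, hPA]
      have hBP : B * P = B := by rw [hB, sub_mul, hPP, hAP]
      have hAc : ∀ g, A * rep g = rep g * A := fun g => by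
        rw [hA, mul_assoc, hPc, ← mul_assoc, hQc, mul_assoc]
      have hBc : ∀ g, B * rep g = rep g * B := fun g => by
        rw [hB, sub_mul, mul_sub, hPc, hAc]
      have hAr : LinearMap.range A.mulVecLin = W := by
        refine le_antisymm ?_ fun w hw => ⟨w, ?_⟩
        · rintro _ ⟨v, rfl⟩
          rw [mulVecLin_apply, hA, ← mulVec_mulVec]
          exact hQmem _
        · rw [mulVecLin_apply, hA, ← mulVec_mulVec, hPW w hw, hQid w hw]
      have h1 : Module.finrank k (LinearMap.range A.mulVecLin) < m := by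
        rw [hAr, ← hm]
        exact Submodule.finrank_lt_finrank_of_lt (lt_of_le_of_ne hle hne)
      have h2 : Module.finrank k (LinearMap.range B.mulVecLin) < m := by
        rw [← hm]
        refine Submodule.finrank_lt_finrank_of_lt (lt_of_le_of_ne ?_ fun h => hbot ?_)
        · rintro _ ⟨v, rfl⟩
          exact ⟨B *ᵥ v, by rw [mulVecLin_apply, mulVecLin_apply, mulVec_mulVec, hPB]⟩
        · refine (Submodule.eq_bot_iff W).2 fun w hw => ?_
          obtain ⟨v, rfl⟩ := h.ge (hle hw)
          have : A *ᵥ (B *ᵥ v) = B *ᵥ v := by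
            rw [mulVecLin_apply] at hw
            obtain ⟨x, hx⟩ := hAr.ge hw
            rw [mulVecLin_apply] at hx
            rw [← hx, mulVec_mulVec, hAA]
          rw [mulVec_mulVec, hAB, zero_mulVec] at this
          exact this.symm
      obtain ⟨N₁, P₁, hs1, ho1, hi1, hc1, hk1⟩ := ih _ h1 A rfl hAA hAc
      obtain ⟨N₂, P₂, hs2, ho2, hi2, hc2, hk2⟩ := ih _ h2 B rfl hBB hBc
      have h12 : ∀ i l, P₁ i * P₂ l = 0 := fun i l => by
        rw [← (hi1 i).2.2, ← (hi2 l).2.1, mul_assoc, ← mul_assoc A, hAB, zero_mul, mul_zero]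
      have h21 : ∀ i l, P₂ i * P₁ l = 0 := fun i l => by
        rw [← (hi2 i).2.2, ← (hi1 l).2.1, mul_assoc, ← mul_assoc B, hBA, zero_mul, mul_zero]
      refine ⟨N₁ + N₂, Fin.append P₁ P₂, ?_, ?_, ?_, ?_, ?_⟩
      · simp [Fin.sum_univ_add, hs1, hs2, hB]
      · intro i l hil
        induction i using Fin.addCases <;> induction l using Fin.addCases <;>
          simp only [Fin.append_left, Fin.append_right]
        · exact ho1 _ _ fun h => hil (h ▸ rfl)
        · exact h12 _ _
        · exact h21 _ _
        · exact ho2 _ _ fun h => hil (h ▸ rfl)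
      · intro i
        induction i using Fin.addCases with
        | left i =>
          simp only [Fin.append_left]
          exact ⟨(hi1 i).1, by rw [← (hi1 i).2.1, ← mul_assoc, hPA],
            by rw [← (hi1 i).2.2, mul_assoc, hAP]⟩
        | right i =>
          simp only [Fin.append_right]
          exact ⟨(hi2 i).1, by rw [← (hi2 i).2.1, ← mul_assoc, hPB],
            by rw [← (hi2 i).2.2, mul_assoc, hBP]⟩
      · intro i
        induction i using Fin.addCases <;> simp only [Fin.append_left, Fin.append_right]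
        · exact hc1 _
        · exact hc2 _
      · intro i
        induction i using Fin.addCases <;> simp only [Fin.append_left, Fin.append_right]
        · exact hk1 _
        · exact hk2 _

/-- A completely reducible representation splits into irreducible summands. -/
theorem exists_projs (rep : Γ →* Matrix ι ι k) (hcr : Reducible rep) :
    ∃ (N : ℕ) (P : Fin N → Matrix ι ι k), ∑ i, P i = 1 ∧ (∀ i l, i ≠ l → P i * P l = 0) ∧
      (∀ i, P i * P i = P i) ∧ (∀ i g, P i * rep g = rep g * P i) ∧ ∀ i, Coeff rep (P i) := by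
  obtain ⟨N, P, h1, h2, h3, h4, h5⟩ := splits rep hcr _ 1 rfl (mul_one 1) (by simp)
  exact ⟨N, P, h1, h2, fun i => (h3 i).1, h4, h5⟩

end Projections

section Compounds

variable {d : ℕ} {Γ : Type} [Group Γ]

/-- The exterior power of a representation. -/
noncomputable def cmpRep (ρ : Γ →* Matrix (Fin d) (Fin d) k) (j : ℕ) :
    Γ →* Matrix (Sub d j) (Sub d j) k where
  toFun g := cmp j (ρ g)
  map_one' := by rw [map_one, cmp_one]
  map_mul' a b := by rw [map_mul, cmp_mul]

theorem cmpRep_apply (ρ : Γ →* Matrix (Fin d) (Fin d) k) (j : ℕ) (g : Γ) :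
    cmpRep ρ j g = cmp j (ρ g) := rfl

theorem exists_coeff_poly (j : ℕ) (r u : Sub d j → k) :
    ∃ f : MvPolynomial (Fin d × Fin d) k, ∀ A : Matrix (Fin d) (Fin d) k,
      MvPolynomial.eval (fun e => A e.1 e.2) f = r ⬝ᵥ (cmp j A *ᵥ u) := by
  refine ⟨∑ s, ∑ t, MvPolynomial.C (r s * u t) *
    (Matrix.of fun a b => (MvPolynomial.X (emb s a, emb t b) :
      MvPolynomial (Fin d × Fin d) k)).det, fun A => ?_⟩
  simp only [map_sum, map_mul, MvPolynomial.eval_C, dotProduct, mulVec, mul_sum]
  refine sum_congr rfl fun s _ => sum_congr rfl fun t _ => ?_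
  rw [RingHom.map_det]
  have : (MvPolynomial.eval fun e => A e.1 e.2).mapMatrix (Matrix.of fun a b =>
      (MvPolynomial.X (emb s a, emb t b) : MvPolynomial (Fin d × Fin d) k)) =
      A.submatrix (emb s) (emb t) := by
    ext a b
    simp
  rw [this, cmp, Matrix.of_apply]
  ring

/-- If the closure of the image is irreducible, finitely many coefficients of exterior powers,
none of them identically zero, are nonzero at one element. -/
theorem exists_generic (ρ : Γ →* Matrix (Fin d) (Fin d) k)
    (hconn : ∀ f₁ f₂ : MvPolynomial (Fin d × Fin d) k,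
      (∀ g, MvPolynomial.eval (fun e => ρ g e.1 e.2) f₁ = 0 ∨
        MvPolynomial.eval (fun e => ρ g e.1 e.2) f₂ = 0) →
      (∀ g, MvPolynomial.eval (fun e => ρ g e.1 e.2) f₁ = 0) ∨
        ∀ g, MvPolynomial.eval (fun e => ρ g e.1 e.2) f₂ = 0)
    {κ : Type} [Fintype κ] (deg : κ → ℕ) (r u : ∀ i, Sub d (deg i) → k)
    (h : ∀ i, ∃ g, r i ⬝ᵥ (cmp (deg i) (ρ g) *ᵥ u i) ≠ 0) :
    ∃ g, ∀ i, r i ⬝ᵥ (cmp (deg i) (ρ g) *ᵥ u i) ≠ 0 := by
  classical
  choose f hf using fun i => exists_coeff_poly (deg i) (r i) (u i)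
  have key : ∀ S : Finset κ,
      ∃ g, MvPolynomial.eval (fun e => ρ g e.1 e.2) (∏ i ∈ S, f i) ≠ 0 := by
    intro S
    induction S using Finset.induction with
    | empty => exact ⟨1, by simp⟩
    | insert a S ha ih =>
      by_contra hno
      simp only [not_exists, not_not, prod_insert ha, map_mul, mul_eq_zero] at hno
      rcases hconn _ _ hno with h0 | h0
      · obtain ⟨g, hg⟩ := h a
        exact hg ((hf a (ρ g)).symm.trans (h0 g))
      · exact ih.elim fun g hg => hg (h0 g)
  obtain ⟨g, hg⟩ := key univ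
  refine ⟨g, fun i hi => hg ?_⟩
  rw [map_prod]
  exact prod_eq_zero (mem_univ i) ((hf i (ρ g)).trans hi)

/-- The first exterior power is the representation itself. -/
theorem coeff_one (ρ : Γ →* Matrix (Fin d) (Fin d) k)
    (hirr : ∀ W : Submodule k (Fin d → k), Invariant ρ W → W = ⊥ ∨ W = ⊤) :
    Coeff (cmpRep ρ 1) (1 : Matrix (Sub d 1) (Sub d 1) k) := by
  intro r u _ hr0 _ hu0
  by_contra hno
  simp only [not_exists, not_not] at hno
  let e : Sub d 1 → Fin d := fun s => emb s 0
  have hinj : Function.Injective e := by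
    intro s t hst
    refine Subtype.ext (Finset.ext fun i => ?_)
    rw [mem_iff, mem_iff]
    simp only [Fin.exists_fin_one]
    exact ⟨fun h => hst.symm.trans h, fun h => hst.trans h⟩
  have hsurj : Function.Surjective e := fun i => by
    refine ⟨⟨{i}, by simp⟩, ?_⟩
    obtain ⟨l, hl⟩ := (mem_iff (⟨{i}, by simp⟩ : Sub d 1) i).1 (by simp)
    rwa [Fin.fin_one_eq_zero l] at hl
  let E := Equiv.ofBijective e ⟨hinj, hsurj⟩
  have hval : ∀ g, (r ∘ E.symm) ⬝ᵥ (ρ g *ᵥ (u ∘ E.symm)) = 0 := by
    intro g
    refine Eq.trans ?_ (hno g)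
    have : cmpRep ρ 1 g = (ρ g).submatrix E E := by
      ext s t
      rw [cmpRep_apply, cmp, Matrix.of_apply, det_fin_one]
      rfl
    rw [this, submatrix_mulVec_equiv, comp_equiv_symm_dotProduct]
  set W : Submodule k (Fin d → k) :=
    Submodule.span k (Set.range fun g => ρ g *ᵥ (u ∘ E.symm)) with hWdef
  have hinv : Invariant ρ W := by
    intro g w hw
    refine Submodule.span_induction (p := fun x _ => ρ g *ᵥ x ∈ W) ?_
      (by simp) (fun a b _ _ ha hb => by rw [mulVec_add]; exact W.add_mem ha hb)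
      (fun c a _ ha => by rw [mulVec_smul]; exact W.smul_mem c ha) hw
    rintro _ ⟨h, rfl⟩
    exact Submodule.subset_span ⟨g * h, by simp [map_mul, mulVec_mulVec]⟩
  rcases hirr W hinv with h | h
  · refine hu0 (funext fun s => ?_)
    have hu : u ∘ E.symm ∈ W := Submodule.subset_span ⟨1, by simp⟩
    rw [h, Submodule.mem_bot] at hu
    simpa using congrFun hu (E s)
  · refine hr0 (funext fun s => ?_)
    have hv : ∀ v ∈ W, (r ∘ E.symm) ⬝ᵥ v = 0 := fun v hv =>
      Submodule.span_induction (p := fun x _ => (r ∘ E.symm) ⬝ᵥ x = 0)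
        (by rintro _ ⟨g, rfl⟩; exact hval g) (by simp)
        (fun a b _ _ ha hb => by rw [dotProduct_add, ha, hb, add_zero])
        (fun c a _ ha => by rw [dotProduct_smul, ha, smul_zero]) hv
    have := hv (Pi.single (E s) 1) (h ▸ Submodule.mem_top)
    simpa using this

/-- Idempotents onto irreducible summands of every exterior power, one in the first. -/
theorem exists_summands (ρ : Γ →* Matrix (Fin d) (Fin d) k)
    (hirr : ∀ W : Submodule k (Fin d → k), Invariant ρ W → W = ⊥ ∨ W = ⊤)
    (hcr : ∀ j, Reducible (cmpRep ρ j)) :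
    ∃ (N : ℕ → ℕ) (P : ∀ j, Fin (N j) → Matrix (Sub d j) (Sub d j) k), N 1 = 1 ∧
      (∀ j, ∑ i, P j i = 1) ∧ (∀ j i l, i ≠ l → P j i * P j l = 0) ∧
      (∀ j i g, P j i * cmp j (ρ g) = cmp j (ρ g) * P j i) ∧
      ∀ j i, Coeff (cmpRep ρ j) (P j i) := by
  have key : ∀ j, ∃ (N : ℕ) (P : Fin N → Matrix (Sub d j) (Sub d j) k), (j = 1 → N = 1) ∧
      ∑ i, P i = 1 ∧ (∀ i l, i ≠ l → P i * P l = 0) ∧
      (∀ i g, P i * cmp j (ρ g) = cmp j (ρ g) * P i) ∧ ∀ i, Coeff (cmpRep ρ j) (P i) := by
    intro j
    rcases eq_or_ne j 1 with rfl | hj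
    · exact ⟨1, fun _ => 1, fun _ => rfl, by simp, fun i l h => absurd (Subsingleton.elim i l) h,
        by simp, fun _ => coeff_one ρ hirr⟩
    · obtain ⟨N, P, h1, h2, -, h4, h5⟩ := exists_projs _ (hcr j)
      exact ⟨N, P, fun h => absurd h hj, h1, h2, h4, h5⟩
  choose N P h0 h1 h2 h3 h4 using key
  exact ⟨N, P, h0 1 rfl, h1, h2, h3, h4⟩

end Compounds

section Real

variable {d : ℕ} {Γ : Type} [Group Γ]

theorem cmp_transpose (j : ℕ) (A : Matrix (Fin d) (Fin d) k) : cmp j Aᵀ = (cmp j A)ᵀ := by
  ext s t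
  rw [transpose_apply, cmp, cmp, Matrix.of_apply, Matrix.of_apply, ← transpose_submatrix,
    det_transpose]

/-- Over the reals a transpose stable closure makes every exterior power completely reducible:
orthogonal complements of invariant subspaces are invariant. -/
theorem reducible_of_transpose (ρ : Γ →* Matrix (Fin d) (Fin d) ℝ)
    (hT : ∀ f : MvPolynomial (Fin d × Fin d) ℝ,
      (∀ g, MvPolynomial.eval (fun e => ρ g e.1 e.2) f = 0) →
        ∀ g, MvPolynomial.eval (fun e => (ρ g)ᵀ e.1 e.2) f = 0) (j : ℕ) :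
    Reducible (cmpRep ρ j) := by
  intro W hW
  let L : (Sub d j → ℝ) →ₗ[ℝ] Module.Dual ℝ W :=
    { toFun := fun v =>
        { toFun := fun w => v ⬝ᵥ (w : Sub d j → ℝ)
          map_add' := fun a b => by simp [dotProduct_add]
          map_smul' := fun c a => by simp [dotProduct_smul] }
      map_add' := fun a b => by ext w; simp [add_dotProduct]
      map_smul' := fun c a => by ext w; simp [smul_dotProduct] }
  have hker : ∀ v, v ∈ LinearMap.ker L ↔ ∀ w ∈ W, v ⬝ᵥ w = 0 := by
    intro v
    rw [LinearMap.mem_ker]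
    exact ⟨fun h w hw => LinearMap.congr_fun h ⟨w, hw⟩,
      fun h => LinearMap.ext fun w => h w w.2⟩
  have hdisj : Disjoint W (LinearMap.ker L) := by
    rw [Submodule.disjoint_def]
    exact fun x hx hx' => dotProduct_self_eq_zero.1 ((hker x).1 hx' x hx)
  refine ⟨LinearMap.ker L, ⟨hdisj, codisjoint_iff.2 (Submodule.eq_top_of_disjoint _ _ ?_ hdisj)⟩,
    fun g v hv => (hker _).2 fun w hw => ?_⟩
  · have h1 := LinearMap.finrank_range_add_finrank_ker L
    have h2 := Submodule.finrank_le (LinearMap.range L)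
    have h3 : Module.finrank ℝ (Module.Dual ℝ W) = Module.finrank ℝ W :=
      Subspace.dual_finrank_eq
    omega
  · obtain ⟨f, hf⟩ := exists_coeff_poly (k := ℝ) j v w
    have h0 := hT f (fun a => (hf (ρ a)).trans ((hker v).1 hv _ (hW a w hw))) g
    rw [hf, cmp_transpose, dotProduct_mulVec, vecMul_transpose] at h0
    exact h0

end Real

end Vale.Agent.P165.EX.Semi
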