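import Vale.Agent.P165.EX.Semi.Defs

/-!
# Frames for sizes factor by factor

Generic coefficients of the factors become uniform along finitely many elements by compactness,
and the frames of one place let the good set of that place meet those of the others.
-/

namespace Vale.Agent.P165.EX.Semi

open Finset Matrix
open scoped Matrix.Norms.Elementwise MatrixGroups

/-- Uniform frames for coefficients of projected vectors. -/
theorem uniform_frames_proj {Γ κ : Type} [Fintype κ] {K : κ → Type}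
    [∀ i, NontriviallyNormedField (K i)] [∀ i, ProperSpace (K i)] {ν : κ → Type}
    [∀ i, Fintype (ν i)] [∀ i, Nonempty (ν i)]
    (φ : ∀ i, Γ → Matrix (ν i) (ν i) (K i)) (π : ∀ i, Matrix (ν i) (ν i) (K i))
    (hS : ∀ r u : ∀ i, ν i → K i, (∀ i, r i ≠ 0 ∧ r i ᵥ* π i = r i) →
      (∀ i, u i ≠ 0 ∧ π i *ᵥ u i = u i) → ∃ g, ∀ i, r i ⬝ᵥ (φ i g *ᵥ u i) ≠ 0) :
    ∃ (F : Finset Γ) (c : ℝ), 0 < c ∧ ∀ r u : ∀ i, ν i → K i,
      (∀ i, r i ≠ 0 ∧ r i ᵥ* π i = r i) → (∀ i, u i ≠ 0 ∧ π i *ᵥ u i = u i) →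
        ∃ g ∈ F, ∀ i, c * (‖r i‖ * ‖u i‖) ≤ ‖r i ⬝ᵥ (φ i g *ᵥ u i)‖ := by
  classical
  let S : Set ((∀ i, ν i → K i) × (∀ i, ν i → K i)) :=
    (Set.univ.pi fun i => Metric.sphere 0 1 ∩ {v | v ᵥ* π i = v}) ×ˢ
      (Set.univ.pi fun i => Metric.sphere 0 1 ∩ {v | π i *ᵥ v = v})
  have hK : IsCompact S :=
    (isCompact_univ_pi fun i => (isCompact_sphere 0 1).inter_right
      (isClosed_eq (continuous_id.matrix_vecMul continuous_const) continuous_id)).prod
      (isCompact_univ_pi fun i => (isCompact_sphere 0 1).inter_right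
        (isClosed_eq (continuous_const.matrix_mulVec continuous_id) continuous_id))
  let f : Γ → (∀ i, ν i → K i) × (∀ i, ν i → K i) → κ → ℝ :=
    fun g x i => ‖x.1 i ⬝ᵥ (φ i g *ᵥ x.2 i)‖
  have hfc : ∀ g i, Continuous fun x => f g x i := fun g i => by
    simp only [f, dotProduct, mulVec]
    fun_prop
  let U : Γ × ℕ → Set ((∀ i, ν i → K i) × (∀ i, ν i → K i)) :=
    fun gn => {x | ∀ i, 1 / ((gn.2 : ℝ) + 1) < f gn.1 x i}
  have hUo : ∀ gn, IsOpen (U gn) := fun gn => by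
    simp only [U, Set.ofPred_forall]
    exact isOpen_iInter_of_finite fun i => isOpen_lt continuous_const (hfc _ i)
  have hcov : S ⊆ ⋃ gn, U gn := by
    rintro ⟨r, u⟩ ⟨hr, hu⟩
    simp only [Set.mem_univ_pi, Set.mem_inter_iff, mem_sphere_zero_iff_norm, Set.mem_ofPred_eq]
      at hr hu
    obtain ⟨g, hne⟩ := hS r u (fun i => ⟨fun h => by simpa [h] using (hr i).1, (hr i).2⟩)
      (fun i => ⟨fun h => by simpa [h] using (hu i).1, (hu i).2⟩)
    choose m hm using fun i => exists_nat_one_div_lt (norm_pos_iff.2 (hne i))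
    refine Set.mem_iUnion.2 ⟨(g, univ.sup m), fun i => lt_of_le_of_lt ?_ (hm i)⟩
    gcongr
    exact Finset.le_sup (f := m) (mem_univ i)
  obtain ⟨T, hT⟩ := hK.elim_finite_subcover U hUo hcov
  refine ⟨T.image Prod.fst, 1 / (((T.image Prod.snd).sup id : ℕ) + 1), by positivity,
    fun r u hr hu => ?_⟩
  have hun : ∀ i, ∀ v : ν i → K i, v ≠ 0 → ∃ a : K i, a ≠ 0 ∧ ‖a • v‖ = 1 := by
    intro i v h
    obtain ⟨l, hl⟩ := Finite.exists_max fun l => ‖v l‖
    have hl' : ‖v‖ = ‖v l‖ :=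
      le_antisymm ((pi_norm_le_iff_of_nonneg (norm_nonneg _)).2 hl) (norm_le_pi_norm v l)
    have hvl : v l ≠ 0 := fun h0 => h (norm_eq_zero.1 (by rw [hl', h0, norm_zero]))
    exact ⟨(v l)⁻¹, inv_ne_zero hvl,
      by rw [norm_smul, norm_inv, hl', inv_mul_cancel₀ (norm_ne_zero_iff.2 hvl)]⟩
  choose a ha ha1 using fun i => hun i (r i) (hr i).1
  choose b hb hb1 using fun i => hun i (u i) (hu i).1
  have hx : ((fun i => a i • r i), fun i => b i • u i) ∈ S := by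
    simp [S, ha1, hb1, smul_vecMul, mulVec_smul, (hr _).2, (hu _).2]
  obtain ⟨gn, hgn, hbd⟩ := Set.mem_iUnion₂.1 (hT hx)
  refine ⟨gn.1, mem_image_of_mem _ hgn, fun i => ?_⟩
  have hle : 1 / ((((T.image Prod.snd).sup id : ℕ) : ℝ) + 1) ≤ 1 / ((gn.2 : ℝ) + 1) := by
    gcongr
    exact Finset.le_sup (f := id) (mem_image_of_mem Prod.snd hgn)
  have hpos : 0 < ‖a i‖ * ‖b i‖ := mul_pos (norm_pos_iff.2 (ha i)) (norm_pos_iff.2 (hb i))
  refine le_of_mul_le_mul_right ?_ hpos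
  have e1 : ‖a i‖ * ‖r i‖ = 1 := by rw [← norm_smul]; exact ha1 i
  have e2 : ‖b i‖ * ‖u i‖ = 1 := by rw [← norm_smul]; exact hb1 i
  calc 1 / ((((T.image Prod.snd).sup id : ℕ) : ℝ) + 1) * (‖r i‖ * ‖u i‖) * (‖a i‖ * ‖b i‖)
      = 1 / ((((T.image Prod.snd).sup id : ℕ) : ℝ) + 1) * ((‖a i‖ * ‖r i‖) * (‖b i‖ * ‖u i‖)) := by
        ring
    _ = 1 / ((((T.image Prod.snd).sup id : ℕ) : ℝ) + 1) := by rw [e1, e2, mul_one, mul_one]
    _ ≤ f gn.1 ((fun i => a i • r i), fun i => b i • u i) i := hle.trans (hbd i).le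
    _ = ‖r i ⬝ᵥ (φ i gn.1 *ᵥ u i)‖ * (‖a i‖ * ‖b i‖) := by
        simp only [f, mulVec_smul, smul_dotProduct, dotProduct_smul, smul_eq_mul, norm_mul]
        ring

section Place

variable {k : Type} [NontriviallyNormedField k] {n : ℕ} {Γ : Type} [Group Γ] {ρ : Γ →* SL(n, k)}

theorem Parts.generic_fintype {S : Parts ρ} (hS : S.Generic) {κ : Type} [Fintype κ]
    (lab : κ → Σ j, Fin (S.cnt j)) (hlab : ∀ x, (lab x).1 ≤ n)
    (r u : ∀ x, Sub n (lab x).1 → k)
    (h : ∀ x, S.Inside (lab x).2 (r x) (u x)) :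
    ∃ g, ∀ x, r x ⬝ᵥ (cm ρ (lab x).1 g *ᵥ u x) ≠ 0 := by
  classical
  set e := (Fintype.equivFin κ).symm
  obtain ⟨g, hg⟩ := hS _ (fun l => (lab (e l)).1) (fun l => (lab (e l)).2) (fun l => r (e l))
    (fun l => u (e l)) (fun l => hlab _) (fun l => h _)
  exact ⟨g, fun x => by obtain ⟨l, rfl⟩ := e.surjective x; exact hg l⟩

/-- A largest row. -/
theorem exists_row {ν : Type} [Fintype ν] [Nonempty ν] (A : Matrix ν ν k) :
    ∃ a, ‖A‖ ≤ ‖A a‖ := by
  obtain ⟨e, he⟩ := Finite.exists_max fun e : ν × ν => ‖A e.1 e.2‖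
  exact ⟨e.1, (Matrix.norm_le_iff (norm_nonneg _)).2 fun x y =>
    (he (x, y)).trans (norm_le_pi_norm _ e.2)⟩

/-- A largest column. -/
theorem exists_col {ν : Type} [Fintype ν] [Nonempty ν] (A : Matrix ν ν k) :
    ∃ b, ‖A‖ ≤ ‖A.col b‖ := by
  obtain ⟨e, he⟩ := Finite.exists_max fun e : ν × ν => ‖A e.1 e.2‖
  exact ⟨e.2, (Matrix.norm_le_iff (norm_nonneg _)).2 fun x y =>
    (he (x, y)).trans (norm_le_pi_norm (A.col e.2) e.1)⟩

/-- Generic coefficients give hits over a proper field. -/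
theorem hits_of_generic [ProperSpace k] {S : Parts ρ} (hS : S.Generic) : S.Hits := by
  classical
  intro m deg idx u hdeg hlift hQu
  have hne : ∀ l, Nonempty (Sub n (deg l)) := fun l => sub_nonempty (hdeg l)
  obtain ⟨F, c, hc, hF⟩ := uniform_frames_proj (K := fun _ : Fin m => k) (Γ := Γ)
    (ν := fun l => Sub n (deg l)) (fun l g => cm ρ (deg l) g) (fun l => S.quot (deg l) (idx l))
    (fun r u hr hu => hS m deg idx r u hdeg fun l => ⟨(hr l).1, (hu l).1, (hr l).2, (hu l).2⟩)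
  set v : ∀ l, Sub n (deg l) → k := fun l => S.quot (deg l) (idx l) *ᵥ u l
  set N : Fin m → ℝ := fun l => (Fintype.card (Sub n (deg l)) : ℝ) * ‖S.quot (deg l) (idx l)‖
  set C : ℝ := ∑ l, N l / ‖v l‖ + 1
  have hC0 : 0 < C := add_pos_of_nonneg_of_pos (sum_nonneg fun l _ =>
    div_nonneg (mul_nonneg (Nat.cast_nonneg _) (norm_nonneg _)) (norm_nonneg _)) one_pos
  refine ⟨F, c / C, div_pos hc hC0, fun y => ?_⟩
  choose a ha using fun l => exists_row (S.blk (deg l) (idx l) y)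
  obtain ⟨σ, hσ, hs⟩ := hF (fun l => (S.blk (deg l) (idx l) y) (a l)) v
    (fun l => ⟨fun h0 => S.blk_ne (hdeg l) (idx l) y (norm_le_zero_iff.1
      ((ha l).trans_eq (norm_eq_zero.2 h0))), by rw [← mul_apply_eq_vecMul, S.blk_quot]⟩)
    (fun l => ⟨hQu l, by rw [mulVec_mulVec, S.quot_sq]⟩)
  refine ⟨σ, hσ, fun l => ?_⟩
  have hv : 0 < ‖v l‖ := norm_pos_iff.2 (hQu l)
  have e1 : (S.blk (deg l) (idx l) y) (a l) ⬝ᵥ (cm ρ (deg l) σ *ᵥ v l) =
      (S.quot (deg l) (idx l) *ᵥ (cm ρ (deg l) (y * σ) *ᵥ u l)) (a l) := by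
    rw [← S.dot_blk (by rw [← mul_apply_eq_vecMul, S.blk_quot])
      (by rw [mulVec_mulVec, S.quot_sq]) σ]
    show (S.blk (deg l) (idx l) y *ᵥ (S.blk (deg l) (idx l) σ *ᵥ v l)) (a l) = _
    refine congrFun ?_ (a l)
    rw [mulVec_mulVec, ← S.blk_mul]
    simp only [v]
    rw [mulVec_mulVec, S.blk_quot]
    nth_rw 1 [← hlift l]
    rw [mulVec_mulVec, Parts.blk, ← S.quot_lift, ← mulVec_mulVec, hlift l, mulVec_mulVec]
  have h1 : c * (‖S.blk (deg l) (idx l) y‖ * ‖v l‖) ≤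
      N l * ‖cm ρ (deg l) (y * σ) *ᵥ u l‖ := by
    refine (mul_le_mul_of_nonneg_left (mul_le_mul_of_nonneg_right (ha l) hv.le) hc.le).trans ?_
    refine (hs l).trans ?_
    rw [e1]
    refine ((norm_le_pi_norm _ (a l)).trans ((pi_norm_le_iff_of_nonneg (by positivity)).2
      fun x => ?_)).trans_eq (mul_assoc _ _ _).symm
    rw [mulVec, dotProduct]
    refine (norm_sum_le _ _).trans ((sum_le_card_nsmul _ _
      (‖S.quot (deg l) (idx l)‖ * ‖cm ρ (deg l) (y * σ) *ᵥ u l‖) fun t _ => ?_).trans_eq ?_)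
    · rw [norm_mul]
      exact mul_le_mul (norm_entry_le_entrywise_sup_norm _) (norm_le_pi_norm _ t) (norm_nonneg _)
        (norm_nonneg _)
    · rw [nsmul_eq_mul, card_univ]
  have h2 : N l ≤ C * ‖v l‖ := by
    rw [← div_le_iff₀ hv]
    exact (single_le_sum (f := fun l => N l / ‖v l‖) (fun l _ =>
      div_nonneg (mul_nonneg (Nat.cast_nonneg _) (norm_nonneg _)) (norm_nonneg _))
      (mem_univ l)).trans (le_add_of_nonneg_right zero_le_one)
  have h3 := h1.trans (mul_le_mul_of_nonneg_right h2 (norm_nonneg _))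
  rw [div_mul_eq_mul_div, div_le_iff₀ hC0]
  refine le_of_mul_le_mul_right (le_trans (le_of_eq ?_) (h3.trans_eq ?_)) hv <;> ring

end Place

variable {P : Type} {k : P → Type} [∀ p, NontriviallyNormedField (k p)]
  [∀ p, ProperSpace (k p)] {d : P → ℕ}
  {Γ : Type} [Group Γ] {ρ : ∀ p, Γ →* SL(d p, k p)}

/-- Finitely many coefficients at finitely many places are non-zero at one element. -/
theorem joint_parts (S : ∀ p, Parts (ρ p)) (hS : ∀ p, (S p).Generic) (T : Finset P) :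
    ∀ (κ : P → Type) [∀ p, Fintype (κ p)] (lab : ∀ p, κ p → Σ j, Fin ((S p).cnt j)),
      (∀ p x, (lab p x).1 ≤ d p) →
      ∀ r u : ∀ p x, Sub (d p) (lab p x).1 → k p,
        (∀ p ∈ T, ∀ x, (S p).Inside (lab p x).2 (r p x) (u p x)) →
        ∃ g, ∀ p ∈ T, ∀ x, r p x ⬝ᵥ (cm (ρ p) (lab p x).1 g *ᵥ u p x) ≠ 0 := by
  classical
  induction T using Finset.induction_on with
  | empty => intro κ _ lab _ r u _; exact ⟨1, by simp⟩
  | insert a T ha ih =>
    intro κ _ lab hlab r u h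
    have hne : ∀ x, Nonempty (Sub (d a) (lab a x).1) := fun x => sub_nonempty (hlab a x)
    obtain ⟨F, c, hc, hF⟩ := uniform_frames_proj (K := fun _ : κ a => k a) (Γ := Γ)
      (ν := fun x => Sub (d a) (lab a x).1) (fun x g => cm (ρ a) (lab a x).1 g)
      (fun x => (S a).quot (lab a x).1 (lab a x).2)
      (fun r u hr hu => Parts.generic_fintype (hS a) (lab a) (hlab a) r u
        fun x => ⟨(hr x).1, (hu x).1, (hr x).2, (hu x).2⟩)
    obtain ⟨y, hy⟩ := ih (fun p => κ p × {σ // σ ∈ F}) (fun p x => lab p x.1)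
      (fun p x => hlab p x.1)
      (fun p x => r p x.1 ᵥ* (S p).blk (lab p x.1).1 (lab p x.1).2 x.2.1)
      (fun p x => u p x.1) (fun p hp x => by
        obtain ⟨hr, hu, hrP, hPu⟩ := h p (mem_insert_of_mem hp) x.1
        refine ⟨fun h0 => hr ?_, hu, ?_, hPu⟩
        · have := congrArg (fun v => v ᵥ* (S p).blk (lab p x.1).1 (lab p x.1).2 x.2.1⁻¹) h0
          rw [vecMul_vecMul, ← Parts.blk_mul, mul_inv_cancel, Parts.blk_one, hrP,
            zero_vecMul] at this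
          exact this
        · rw [vecMul_vecMul, Parts.blk_quot])
    obtain ⟨σ, hσ, hs⟩ := hF (r a) (fun x => (S a).blk (lab a x).1 (lab a x).2 y *ᵥ u a x)
      (fun x => ⟨(h a (mem_insert_self a T) x).1, (h a (mem_insert_self a T) x).2.2.1⟩)
      (fun x => by
        obtain ⟨-, hu, -, hPu⟩ := h a (mem_insert_self a T) x
        refine ⟨fun h0 => hu ?_, ?_⟩
        · have := congrArg (fun v => (S a).blk (lab a x).1 (lab a x).2 y⁻¹ *ᵥ v) h0
          rw [mulVec_mulVec, ← Parts.blk_mul, inv_mul_cancel, Parts.blk_one, hPu,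
            mulVec_zero] at this
          exact this
        · rw [mulVec_mulVec, Parts.quot_blk])
    refine ⟨σ * y, fun p hp x => ?_⟩
    rcases mem_insert.1 hp with rfl | hp
    · obtain ⟨hr, hu, hrP, hPu⟩ := h p (mem_insert_self p T) x
      rw [← (S p).dot_blk hrP hPu, Parts.blk_mul, ← mulVec_mulVec,
        (S p).dot_blk hrP (by rw [mulVec_mulVec, Parts.quot_blk])]
      refine norm_pos_iff.1 ((mul_pos hc (mul_pos (norm_pos_iff.2 hr) (norm_pos_iff.2 ?_))).trans_le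
        (hs x))
      intro h0
      refine hu ?_
      have := congrArg (fun v => (S p).blk (lab p x).1 (lab p x).2 y⁻¹ *ᵥ v) h0
      rw [mulVec_mulVec, ← Parts.blk_mul, inv_mul_cancel, Parts.blk_one, hPu, mulVec_zero] at this
      exact this
    · obtain ⟨-, -, hrP, hPu⟩ := h p (mem_insert_of_mem hp) x
      rw [← (S p).dot_blk hrP hPu, Parts.blk_mul, ← mulVec_mulVec, dotProduct_mulVec,
        (S p).dot_blk (by rw [vecMul_vecMul, Parts.blk_quot]) hPu]
      exact hy p hp (x, ⟨σ, hσ⟩)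

/-- Logarithms between two bounds. -/
theorem log_slot {c M U W Y : ℝ} (hc : 0 < c) (hM : 1 ≤ M) (hU : 0 < U) (hW : 0 < W)
    (hlow : c * (U * W) ≤ Y) (hup : Y ≤ M * (U * W)) :
    |Real.log Y - Real.log U - Real.log W| ≤ |Real.log c| + Real.log M := by
  have hY : 0 < Y := (mul_pos hc (mul_pos hU hW)).trans_le hlow
  have l1 := Real.log_le_log (mul_pos hc (mul_pos hU hW)) hlow
  have l2 := Real.log_le_log hY hup
  rw [Real.log_mul hc.ne' (mul_pos hU hW).ne', Real.log_mul hU.ne' hW.ne'] at l1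
  rw [Real.log_mul (by linarith) (mul_pos hU hW).ne', Real.log_mul hU.ne' hW.ne'] at l2
  have hlM : 0 ≤ Real.log M := Real.log_nonneg hM
  rw [abs_le]
  constructor <;> linarith [neg_abs_le (Real.log c), abs_nonneg (Real.log c)]

/-- Generic coefficients at every place give frames. -/
theorem est_of_generic [Fintype P] (hd : ∀ p, 0 < d p) (S : ∀ p, Parts (ρ p))
    (hS : ∀ p, (S p).Generic) : Est S := by
  classical
  intro q
  have h1ne : ∀ p, Nonempty (Fin ((S p).cnt 1)) := fun p => by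
    by_contra h
    rw [not_nonempty_iff] at h
    obtain ⟨C, hC⟩ := (S p).total 1 (hd p)
    have h0 := hC 1
    rw [Finset.univ_eq_empty, sum_empty, mul_zero] at h0
    exact (norm_cm_pos (ρ p) (hd p) 1).not_ge h0
  let κ : P → Type := fun p => (Σ j : Fin (d p + 1), Fin ((S p).cnt j)) ⊕ Fin q
  let lab : ∀ p, κ p → Σ j, Fin ((S p).cnt j) := fun p =>
    Sum.elim (fun e => ⟨e.1.1, e.2⟩) fun _ => ⟨1, (h1ne p).some⟩
  have hlab : ∀ p x, (lab p x).1 ≤ d p := fun p => by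
    rintro (e | l)
    · exact Nat.le_of_lt_succ e.1.2
    · exact hd p
  have hne : ∀ x : Σ p, κ p, Nonempty (Sub (d x.1) (lab x.1 x.2).1) := fun x =>
    sub_nonempty (hlab x.1 x.2)
  obtain ⟨F, c, hc, hF⟩ := uniform_frames_proj (K := fun x : Σ p, κ p => k x.1) (Γ := Γ)
    (ν := fun x : Σ p, κ p => Sub (d x.1) (lab x.1 x.2).1)
    (fun x g => cm (ρ x.1) (lab x.1 x.2).1 g)
    (fun x => (S x.1).quot (lab x.1 x.2).1 (lab x.1 x.2).2)
    (fun r u hr hu => by
      obtain ⟨g, hg⟩ := joint_parts S hS univ κ lab hlab (fun p x => r ⟨p, x⟩)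
        (fun p x => u ⟨p, x⟩)
        (fun p _ x => ⟨(hr ⟨p, x⟩).1, (hu ⟨p, x⟩).1, (hr ⟨p, x⟩).2, (hu ⟨p, x⟩).2⟩)
      exact ⟨g, fun x => hg x.1 (mem_univ _) x.2⟩)
  set g₀ : Γ → (Σ p, κ p) → ℝ := fun σ x => (Fintype.card (Sub (d x.1) (lab x.1 x.2).1) : ℝ) *
    ((Fintype.card (Sub (d x.1) (lab x.1 x.2).1) : ℝ) * ‖cm (ρ x.1) (lab x.1 x.2).1 σ‖)
  have hg0 : ∀ σ x, 0 ≤ g₀ σ x := fun σ x => by positivity
  set M : ℝ := 1 + ∑ σ ∈ F, ∑ x, g₀ σ x
  have hM : ∀ σ ∈ F, ∀ x, g₀ σ x ≤ M := fun σ hσ x =>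
    ((single_le_sum (fun x _ => hg0 σ x) (mem_univ x)).trans
      (single_le_sum (f := fun σ => ∑ x, g₀ σ x) (fun σ _ => sum_nonneg fun x _ => hg0 σ x)
        hσ)).trans (le_add_of_nonneg_left zero_le_one)
  have hM1 : 1 ≤ M := le_add_of_nonneg_right
    (sum_nonneg fun σ _ => sum_nonneg fun x _ => hg0 σ x)
  refine ⟨F, |Real.log c| + Real.log M, add_nonneg (abs_nonneg _) (Real.log_nonneg hM1),
    fun Q z h => ?_⟩
  let Q' : ∀ p, Fin q → Matrix (Fin (d p)) (Fin (d p)) (k p) := fun p l =>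
    if Q p l = 0 then 1 else Q p l
  let L : ∀ p (x : κ p), Matrix (Sub (d p) (lab p x).1) (Sub (d p) (lab p x).1) (k p) := fun p x =>
    match x with
    | Sum.inl _ => 1
    | Sum.inr l => cmp 1 (Q' p l)
  have hone : ∀ p, (S p).quot 1 (h1ne p).some = 1 := fun p => (S p).one _
  have hblk : ∀ p g, (S p).blk 1 (h1ne p).some g = cm (ρ p) 1 g := fun p g => by
    rw [Parts.blk, hone, Matrix.one_mul, Matrix.mul_one]
  have hL0 : ∀ p x, L p x * (S p).blk (lab p x).1 (lab p x).2 z ≠ 0 := by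
    intro p x
    rcases x with e | l
    · exact ne_of_eq_of_ne (Matrix.one_mul ((S p).blk e.1.1 e.2 z))
        ((S p).blk_ne (Nat.le_of_lt_succ e.1.2) e.2 z)
    · show cmp 1 (Q' p l) * (S p).blk 1 (h1ne p).some z ≠ 0
      rw [hblk]
      refine test_ne (ρ p) (fun h0 => ?_) z
      have : ‖Q' p l‖ = 0 := by rw [← norm_cmp_one, h0, norm_zero]
      have hq : Q' p l ≠ 0 := by
        have : Nonempty (Fin (d p)) := ⟨⟨0, hd p⟩⟩
        simp only [Q']
        split_ifs with h1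
        · exact one_ne_zero
        · exact h1
      exact hq (norm_eq_zero.1 this)
  set U : ∀ x : Σ p, κ p,
      Matrix (Sub (d x.1) (lab x.1 x.2).1) (Sub (d x.1) (lab x.1 x.2).1) (k x.1) := fun x =>
    L x.1 x.2 * (S x.1).blk (lab x.1 x.2).1 (lab x.1 x.2).2 z
  set W : ∀ x : Σ p, κ p,
      Matrix (Sub (d x.1) (lab x.1 x.2).1) (Sub (d x.1) (lab x.1 x.2).1) (k x.1) := fun x =>
    (S x.1).blk (lab x.1 x.2).1 (lab x.1 x.2).2 h
  choose a ha using fun x => exists_row (U x)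
  choose b hb using fun x => exists_col (W x)
  have hU : ∀ x, 0 < ‖U x‖ := fun x => norm_pos_iff.2 (hL0 x.1 x.2)
  have hW : ∀ x, 0 < ‖W x‖ := fun x => norm_pos_iff.2
    ((S x.1).blk_ne (hlab x.1 x.2) _ h)
  obtain ⟨σ, hσ, hs⟩ := hF (fun x => (U x) (a x)) (fun x => (W x).col (b x))
    (fun x => ⟨fun h0 => (hU x).not_ge ((ha x).trans_eq (norm_eq_zero.2 h0)), by
      rw [← mul_apply_eq_vecMul]
      simp only [U]
      rw [Matrix.mul_assoc, Parts.blk_quot]⟩)
    (fun x => ⟨fun h0 => (hW x).not_ge ((hb x).trans_eq (norm_eq_zero.2 h0)), by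
      have e : (S x.1).quot (lab x.1 x.2).1 (lab x.1 x.2).2 * W x = W x := by
        simp only [W]
        rw [Parts.quot_blk]
      funext i
      exact congrFun (congrFun e i) (b x)⟩)
  have key : ∀ x, |Real.log ‖L x.1 x.2 *
      (S x.1).blk (lab x.1 x.2).1 (lab x.1 x.2).2 (z * σ * h)‖ - Real.log ‖U x‖ - Real.log ‖W x‖| ≤
        |Real.log c| + Real.log M := by
    intro x
    have e : L x.1 x.2 * (S x.1).blk (lab x.1 x.2).1 (lab x.1 x.2).2 (z * σ * h) =
          U x * cm (ρ x.1) (lab x.1 x.2).1 σ * W x := by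
      simp only [U, W, Parts.blk_mul, Matrix.mul_assoc]
      congr 1
      conv_rhs =>
        rw [← Parts.blk_quot (S x.1) _ _ z, ← Parts.quot_blk (S x.1) _ _ h]
      simp only [Parts.blk, Matrix.mul_assoc]
    refine log_slot hc hM1 (hU x) (hW x) ?_ ?_
    · rw [e]
      refine (mul_le_mul_of_nonneg_left (mul_le_mul (ha x) (hb x) (norm_nonneg _) (norm_nonneg _))
        hc.le).trans ((hs x).trans (le_of_eq_of_le (congrArg norm ?_)
          (norm_entry_le_entrywise_sup_norm (U x * cm (ρ x.1) (lab x.1 x.2).1 σ * W x)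
            (i := a x) (j := b x))))
      rw [dotProduct_mulVec, Matrix.mul_apply' (M := _ * _), mul_apply_eq_vecMul (U x)]
      rfl
    · rw [e]
      set D : ℝ := (Fintype.card (Sub (d x.1) (lab x.1 x.2).1) : ℝ) with hD
      have h3 := mul_le_mul_of_nonneg_right (hM σ hσ x) (mul_nonneg (hU x).le (hW x).le)
      have h4 := mul_le_mul_of_nonneg_left
        (mul_le_mul_of_nonneg_right (norm_mul_le_card (U x) (cm (ρ x.1) (lab x.1 x.2).1 σ))
          (hW x).le) (show 0 ≤ D from Nat.cast_nonneg _)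
      have h5 := norm_mul_le_card (U x * cm (ρ x.1) (lab x.1 x.2).1 σ) (W x)
      simp only [g₀, ← hD] at h3
      rw [← hD] at h4 h5
      linarith
  refine ⟨σ, hσ, fun p => ⟨fun j i => ?_, fun l hl => ?_⟩⟩
  · have h2 : |Real.log ‖(1 : Matrix (Sub (d p) j) (Sub (d p) j) (k p)) *
          (S p).blk j i (z * σ * h)‖ -
        Real.log ‖(1 : Matrix (Sub (d p) j) (Sub (d p) j) (k p)) * (S p).blk j i z‖ -
        Real.log ‖(S p).blk j i h‖| ≤ |Real.log c| + Real.log M :=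
      key ⟨p, Sum.inl ⟨j, i⟩⟩
    rw [Matrix.one_mul, Matrix.one_mul] at h2
    exact h2
  · have h2 : |Real.log ‖cmp 1 (Q' p l) * (S p).blk 1 (h1ne p).some (z * σ * h)‖ -
        Real.log ‖cmp 1 (Q' p l) * (S p).blk 1 (h1ne p).some z‖ -
        Real.log ‖(S p).blk 1 (h1ne p).some h‖| ≤ |Real.log c| + Real.log M :=
      key ⟨p, Sum.inr l⟩
    rw [hblk, hblk, hblk, cm, cm, cm, ← cmp_mul, ← cmp_mul,
      norm_cmp_one, norm_cmp_one, norm_cmp_one, show Q' p l = Q p l from if_neg hl] at h2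
    exact h2

end Vale.Agent.P165.EX.Semi
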