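import Vale.Agent.P165.EX.Semi.Axes
import Vale.Agent.P165.EX.Semi.Frames

/-!
# Semisimple images: decoding candidates

In the chart of its type a candidate is a diagonal times a bounded matrix, so tests of order one
along a frame, or the sizes of all orders, leave boundedly many candidates of one product.
-/

namespace Vale.Agent.P165.EX.Semi

open Finset Matrix
open scoped Matrix.Norms.Elementwise MatrixGroups

section Place

variable {k : Type} [NontriviallyNormedField k] {n : ℕ}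

theorem row_of_diag {B : ℝ} {R Ri : Matrix (Fin n) (Fin n) k} (hR : Bdd B R Ri) (a : Fin n → k)
    (i : Fin n) :
    ‖(diagonal a * R) i‖ ≤ B * ‖a i‖ ∧ ‖a i‖ ≤ n * B * ‖(diagonal a * R) i‖ := by
  have hrow : (diagonal a * R) i = a i • R i := funext fun b => by
    rw [diagonal_mul, Pi.smul_apply, smul_eq_mul]
  have hB : 0 ≤ B := (norm_nonneg R).trans hR.2.2.1
  rw [hrow, norm_smul]
  constructor
  · rw [mul_comm]
    refine mul_le_mul_of_nonneg_right ?_ (norm_nonneg _)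
    exact (pi_norm_le_iff_of_nonneg hB).2 fun b =>
      (norm_entry_le_entrywise_sup_norm R).trans hR.2.2.1
  · have h := congrFun (congrFun hR.1 i) i
    rw [Matrix.mul_apply, one_apply_eq] at h
    have h1 : 1 ≤ n * (‖R i‖ * B) := by
      rw [← norm_one (α := k), ← h]
      refine (norm_sum_le _ _).trans ((sum_le_card_nsmul _ _ (‖R i‖ * B) fun b _ => ?_).trans_eq
        (by simp))
      rw [norm_mul]
      exact mul_le_mul (norm_le_pi_norm _ b)
        ((norm_entry_le_entrywise_sup_norm Ri).trans hR.2.2.2) (norm_nonneg _) (norm_nonneg _)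
    have := mul_le_mul_of_nonneg_left h1 (norm_nonneg (a i))
    linarith

/-- In a chart the sum of the logarithms of the rows is bounded. -/
theorem sum_log_rows (hn : 0 < n) (B : ℝ) : ∃ Λ : ℝ, 0 ≤ Λ ∧ ∀ (z X Xi R Ri : Matrix (Fin n) (Fin n) k)
    (a : Fin n → k), z.det = 1 → Bdd B X Xi → Bdd B R Ri → X * z = diagonal a * R →
      |∑ i, Real.log ‖(X * z) i‖| ≤ Λ := by
  set G : ℝ := (n.factorial * B ^ n) * (n.factorial * B ^ n) with hG
  set L : ℝ := |Real.log B| + |Real.log (n * B)| with hL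
  refine ⟨|Real.log G| + n * L, by positivity, fun z X Xi R Ri a hz hX hR he => ?_⟩
  have hdet : ∀ M Mi : Matrix (Fin n) (Fin n) k, Bdd B M Mi →
      ‖M.det‖ ≤ n.factorial * B ^ n ∧ ‖M.det‖ * ‖Mi.det‖ = 1 := fun M Mi hM =>
    ⟨norm_det_le _ fun u v => (norm_entry_le_entrywise_sup_norm _).trans hM.2.2.1,
      by rw [← norm_mul, ← det_mul, hM.1, det_one, norm_one]⟩
  obtain ⟨hX1, hXi⟩ := hdet X Xi hX
  obtain ⟨hR1, hRi⟩ := hdet R Ri hR
  have hX2 := (hdet Xi X ⟨hX.2.1, hX.1, hX.2.2.2, hX.2.2.1⟩).1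
  have hR2 := (hdet Ri R ⟨hR.2.1, hR.1, hR.2.2.2, hR.2.2.1⟩).1
  set P := ∏ i, ‖a i‖ with hP
  have hXz : ‖X.det‖ = P * ‖R.det‖ := by
    have h := congrArg (fun M => ‖M.det‖) he
    simpa [det_mul, hz, det_diagonal, norm_prod, hP] using h
  have hup : P ≤ G := by
    have : P = ‖X.det‖ * ‖Ri.det‖ := by rw [hXz, mul_assoc, hRi, mul_one]
    rw [this, hG]
    exact mul_le_mul hX1 hR2 (norm_nonneg _) ((norm_nonneg _).trans hX1)
  have hlow : 1 ≤ P * G := by
    have : P * (‖R.det‖ * ‖Xi.det‖) = 1 := by rw [← mul_assoc, ← hXz, hXi]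
    rw [← this, hG]
    exact mul_le_mul_of_nonneg_left (mul_le_mul hR1 hX2 (norm_nonneg _) ((norm_nonneg _).trans hR1))
      (prod_nonneg fun _ _ => norm_nonneg _)
  have hP0 : 0 < P := by
    rcases (prod_nonneg fun i (_ : i ∈ (univ : Finset (Fin n))) => norm_nonneg (a i)).lt_or_eq
      with h | h
    · exact h
    · rw [hP, ← h, zero_mul] at hlow; linarith
  have hG0 : 0 < G := pos_of_mul_pos_right (zero_lt_one.trans_le hlow) hP0.le
  have hai : ∀ i, 0 < ‖a i‖ := fun i => by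
    refine lt_of_le_of_ne (norm_nonneg _) fun h => ?_
    rw [hP, prod_eq_zero (mem_univ i) h.symm] at hP0
    exact lt_irrefl _ hP0
  have hlogP : |∑ i, Real.log ‖a i‖| ≤ |Real.log G| := by
    rw [← Real.log_prod fun i _ => (hai i).ne']
    have l1 := Real.log_le_log hP0 hup
    have l2 := Real.log_le_log one_pos hlow
    rw [Real.log_one, Real.log_mul hP0.ne' hG0.ne'] at l2
    rw [abs_le]
    change -|Real.log G| ≤ Real.log P ∧ Real.log P ≤ |Real.log G|
    constructor <;> linarith [le_abs_self (Real.log G)]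
  have hdiff : ∀ i, |Real.log ‖(X * z) i‖ - Real.log ‖a i‖| ≤ L := fun i => by
    rw [he]
    obtain ⟨h1, h2⟩ := row_of_diag hR a i
    have hnB : 0 < (n : ℝ) * B ∧ 0 < ‖(diagonal a * R) i‖ := by
      have hB0 : 0 ≤ B := (norm_nonneg R).trans hR.2.2.1
      have h0 := (hai i).trans_le h2
      exact ⟨pos_of_mul_pos_left h0 (norm_nonneg _), pos_of_mul_pos_right h0 (by positivity)⟩
    have hB : 0 < B := by
      by_contra h
      exact absurd (hnB.2.trans_le h1) (not_lt.2 (mul_nonpos_of_nonpos_of_nonneg (not_lt.1 h)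
        (norm_nonneg _)))
    have l1 := Real.log_le_log hnB.2 h1
    rw [Real.log_mul hB.ne' (hai i).ne'] at l1
    have l2 := Real.log_le_log (hai i) h2
    rw [Real.log_mul hnB.1.ne' hnB.2.ne'] at l2
    rw [hL, abs_le]
    constructor <;> linarith [le_abs_self (Real.log B), le_abs_self (Real.log ((n : ℝ) * B)),
      abs_nonneg (Real.log B), abs_nonneg (Real.log ((n : ℝ) * B))]
  have hs : |∑ i, (Real.log ‖(X * z) i‖ - Real.log ‖a i‖)| ≤ n * L :=
    (abs_sum_le_sum_abs _ _).trans ((sum_le_card_nsmul _ _ _ fun i _ => hdiff i).trans_eq (by simp))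
  rw [sum_sub_distrib] at hs
  have := abs_sub_abs_le_abs_sub (∑ i, Real.log ‖(X * z) i‖) (∑ i, Real.log ‖a i‖)
  linarith

/-- Two matrices of one chart with comparable rows differ by a bounded one. -/
theorem norm_div_chart (B E : ℝ) : ∃ C : ℝ, ∀ (z zi z' X Xi R Ri R' Ri' : Matrix (Fin n) (Fin n) k)
    (a a' : Fin n → k), zi * z = 1 → Bdd B X Xi → Bdd B R Ri → Bdd B R' Ri' →
      X * z = diagonal a * R → X * z' = diagonal a' * R' → (∀ i, a i ≠ 0) →
      (∀ i, ‖(X * z') i‖ ≤ E * ‖(X * z) i‖) → ‖zi * z'‖ ≤ C := by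
  refine ⟨n * (B * (n * (n * B * (|E| * B) * B))), ?_⟩
  intro z zi z' X Xi R Ri R' Ri' a a' hz hX hR hR' he he' ha hcmp
  have hB : 0 ≤ B := (norm_nonneg R).trans hR.2.2.1
  have hdd : diagonal (fun i => (a i)⁻¹) * diagonal a = 1 := by
    rw [diagonal_mul_diagonal, ← diagonal_one]; congr 1; funext i; exact inv_mul_cancel₀ (ha i)
  have hzi : zi = Ri * diagonal (fun i => (a i)⁻¹) * X := by
    have h : Ri * diagonal (fun i => (a i)⁻¹) * X * z = 1 := by
      rw [Matrix.mul_assoc _ X, he, Matrix.mul_assoc Ri, ← Matrix.mul_assoc (diagonal _) (diagonal a),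
        hdd, one_mul, hR.2.1]
    calc zi = 1 * zi := (one_mul _).symm
      _ = _ := by rw [← h, Matrix.mul_assoc, mul_eq_one_comm.1 hz, mul_one]
  rw [hzi, Matrix.mul_assoc _ X, he', Matrix.mul_assoc Ri, ← Matrix.mul_assoc (diagonal _),
    diagonal_mul_diagonal]
  set r : Fin n → k := fun i => (a i)⁻¹ * a' i with hr
  have hrb : ∀ i, ‖r i‖ ≤ n * B * (|E| * B) := fun i => by
    have hc := hcmp i
    rw [he, he'] at hc
    have h1 := (row_of_diag hR' a' i).2
    have h2 := (row_of_diag hR a i).1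
    rw [hr, norm_mul, norm_inv, inv_mul_le_iff₀ (norm_pos_iff.2 (ha i))]
    have h3 := mul_le_mul_of_nonneg_left ((hc.trans (mul_le_mul_of_nonneg_right (le_abs_self E)
      (norm_nonneg _))).trans (mul_le_mul_of_nonneg_left h2 (abs_nonneg E)))
        (show 0 ≤ (n : ℝ) * B by positivity)
    linarith
  refine (norm_mul_le_card _ _).trans ?_
  rw [Fintype.card_fin]
  refine mul_le_mul_of_nonneg_left (mul_le_mul hR.2.2.2 ?_ (norm_nonneg _) hB) (Nat.cast_nonneg _)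
  refine (norm_mul_le_card _ _).trans ?_
  rw [Fintype.card_fin]
  refine mul_le_mul_of_nonneg_left (mul_le_mul ((Matrix.norm_le_iff (by positivity)).2 fun i l => ?_)
    hR'.2.2.1 (norm_nonneg _) (by positivity)) (Nat.cast_nonneg _)
  rw [diagonal_apply]
  split_ifs
  · exact hrb i
  · rw [norm_zero]; positivity

variable {Γ : Type} [Group Γ] {ρ : Γ →* SL(n, k)}

/-- Additive sizes on the factors bound the product of the norms on the factors. -/
theorem exists_mult (S : Parts ρ) (F : Finset Γ) (A : ℝ) :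
    ∃ C₀ : ℝ, ∀ y z h σ : Γ, σ ∈ F → z * σ * h = y →
      (∀ (j : Fin (n + 1)) (i : Fin (S.cnt j)),
        |S.psize j i y - S.psize j i z - S.psize j i h| ≤ A) →
      ∀ j ≤ n, ∀ i, ‖S.blk j i z‖ * ‖S.blk j i (z⁻¹ * y)‖ ≤ C₀ * ‖S.blk j i y‖ := by
  set N : ℕ → ℝ := fun j => (Fintype.card (Sub n j) : ℝ)
  set M : ℝ := ∑ σ ∈ F, ∑ j ∈ range (n + 1), ∑ i, N j * ‖S.blk j i σ‖
  refine ⟨Real.exp A * M, fun y z h σ hσ hy hadd j hj i => ?_⟩
  have e : z⁻¹ * y = σ * h := by rw [← hy]; group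
  have hN : ∀ j, 0 ≤ N j := fun j => by simp only [N]; exact Nat.cast_nonneg _
  have hM : N j * ‖S.blk j i σ‖ ≤ M :=
    ((single_le_sum (f := fun i => N j * ‖S.blk j i σ‖)
      (fun _ _ => mul_nonneg (hN j) (norm_nonneg _)) (mem_univ i)).trans
      (single_le_sum (f := fun j => ∑ i, N j * ‖S.blk j i σ‖)
        (fun j _ => sum_nonneg fun _ _ => mul_nonneg (hN j) (norm_nonneg _))
        (mem_range.2 (Nat.lt_succ_of_le hj)))).trans
      (single_le_sum (f := fun σ => ∑ j ∈ range (n + 1), ∑ i, N j * ‖S.blk j i σ‖)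
        (fun _ _ => sum_nonneg fun j _ => sum_nonneg fun _ _ => mul_nonneg (hN j) (norm_nonneg _))
        hσ)
  have h1 : ‖S.blk j i (z⁻¹ * y)‖ ≤ M * ‖S.blk j i h‖ := by
    rw [e, S.blk_mul]
    refine (norm_mul_le_card _ _).trans ?_
    rw [← mul_assoc]
    exact mul_le_mul_of_nonneg_right hM (norm_nonneg _)
  have hM0 : 0 ≤ M := (mul_nonneg (hN j) (norm_nonneg _)).trans hM
  have hpz := S.norm_blk_pos hj z i
  have hph := S.norm_blk_pos hj h i
  have hpy := S.norm_blk_pos hj y i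
  have h2 : ‖S.blk j i z‖ * ‖S.blk j i h‖ ≤ Real.exp A * ‖S.blk j i y‖ := by
    have h := (abs_le.1 (hadd ⟨j, Nat.lt_succ_of_le hj⟩ i)).1
    simp only [Parts.psize] at h
    rw [← Real.log_le_log_iff (mul_pos hpz hph) (mul_pos (Real.exp_pos A) hpy),
      Real.log_mul hpz.ne' hph.ne', Real.log_mul (Real.exp_pos A).ne' hpy.ne', Real.log_exp]
    linarith
  refine (mul_le_mul_of_nonneg_left h1 hpz.le).trans ?_
  have := mul_le_mul_of_nonneg_left h2 hM0
  linarith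

theorem psize_one (S : Parts ρ) (i : Fin (S.cnt 1)) (g : Γ) : S.psize 1 i g = lsize ρ g := by
  rw [Parts.psize, Parts.blk, S.one, Matrix.one_mul, Matrix.mul_one, ← size_one]
  rfl

theorem exists_one (S : Parts ρ) (hn : 0 < n) : Nonempty (Fin (S.cnt 1)) := by
  by_contra h
  have : IsEmpty (Fin (S.cnt 1)) := not_nonempty_iff.1 h
  obtain ⟨C, hC⟩ := S.total 1 hn
  have h1 := hC 1
  rw [Finset.univ_eq_empty, sum_empty, mul_zero] at h1
  exact (norm_cm_pos ρ hn 1).not_ge h1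

end Place

variable {P : Type} [Fintype P] {k : P → Type} [∀ p, NontriviallyNormedField (k p)]
  [∀ p, ProperSpace (k p)] {d : P → ℕ} {Γ : Type} [Group Γ] {ρ : ∀ p, Γ →* SL(d p, k p)}

omit [Fintype P] in
/-- Every candidate fits a chart of its product. -/
theorem exists_fit (S : ∀ p, Parts (ρ p)) (hgen : ∀ p, (S p).Generic) (F : Finset Γ) (A : ℝ) :
    ∃ (B : P → ℝ) (X : ∀ p, Γ → Pattern (S p) → Matrix (Fin (d p)) (Fin (d p)) (k p)),
      (∀ p y τ, ∃ Xi, Bdd (B p) (X p y τ) Xi) ∧ ∀ y z, Cand S F A y z → ∀ p,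
        ∃ (τ : Pattern (S p)) (a : Fin (d p) → k p)
          (R Ri : Matrix (Fin (d p)) (Fin (d p)) (k p)),
          X p y τ * (ρ p z : Matrix (Fin (d p)) (Fin (d p)) (k p)) = diagonal a * R ∧
            Bdd (B p) R Ri ∧ (∀ i, a i ≠ 0) ∧ ∀ i l, i ≤ l → ‖a l‖ ≤ B p * ‖a i‖ := by
  choose C₀ hC₀ using fun p => exists_mult (S p) F A
  choose B X hX hchart using fun p => exists_chart (S p) (hits_of_generic (hgen p)) (C₀ p)
  refine ⟨B, X, hX, fun y z hz p => ?_⟩
  obtain ⟨h, ⟨σ, hσ, hy⟩, hadd⟩ := hz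
  exact hchart p y z fun j hj i => hC₀ p y z h σ hσ hy (hadd p) j hj i

omit [∀ p, ProperSpace (k p)] in
/-- Two candidates of one chart with comparable rows differ by a bounded element. -/
theorem card_le_of_rows (S : ∀ p, Parts (ρ p)) (hfin : Multi.BoxFinite ρ) (B E : P → ℝ) :
    ∃ N : ℕ, ∀ (X : ∀ p, Pattern (S p) → Matrix (Fin (d p)) (Fin (d p)) (k p)),
      (∀ p τ, ∃ Xi, Bdd (B p) (X p τ) Xi) →
      ∀ (τ : Γ → ∀ p, Pattern (S p)) (Z : Finset Γ),
      (∀ z ∈ Z, ∀ p, ∃ (a : Fin (d p) → k p) (R Ri : Matrix (Fin (d p)) (Fin (d p)) (k p)),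
        X p (τ z p) * (ρ p z : Matrix (Fin (d p)) (Fin (d p)) (k p)) = diagonal a * R ∧
          Bdd (B p) R Ri ∧ ∀ i, a i ≠ 0) →
      (∀ z ∈ Z, ∀ z' ∈ Z, τ z' = τ z → ∀ p i,
        ‖(X p (τ z p) * (ρ p z' : Matrix (Fin (d p)) (Fin (d p)) (k p))) i‖ ≤
          E p * ‖(X p (τ z p) * (ρ p z : Matrix (Fin (d p)) (Fin (d p)) (k p))) i‖) →
      Z.card ≤ N := by
  classical
  choose Cd hCd using fun p => norm_div_chart (k := k p) (n := d p) (B p) (E p)
  set Box := (hfin (∑ p, |Cd p|)).toFinset with hBox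
  refine ⟨Box.card * Fintype.card (∀ p, Pattern (S p)), fun X hX τ Z hfit hcmp => ?_⟩
  rw [← card_univ (α := ∀ p, Pattern (S p))]
  refine card_le_mul_card_image_of_maps_to (f := τ) (fun z _ => mem_univ _) _ fun t _ => ?_
  rcases (Z.filter fun z => τ z = t).eq_empty_or_nonempty with h0 | ⟨z₀, hz₀⟩
  · rw [h0, card_empty]; exact Nat.zero_le _
  obtain ⟨hz₀Z, rfl⟩ := mem_filter.1 hz₀
  refine card_le_card_of_injOn (fun z => z₀⁻¹ * z) (fun z hz => ?_)
    fun z _ z' _ h => mul_left_cancel h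
  obtain ⟨hzZ, hzt⟩ := mem_filter.1 hz
  rw [hBox, Set.Finite.coe_toFinset]
  intro p
  obtain ⟨a, Q, Qi, he, hQ, ha⟩ := hfit z₀ hz₀Z p
  obtain ⟨a', Q', Qi', he', hQ', -⟩ := hfit z hzZ p
  obtain ⟨Xi, hXi⟩ := hX p (τ z₀ p)
  rw [hzt] at he'
  refine le_trans (le_trans (le_of_eq ?_) (hCd p _ (ρ p z₀⁻¹ : Matrix (Fin (d p)) (Fin (d p)) (k p))
    _ _ Xi Q Qi Q' Qi' a a' ?_ hXi hQ hQ' he he' ha (hcmp z₀ hz₀Z z hzZ hzt p)))
    ((le_abs_self _).trans (single_le_sum (f := fun p => |Cd p|) (fun _ _ => abs_nonneg _)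
      (mem_univ p)))
  · rw [coe_mul]
  · rw [← coe_mul, inv_mul_cancel, coe_one]

/-- Frames that keep any given number of tests of order one and leave boundedly many candidates of
`y` over one end of a frame. -/
theorem exists_decode (hd : ∀ p, 0 < d p) (S : ∀ p, Parts (ρ p)) (hgen : ∀ p, (S p).Generic)
    (hfin : Multi.BoxFinite ρ) (F : Finset Γ) (A : ℝ) (q : ℕ) :
    ∃ (F₁ : Finset Γ) (A₁ : ℝ) (N : ℕ), 0 ≤ A₁ ∧
      ∀ (y : Γ) (Q : ∀ p, Fin q → Matrix (Fin (d p)) (Fin (d p)) (k p)), ∃ R : Γ → Γ → Γ,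
        (∀ z h, R z h ∈ F₁ ∧ Cand S F₁ A₁ (z * R z h * h) z ∧ ∀ p,
          |lsize (ρ p) (z * R z h * h) - lsize (ρ p) z - lsize (ρ p) h| ≤ A₁ ∧
          ∀ i, Q p i ≠ 0 →
            |defect (ρ p) (Q p i) (z * R z h * h) - defect (ρ p) (Q p i) z| ≤ A₁) ∧
        ∀ (y' : Γ) (Z : Finset Γ), (∀ z ∈ Z, Cand S F A y z ∧ ∃ g, z * R z g * g = y') →
          Z.card ≤ N := by
  classical
  obtain ⟨B, X, hX, hfitX⟩ := exists_fit S hgen F A
  choose Λ hΛ0 hΛ using fun p => sum_log_rows (k := k p) (hd p) (B p)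
  set D₀ : ℕ := (∑ p, Fintype.card (Pattern (S p) × Fin (d p))) + q with hD₀
  obtain ⟨F₁, A₁, hA₁, hest⟩ := est_of_generic hd S hgen D₀
  set c : P → ℕ := fun p => Fintype.card (Pattern (S p) × Fin (d p))
  have hle : ∀ p, c p + q ≤ D₀ := fun p => Nat.add_le_add_right (single_le_sum
    (f := fun p => Fintype.card (Pattern (S p) × Fin (d p))) (fun _ _ => Nat.zero_le _)
      (mem_univ p)) q
  obtain ⟨N, hN⟩ := card_le_of_rows S hfin B fun p => Real.exp (2 * (2 * A₁ + 2 * Λ p))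
  refine ⟨F₁, 2 * A₁, N, by positivity, fun y Q => ?_⟩
  let base : ∀ p, Fin (c p + q) → Matrix (Fin (d p)) (Fin (d p)) (k p) := fun p =>
    Fin.addCases (fun i => rowTest (X p y ((Fintype.equivFin _).symm i).1)
      ((Fintype.equivFin _).symm i).2) (Q p)
  let tests : ∀ p, Fin D₀ → Matrix (Fin (d p)) (Fin (d p)) (k p) := fun p i =>
    if h : i.1 < c p + q then base p ⟨i.1, h⟩ else 0
  have htests : ∀ p i, tests p (Fin.castLE (hle p) i) = base p i := fun p i => by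
    have h : (Fin.castLE (hle p) i).1 < c p + q := i.2
    simp only [tests, dif_pos h]
    rfl
  choose R hR using fun z h : Γ => hest tests z h
  refine ⟨R, fun z h => ⟨(hR z h).1, ⟨h, ⟨R z h, (hR z h).1, rfl⟩, fun p j i =>
    (((hR z h).2 p).1 j i).trans (by linarith)⟩, fun p => ?_⟩, fun y' Z hZ => ?_⟩
  · obtain ⟨i₀⟩ := exists_one (S p) (hd p)
    have h1 : |(S p).psize 1 i₀ (z * R z h * h) - (S p).psize 1 i₀ z - (S p).psize 1 i₀ h| ≤ A₁ :=
      ((hR z h).2 p).1 ⟨1, Nat.succ_lt_succ (hd p)⟩ i₀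
    rw [psize_one, psize_one, psize_one] at h1
    refine ⟨h1.trans (by linarith), fun i hi => ?_⟩
    have e := htests p (Fin.natAdd (c p) i)
    simp only [base, Fin.addCases_right] at e
    have h2 := ((hR z h).2 p).2 (Fin.castLE (hle p) (Fin.natAdd (c p) i)) (e ▸ hi)
    rw [e] at h2
    simp only [defect]
    rw [abs_le] at h1 h2 ⊢
    constructor <;> linarith
  let τ : Γ → ∀ p, Pattern (S p) := fun z p =>
    if hz : Cand S F A y z then (hfitX y z hz p).choose else fun _ => none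
  have hτ : ∀ z, Cand S F A y z → ∀ p, ∃ (a : Fin (d p) → k p)
      (R Ri : Matrix (Fin (d p)) (Fin (d p)) (k p)),
      X p y (τ z p) * (ρ p z : Matrix (Fin (d p)) (Fin (d p)) (k p)) = diagonal a * R ∧
        Bdd (B p) R Ri ∧ ∀ i, a i ≠ 0 := fun z hz p => by
    simp only [τ, dif_pos hz]
    obtain ⟨a, R, Ri, e1, e2, e3, -⟩ := (hfitX y z hz p).choose_spec
    exact ⟨a, R, Ri, e1, e2, e3⟩
  -- the logarithms of the rows are found from the end of the frame
  set ℓ : ∀ p, Pattern (S p) → Fin (d p) → ℝ := fun p t i =>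
    Real.log ‖rowTest (X p y t) i * (ρ p y' : Matrix (Fin (d p)) (Fin (d p)) (k p))‖
  have hrow : ∀ z ∈ Z, ∀ p i, |Real.log
      ‖(X p y (τ z p) * (ρ p z : Matrix (Fin (d p)) (Fin (d p)) (k p))) i‖ -
        (ℓ p (τ z p) i - (∑ i', ℓ p (τ z p) i') / d p)| ≤ 2 * A₁ + 2 * Λ p := by
    intro z hz p
    obtain ⟨hc, g, rfl⟩ := hZ z hz
    obtain ⟨a, U, Ui, he, hU, ha⟩ := hτ z hc p
    obtain ⟨Xi, hXi⟩ := hX p y (τ z p)
    set W : Fin (d p) → ℝ := fun i =>
      Real.log ‖(X p y (τ z p) * (ρ p z : Matrix (Fin (d p)) (Fin (d p)) (k p))) i‖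
    set t : ℝ := lsize (ρ p) g
    have hne : ∀ i, rowTest (X p y (τ z p)) i ≠ 0 := fun i h0 => by
      have e := norm_rowTest (X p y (τ z p)) 1 i
      rw [h0, Matrix.zero_mul, norm_zero, Matrix.mul_one, eq_comm, norm_eq_zero] at e
      have := congrFun (congrFun hXi.1 i) i
      rw [Matrix.mul_apply, one_apply_eq, e] at this
      simp at this
    have hr : ∀ i, |ℓ p (τ z p) i - W i - t| ≤ A₁ := fun i => by
      have e := htests p (Fin.castAdd q (Fintype.equivFin _ (τ z p, i)))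
      simp only [base, Fin.addCases_left, Equiv.symm_apply_apply] at e
      have h1 := ((hR z g).2 p).2 (Fin.castLE (hle p) (Fin.castAdd q (Fintype.equivFin _ (τ z p, i))))
        (e ▸ hne i)
      rw [e, norm_rowTest (X p y (τ z p)) (ρ p z : Matrix (Fin (d p)) (Fin (d p)) (k p)) i] at h1
      exact h1
    have hs : |∑ i, W i| ≤ Λ p := hΛ p _ _ Xi U Ui a (ρ p z).2 hXi hU he
    have hn0 : (0 : ℝ) < d p := Nat.cast_pos.2 (hd p)
    have ht : |(∑ i, ℓ p (τ z p) i) / d p - t| ≤ A₁ + Λ p := by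
      have h1 : |∑ i, (ℓ p (τ z p) i - W i - t)| ≤ d p * A₁ :=
        (abs_sum_le_sum_abs _ _).trans ((sum_le_card_nsmul _ _ _ fun i _ => hr i).trans_eq
          (by simp))
      rw [sum_sub_distrib, sum_sub_distrib, sum_const, card_univ, Fintype.card_fin,
        nsmul_eq_mul] at h1
      rw [div_sub' hn0.ne', abs_div, abs_of_pos hn0, div_le_iff₀ hn0]
      have hd1 : Λ p ≤ Λ p * d p := le_mul_of_one_le_right (hΛ0 p) (Nat.one_le_cast.2 (hd p))
      rw [abs_le] at h1 hs ⊢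
      constructor <;> linarith
    intro i
    have h1 := abs_le.1 (hr i)
    have h2 := abs_le.1 ht
    rw [abs_le]
    change -(2 * A₁ + 2 * Λ p) ≤ W i - _ ∧ W i - _ ≤ _
    constructor <;> linarith [hΛ0 p]
  refine hN (fun p => X p y) (fun p => hX p y) τ Z (fun z hz => hτ z (hZ z hz).1)
    fun z hz z' hz' ht p i => ?_
  obtain ⟨a, U, Ui, he, hU, ha⟩ := hτ z (hZ z hz).1 p
  obtain ⟨a', U', Ui', he', hU', ha'⟩ := hτ z' (hZ z' hz').1 p
  rw [ht] at he'
  have hp0 : ∀ (b : Fin (d p) → k p) (V Vi : Matrix (Fin (d p)) (Fin (d p)) (k p)),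
      Bdd (B p) V Vi → b i ≠ 0 → 0 < ‖(diagonal b * V) i‖ := fun b V Vi hV hb =>
    pos_of_mul_pos_right ((norm_pos_iff.2 hb).trans_le (row_of_diag hV b i).2)
      (mul_nonneg (Nat.cast_nonneg _) ((norm_nonneg V).trans hV.2.2.1))
  have h1 := abs_le.1 (hrow z' hz' p i)
  have h2 := abs_le.1 (hrow z hz p i)
  rw [ht, he'] at h1
  rw [he] at h2
  rw [he, he', ← Real.log_le_log_iff (hp0 a' U' Ui' hU' (ha' i))
    (mul_pos (Real.exp_pos _) (hp0 a U Ui hU (ha i))),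
    Real.log_mul (Real.exp_pos _).ne' (hp0 a U Ui hU (ha i)).ne', Real.log_exp]
  linarith

/-- Boundedly many candidates of one product have given sizes of all orders. -/
theorem exists_cell_pack (S : ∀ p, Parts (ρ p)) (hgen : ∀ p, (S p).Generic)
    (hfin : Multi.BoxFinite ρ) (F : Finset Γ) (A D : ℝ) :
    ∃ N : ℕ, ∀ (y : Γ) (Z : Finset Γ), (∀ z ∈ Z, Cand S F A y z) →
      (∀ z ∈ Z, ∀ z' ∈ Z, ∀ p (j : Fin (d p + 1)),
        |size (ρ p) j z - size (ρ p) j z'| ≤ D) → Z.card ≤ N := by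
  classical
  obtain ⟨B₀, X, hX, hfitX⟩ := exists_fit S hgen F A
  set B : P → ℝ := fun p => |B₀ p| + 1
  have hB1 : ∀ p, 1 ≤ B p := fun p => le_add_of_nonneg_left (abs_nonneg _)
  have hBB : ∀ p, B₀ p ≤ B p := fun p => (le_abs_self _).trans (le_add_of_nonneg_right zero_le_one)
  choose G hG1 hG using fun p => size_pivot (k := k p) (d p) (hB1 p)
  set M : P → ℝ := fun p => G p * G p * Real.exp D
  obtain ⟨N, hN⟩ := card_le_of_rows S hfin B
    fun p => B p * (M p * M p) * ((d p : ℝ) * B p)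
  refine ⟨N, fun y Z hZ hD => ?_⟩
  let τ : Γ → ∀ p, Pattern (S p) := fun z p =>
    if hz : z ∈ Z then (hfitX y z (hZ z hz) p).choose else fun _ => none
  have hτ : ∀ z ∈ Z, ∀ p, ∃ (a : Fin (d p) → k p) (R Ri : Matrix (Fin (d p)) (Fin (d p)) (k p)),
      X p y (τ z p) * (ρ p z : Matrix (Fin (d p)) (Fin (d p)) (k p)) = diagonal a * R ∧
        Bdd (B p) R Ri ∧ (∀ i, a i ≠ 0) ∧ ∀ i l, i ≤ l → ‖a l‖ ≤ B p * ‖a i‖ := fun z hz p => by
    simp only [τ, dif_pos hz]
    obtain ⟨a, R, Ri, e1, e2, e3, e4⟩ := (hfitX y z (hZ z hz) p).choose_spec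
    exact ⟨a, R, Ri, e1, ⟨e2.1, e2.2.1, e2.2.2.1.trans (hBB p), e2.2.2.2.trans (hBB p)⟩, e3,
      fun i l h => (e4 i l h).trans (mul_le_mul_of_nonneg_right (hBB p) (norm_nonneg _))⟩
  have hXB : ∀ p t, ∃ Xi, Bdd (B p) (X p y t) Xi := fun p t => by
    obtain ⟨Xi, h⟩ := hX p y t
    exact ⟨Xi, h.1, h.2.1, h.2.2.1.trans (hBB p), h.2.2.2.trans (hBB p)⟩
  refine hN (fun p => X p y) hXB τ Z (fun z hz p => ?_) fun z hz z' hz' ht p i => ?_
  · obtain ⟨a, R, Ri, e1, e2, e3, -⟩ := hτ z hz p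
    exact ⟨a, R, Ri, e1, e2, e3⟩
  obtain ⟨a, U, Ui, he, hU, ha, hdec⟩ := hτ z hz p
  obtain ⟨a', U', Ui', he', hU', ha', hdec'⟩ := hτ z' hz' p
  rw [ht] at he'
  obtain ⟨Xi, hXi⟩ := hXB p (τ z p)
  -- the sizes are the leading products in both charts
  have hsz : ∀ (w : Γ) (b : Fin (d p) → k p) (V Vi : Matrix (Fin (d p)) (Fin (d p)) (k p)),
      X p y (τ z p) * (ρ p w : Matrix (Fin (d p)) (Fin (d p)) (k p)) = diagonal b * V →
      Bdd (B p) V Vi → (∀ i, b i ≠ 0) → (∀ i l, i ≤ l → ‖b l‖ ≤ B p * ‖b i‖) →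
      ∀ j (hj : j ≤ d p), ‖cm (ρ p) j w‖ ≤ G p * pa (fun i => ‖b i‖) hj ∧
        pa (fun i => ‖b i‖) hj ≤ G p * ‖cm (ρ p) j w‖ := by
    intro w b V Vi hw hV hb hbdec j hj
    refine hG p _ Xi (X p y (τ z p)) V Vi b ?_ ⟨hXi.2.1, hXi.1, hXi.2.2.2, hXi.2.2.1⟩ hV hb hbdec j hj
    rw [Matrix.mul_assoc, ← hw, ← Matrix.mul_assoc, hXi.2.1, Matrix.one_mul]
  have key : ∀ j (hj : j ≤ d p), pa (fun i => ‖a' i‖) hj ≤ M p * pa (fun i => ‖a i‖) hj ∧
      pa (fun i => ‖a i‖) hj ≤ M p * pa (fun i => ‖a' i‖) hj := by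
    intro j hj
    have hd' := abs_le.1 (hD z hz z' hz' p ⟨j, Nat.lt_succ_of_le hj⟩)
    simp only [size] at hd'
    have h1 := hsz z a U Ui he hU ha hdec j hj
    have h2 := hsz z' a' U' Ui' he' hU' ha' hdec' j hj
    have p1 := norm_cm_pos (ρ p) hj z
    have p2 := norm_cm_pos (ρ p) hj z'
    have hG0 : 0 ≤ G p := zero_le_one.trans (hG1 p)
    have c1 : ‖cm (ρ p) j z'‖ ≤ Real.exp D * ‖cm (ρ p) j z‖ := by
      rw [← Real.log_le_log_iff p2 (mul_pos (Real.exp_pos _) p1),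
        Real.log_mul (Real.exp_pos _).ne' p1.ne', Real.log_exp]
      linarith
    have c2 : ‖cm (ρ p) j z‖ ≤ Real.exp D * ‖cm (ρ p) j z'‖ := by
      rw [← Real.log_le_log_iff p1 (mul_pos (Real.exp_pos _) p2),
        Real.log_mul (Real.exp_pos _).ne' p2.ne', Real.log_exp]
      linarith
    constructor
    · have := mul_le_mul_of_nonneg_left (c1.trans (mul_le_mul_of_nonneg_left h1.1
        (Real.exp_pos D).le)) hG0
      simp only [M]
      linarith [h2.2]
    · have := mul_le_mul_of_nonneg_left (c2.trans (mul_le_mul_of_nonneg_left h2.1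
        (Real.exp_pos D).le)) hG0
      simp only [M]
      linarith [h1.2]
  have hratio : ‖a' i‖ ≤ M p * M p * ‖a i‖ := by
    have h1 := (key (i.1 + 1) i.2).1
    have h2 := (key i.1 i.2.le).2
    rw [pa_succ, pa_succ] at h1
    refine le_of_mul_le_mul_right ?_
      (pa_pos (α := fun i => ‖a' i‖) (fun i => norm_pos_iff.2 (ha' i)) i.2.le)
    simp only [Fin.eta] at h1
    have hM0 : 0 ≤ M p * ‖a i‖ := mul_nonneg (mul_nonneg (mul_nonneg (zero_le_one.trans (hG1 p))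
      (zero_le_one.trans (hG1 p))) (Real.exp_pos D).le) (norm_nonneg _)
    have h3 := mul_le_mul_of_nonneg_left h2 hM0
    linarith
  rw [he, he']
  have hB0 : 0 ≤ B p := zero_le_one.trans (hB1 p)
  refine (row_of_diag hU' a' i).1.trans ((mul_le_mul_of_nonneg_left hratio hB0).trans ?_)
  have := mul_le_mul_of_nonneg_left (row_of_diag hU a i).2
    (mul_nonneg hB0 (mul_self_nonneg (M p)))
  linarith

end Vale.Agent.P165.EX.Semi
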