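import Vale.Agent.P165.EX.Semi.Criteria
import Mathlib

/-!
# Complete reducibility along field extensions

In characteristic zero a matrix representation is completely reducible exactly when the trace form
of its enveloping algebra is nondegenerate. The latter descends and passes to every extension field.
-/

namespace Vale.Agent.P165.EX.Semi

open Matrix Finset Polynomial

variable {k : Type} [Field k] {ι : Type} [Fintype ι] [DecidableEq ι] {Γ : Type} [Group Γ]

/-- Some polynomial without constant term gives an idempotent which vanishes only for nilpotent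
matrices. -/
theorem exists_idem (M : Matrix ι ι k) :
    ∃ p : k[X], p.coeff 0 = 0 ∧ aeval M p * aeval M p = aeval M p ∧
      (aeval M p = 0 → IsNilpotent M) := by
  obtain ⟨q, hq, hX⟩ := M.charpoly.exists_eq_pow_rootMultiplicity_mul_and_not_dvd
    (Matrix.charpoly_monic M).ne_zero 0
  set a := M.charpoly.rootMultiplicity 0
  rw [map_zero, sub_zero] at hq hX
  obtain ⟨u, v, huv⟩ : IsCoprime ((X : k[X]) ^ (a + 1)) q :=
    ((Polynomial.prime_X).irreducible.coprime_iff_not_dvd.2 hX).pow_left
  refine ⟨u * X ^ (a + 1), by simp [coeff_mul_X_pow'], ?_, fun h => ⟨a + 1, ?_⟩⟩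
  · have e : u * X ^ (a + 1) * (u * X ^ (a + 1)) =
        u * X ^ (a + 1) - u * v * X * M.charpoly := by
      have h := congrArg (· * (u * X ^ (a + 1))) huv
      simp only [one_mul] at h
      rw [hq]
      linear_combination h
    rw [← map_mul, e, map_sub, map_mul _ (u * v * X), Matrix.aeval_self_charpoly, mul_zero, sub_zero]
  · have e : (X : k[X]) ^ (a + 1) = u * X ^ (a + 1) * X ^ (a + 1) + v * X * M.charpoly := by
      have h := congrArg (· * (X : k[X]) ^ (a + 1)) huv
      simp only [one_mul] at h
      rw [hq]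
      linear_combination -h
    have := congrArg (aeval M) e
    rw [map_add, map_mul, map_mul _ (v * X), Matrix.aeval_self_charpoly, h, zero_mul, mul_zero,
      add_zero, map_pow, aeval_X] at this
    exact this

/-- An idempotent of trace zero vanishes in characteristic zero. -/
theorem eq_zero_of_idem [CharZero k] {e : Matrix ι ι k} (he : e * e = e) (ht : e.trace = 0) :
    e = 0 := by
  have hp : LinearMap.IsProj (LinearMap.range (toLin' e)) (toLin' e) :=
    ⟨fun x => LinearMap.mem_range_self _ x, by
      rintro _ ⟨y, rfl⟩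
      rw [← LinearMap.comp_apply, ← toLin'_mul, he]⟩
  have h := hp.trace
  rw [trace_toLin'_eq, ht] at h
  refine toLin'.map_eq_zero_iff.1 (LinearMap.range_eq_bot.1 ?_)
  exact Submodule.finrank_eq_zero.1 (by exact_mod_cast h.symm)

variable (rep : Γ →* Matrix ι ι k)

/-- The span of the image. -/
def env : Submodule k (Matrix ι ι k) := Submodule.span k (Set.range rep)

theorem rep_mem (g : Γ) : rep g ∈ env rep := Submodule.subset_span ⟨g, rfl⟩

theorem env_mul {x y : Matrix ι ι k} (hx : x ∈ env rep) (hy : y ∈ env rep) :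
    x * y ∈ env rep := by
  induction hx using Submodule.span_induction with
  | mem a ha =>
    obtain ⟨g, rfl⟩ := ha
    induction hy using Submodule.span_induction with
    | mem b hb => obtain ⟨h, rfl⟩ := hb; rw [← map_mul]; exact rep_mem rep _
    | zero => rw [mul_zero]; exact Submodule.zero_mem _
    | add a b _ _ iha ihb => rw [mul_add]; exact Submodule.add_mem _ iha ihb
    | smul c a _ iha => rw [mul_smul_comm]; exact Submodule.smul_mem _ _ iha
  | zero => rw [zero_mul]; exact Submodule.zero_mem _
  | add a b _ _ iha ihb => rw [add_mul]; exact Submodule.add_mem _ iha ihb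
  | smul c a _ iha => rw [smul_mul_assoc]; exact Submodule.smul_mem _ _ iha

theorem env_one : (1 : Matrix ι ι k) ∈ env rep := by rw [← map_one rep]; exact rep_mem rep _

theorem env_aeval {x : Matrix ι ι k} (hx : x ∈ env rep) (p : k[X]) : aeval x p ∈ env rep := by
  induction p using Polynomial.induction_on with
  | C c =>
    rw [aeval_C, Algebra.algebraMap_eq_smul_one]
    exact Submodule.smul_mem _ _ (env_one rep)
  | add p q hp hq => rw [map_add]; exact Submodule.add_mem _ hp hq
  | monomial m c h => rw [pow_succ, ← mul_assoc, map_mul, aeval_X]; exact env_mul rep h hx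

theorem env_preserves {W : Submodule k (ι → k)} (hW : Invariant rep W) {x : Matrix ι ι k}
    (hx : x ∈ env rep) {w : ι → k} (hw : w ∈ W) : x *ᵥ w ∈ W := by
  induction hx using Submodule.span_induction with
  | mem a ha => obtain ⟨g, rfl⟩ := ha; exact hW g w hw
  | zero => rw [zero_mulVec]; exact W.zero_mem
  | add a b _ _ iha ihb => rw [add_mulVec]; exact W.add_mem iha ihb
  | smul c a _ iha => rw [smul_mulVec]; exact W.smul_mem _ iha

/-- The trace form of the span of the image is nondegenerate. -/
def TraceNondeg : Prop := ∀ x ∈ env rep, (∀ g, (x * rep g).trace = 0) → x = 0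

theorem trace_env {x : Matrix ι ι k} (h : ∀ g, (x * rep g).trace = 0) {y : Matrix ι ι k}
    (hy : y ∈ env rep) : (x * y).trace = 0 := by
  induction hy using Submodule.span_induction with
  | mem a ha => obtain ⟨g, rfl⟩ := ha; exact h g
  | zero => rw [mul_zero, trace_zero]
  | add a b _ _ iha ihb => rw [mul_add, trace_add, iha, ihb, add_zero]
  | smul c a _ iha => rw [mul_smul_comm, trace_smul, iha, smul_zero]

/-- Completely reducible representations have a nondegenerate trace form. -/
theorem nondeg_of_reducible [CharZero k] (hcr : Reducible rep) : TraceNondeg rep := by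
  intro x hx h
  have hnil : ∀ a ∈ env rep, IsNilpotent (a * x) := by
    intro a ha
    obtain ⟨p, hp0, hpp, hp⟩ := exists_idem (a * x)
    refine hp (eq_zero_of_idem hpp ?_)
    obtain ⟨q, rfl⟩ := X_dvd_iff.2 hp0
    rw [map_mul, aeval_X, mul_assoc, trace_mul_comm a, mul_assoc]
    exact trace_env rep h (env_mul rep (env_aeval rep (env_mul rep ha hx) q) ha)
  have key : ∀ (m : ℕ) (W : Submodule k (ι → k)), Module.finrank k W = m → Invariant rep W →
      ∀ w ∈ W, x *ᵥ w = 0 := by
    intro m
    induction m using Nat.strong_induction_on with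
    | _ m ih =>
      intro W hm hW w hw
      by_contra hxw
      set U : Submodule k (ι → k) := (env rep).map (LinearMap.flip (toLin' (R := k)).toLinearMap (x *ᵥ w))
        with hUdef
      have memU : ∀ v, v ∈ U ↔ ∃ a ∈ env rep, a *ᵥ (x *ᵥ w) = v := fun v => by
        simp [hUdef, Submodule.mem_map, toLin'_apply]
      have hU : Invariant rep U := by
        intro g v hv
        obtain ⟨a, ha, rfl⟩ := (memU v).1 hv
        exact (memU _).2 ⟨rep g * a, env_mul rep (rep_mem rep g) ha, (mulVec_mulVec ..).symm⟩
      have hUW : U ≤ W := fun v hv => by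
        obtain ⟨a, ha, rfl⟩ := (memU v).1 hv
        exact env_preserves rep hW ha (env_preserves rep hW hx hw)
      have hxU : x *ᵥ w ∈ U := (memU _).2 ⟨1, env_one rep, one_mulVec _⟩
      obtain ⟨U', hc, hU'⟩ := hcr U hU
      obtain ⟨u, hu, u', hu', huu⟩ := Submodule.mem_sup.1 ((hc.sup_eq_top).ge (Submodule.mem_top (x := w)))
      by_cases hlt : U = W
      · obtain ⟨a, ha, hw'⟩ := (memU w).1 (hlt ▸ hw)
        obtain ⟨s, hs⟩ := hnil a ha
        have hfix : ∀ t : ℕ, (a * x) ^ t *ᵥ w = w := fun t => by
          induction t with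
          | zero => rw [pow_zero, one_mulVec]
          | succ t iht => rw [pow_succ, ← mulVec_mulVec, ← mulVec_mulVec, hw', iht]
        have := hfix s
        rw [hs, zero_mulVec] at this
        exact hxw (by rw [← this, mulVec_zero])
      · have hu'W : u' ∈ W ⊓ U' := ⟨by
          rw [show u' = w - u by rw [← huu, add_sub_cancel_left]]
          exact W.sub_mem hw (hUW hu), hu'⟩
        have h1 : x *ᵥ u = 0 := ih _ (hm ▸ Submodule.finrank_lt_finrank_of_lt
          (lt_of_le_of_ne hUW hlt)) U rfl hU u hu
        have h2 : W ⊓ U' < W := lt_of_le_of_ne inf_le_left fun e => hxw <| by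
          have : x *ᵥ w ∈ U ⊓ U' :=
            ⟨hxU, (e.ge (env_preserves rep hW hx hw)).2⟩
          rwa [hc.inf_eq_bot, Submodule.mem_bot] at this
        have h3 : x *ᵥ u' = 0 := ih _ (hm ▸ Submodule.finrank_lt_finrank_of_lt h2) (W ⊓ U') rfl
          (fun g v hv => ⟨hW g v hv.1, hU' g v hv.2⟩) u' hu'W
        exact hxw (by rw [← huu, mulVec_add, h1, h3, add_zero])
  refine Matrix.ext_of_mulVec_single fun i => ?_
  rw [key _ ⊤ rfl (fun _ _ _ => Submodule.mem_top) _ Submodule.mem_top, zero_mulVec]

/-- Finitely many images span and have an invertible matrix of traces. -/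
theorem exists_gram (h : TraceNondeg rep) :
    ∃ (m : ℕ) (b : Fin m → Γ), env rep ≤ Submodule.span k (Set.range fun i => rep (b i)) ∧
      (Matrix.of fun i j => (rep (b i) * rep (b j)).trace).det ≠ 0 := by
  classical
  obtain ⟨B, hB, hspan, hli⟩ := exists_linearIndependent k (Set.range rep)
  have : Finite B := hli.finite
  have := Fintype.ofFinite B
  choose b hb using fun i : Fin (Fintype.card B) => hB ((Fintype.equivFin B).symm i).2
  have hrange : Set.range (fun i => rep (b i)) = B := by
    ext M
    refine ⟨?_, fun hM => ⟨Fintype.equivFin B ⟨M, hM⟩, ?_⟩⟩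
    · rintro ⟨i, rfl⟩
      simp only [hb]
      exact Subtype.coe_prop _
    · simp only [hb, Equiv.symm_apply_apply]
  have hli' : LinearIndependent k fun i => rep (b i) := by
    rw [show (fun i => rep (b i)) = Subtype.val ∘ (Fintype.equivFin B).symm from funext hb]
    exact hli.comp _ (Equiv.injective _)
  refine ⟨_, b, (by rw [hrange]; exact hspan.ge), fun hdet => ?_⟩
  obtain ⟨c, hc0, hc⟩ := exists_mulVec_eq_zero_iff.2 hdet
  refine hc0 (funext (Fintype.linearIndependent_iff.1 hli' c (h _ (Submodule.sum_mem _ fun i _ =>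
    Submodule.smul_mem _ _ (rep_mem rep _)) fun g => ?_)))
  have hg : rep g ∈ Submodule.span k (Set.range fun i => rep (b i)) := by
    rw [hrange]; exact hspan.ge (rep_mem rep g)
  obtain ⟨e, he⟩ := Submodule.mem_span_range_iff_exists_fun k |>.1 hg
  rw [← he, mul_sum, trace_sum]
  refine sum_eq_zero fun i _ => ?_
  rw [mul_smul_comm, trace_smul, trace_mul_comm, mul_sum, trace_sum,
    show ∑ j, (rep (b i) * c j • rep (b j)).trace = 0 from ?_, smul_zero]
  have := congrFun hc i
  simp only [mulVec, dotProduct, Matrix.of_apply, Pi.zero_apply] at this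
  rw [← this]
  exact sum_congr rfl fun j _ => by rw [mul_smul_comm, trace_smul, smul_eq_mul, mul_comm]

variable {L : Type} [Field L]

/-- A nondegenerate trace form passes to every extension. -/
theorem nondeg_map (f : k →+* L) (rep' : Γ →* Matrix ι ι L) (hmap : ∀ g, rep' g = (rep g).map f)
    (h : TraceNondeg rep) : TraceNondeg rep' := by
  classical
  obtain ⟨m, b, hspan, hdet⟩ := exists_gram rep h
  intro x hx hx0
  have hspan' : env rep' ≤ Submodule.span L (Set.range fun i => rep' (b i)) := by
    refine Submodule.span_le.2 ?_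
    rintro _ ⟨g, rfl⟩
    obtain ⟨c, hc⟩ := Submodule.mem_span_range_iff_exists_fun k |>.1 (hspan (rep_mem rep g))
    refine (Submodule.mem_span_range_iff_exists_fun L).2 ⟨fun i => f (c i), ?_⟩
    rw [hmap, ← hc]
    ext a a'
    simp [Matrix.sum_apply, hmap]
  obtain ⟨c, rfl⟩ := Submodule.mem_span_range_iff_exists_fun L |>.1 (hspan' hx)
  have hc : (Matrix.of fun i j => (rep' (b i) * rep' (b j)).trace) *ᵥ c = 0 := funext fun i => by
    have h1 := hx0 (b i)
    rw [Finset.sum_mul, Matrix.trace_sum] at h1
    refine (sum_congr rfl fun j _ => ?_).trans h1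
    simp only [Matrix.of_apply]
    rw [smul_mul_assoc, trace_smul, smul_eq_mul, trace_mul_comm (rep' (b j)),
      mul_comm]
  have hG : (Matrix.of fun i j => (rep' (b i) * rep' (b j)).trace) =
      f.mapMatrix (Matrix.of fun i j => (rep (b i) * rep (b j)).trace) := by
    ext i j
    simp only [Matrix.of_apply, RingHom.mapMatrix_apply, Matrix.map_apply, hmap]
    rw [← Matrix.map_mul]
    exact (AddMonoidHom.map_trace f _).symm
  have hdet' : (Matrix.of fun i j => (rep' (b i) * rep' (b j)).trace).det ≠ 0 := by
    rw [hG, ← RingHom.map_det]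
    exact (map_ne_zero f).2 hdet
  simp [eq_zero_of_mulVec_eq_zero hdet' hc]

/-- A nondegenerate trace form descends. -/
theorem nondeg_comap (f : k →+* L) (rep' : Γ →* Matrix ι ι L) (hmap : ∀ g, rep' g = (rep g).map f)
    (h : TraceNondeg rep') : TraceNondeg rep := by
  intro x hx hx0
  refine Matrix.map_injective f.injective ((h (x.map f) ?_ fun g => ?_).trans
    (Matrix.map_zero f (map_zero f)).symm)
  · clear hx0
    induction hx using Submodule.span_induction with
    | mem a ha => obtain ⟨g, rfl⟩ := ha; rw [← hmap]; exact rep_mem rep' g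
    | zero => rw [Matrix.map_zero f (map_zero f)]; exact Submodule.zero_mem _
    | add a b _ _ iha ihb => rw [Matrix.map_add f (map_add f)]; exact Submodule.add_mem _ iha ihb
    | smul c a _ iha =>
      rw [show (c • a).map f = f c • a.map f by ext; simp]
      exact Submodule.smul_mem _ _ iha
  · rw [hmap, ← Matrix.map_mul]
    exact ((AddMonoidHom.map_trace f _).symm).trans ((congrArg f (hx0 g)).trans (map_zero f))

/-- A nondegenerate trace form gives complete reducibility. -/
theorem reducible_of_nondeg [CharZero k] (h : TraceNondeg rep) : Reducible rep := by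
  classical
  obtain ⟨m, b, hspan, hdet⟩ := exists_gram rep h
  set G := Matrix.of fun i j => (rep (b i) * rep (b j)).trace with hG
  obtain ⟨d, hd⟩ : ∃ d : Fin m → Matrix ι ι k, d = fun i => ∑ j, G⁻¹ i j • rep (b j) := ⟨_, rfl⟩
  have hdmem : ∀ i, d i ∈ env rep := fun i =>
    hd ▸ Submodule.sum_mem _ fun j _ => Submodule.smul_mem _ _ (rep_mem rep _)
  have hdual : ∀ i l, (d i * rep (b l)).trace = if i = l then 1 else 0 := fun i l => by
    have := congrFun (congrFun (nonsing_inv_mul G (isUnit_iff_ne_zero.2 hdet)) i) l
    rw [Matrix.one_apply, Matrix.mul_apply] at this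
    rw [← this, hd, sum_mul, trace_sum]
    exact sum_congr rfl fun j _ => by
      rw [smul_mul_assoc, trace_smul, smul_eq_mul]; rfl
  have expand : ∀ y ∈ env rep, y = ∑ i, (d i * y).trace • rep (b i) := fun y hy => by
    obtain ⟨c, rfl⟩ := Submodule.mem_span_range_iff_exists_fun k |>.1 (hspan hy)
    refine sum_congr rfl fun i _ => ?_
    rw [mul_sum, trace_sum, sum_eq_single i (fun l _ hl => by
      rw [mul_smul_comm, trace_smul, hdual, if_neg (Ne.symm hl), smul_zero]) fun hi =>
        absurd (mem_univ i) hi, mul_smul_comm, trace_smul, hdual, if_pos rfl, smul_eq_mul, mul_one]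
  have coexpand : ∀ y ∈ env rep, y = ∑ i, (rep (b i) * y).trace • d i := fun y hy => by
    refine sub_eq_zero.1 (h _ (Submodule.sub_mem _ hy (Submodule.sum_mem _ fun i _ =>
      Submodule.smul_mem _ _ (hdmem i))) fun g => ?_)
    obtain ⟨c, hc⟩ := Submodule.mem_span_range_iff_exists_fun k |>.1 (hspan (rep_mem rep g))
    rw [← hc, mul_sum, trace_sum]
    refine sum_eq_zero fun l _ => ?_
    rw [mul_smul_comm, trace_smul, sub_mul, trace_sub, sum_mul, trace_sum,
      sum_eq_single l (fun i _ hi => by
        rw [smul_mul_assoc, trace_smul, hdual, if_neg hi, smul_zero]) fun hl =>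
          absurd (mem_univ l) hl, smul_mul_assoc, trace_smul, hdual, if_pos rfl, smul_eq_mul,
      smul_eq_mul, mul_one, trace_mul_comm y, sub_self, mul_zero]
  have casimir : ∀ (P : Matrix ι ι k), ∀ a ∈ env rep,
      (∑ i, d i * P * rep (b i)) * a = a * ∑ i, d i * P * rep (b i) := fun P a ha => by
    calc (∑ i, d i * P * rep (b i)) * a
        = ∑ i, ∑ l, (d l * (rep (b i) * a)).trace • (d i * P * rep (b l)) := by
          rw [sum_mul]
          refine sum_congr rfl fun i _ => ?_
          rw [mul_assoc]
          conv_lhs => rw [expand _ (env_mul rep (rep_mem rep _) ha), mul_sum]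
          simp only [mul_smul_comm, mul_assoc]
      _ = ∑ l, (∑ i, (rep (b i) * (a * d l)).trace • d i) * (P * rep (b l)) := by
          rw [sum_comm]
          refine sum_congr rfl fun l _ => ?_
          rw [sum_mul]
          refine sum_congr rfl fun i _ => ?_
          rw [smul_mul_assoc, trace_mul_comm (d l), mul_assoc (d i), mul_assoc (rep (b i))]
      _ = _ := by
          rw [mul_sum]
          refine sum_congr rfl fun l _ => ?_
          rw [← coexpand _ (env_mul rep ha (hdmem l))]
          simp only [mul_assoc]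
  set z := ∑ i, d i * rep (b i) with hz
  have hzmem : z ∈ env rep :=
    Submodule.sum_mem _ fun i _ => env_mul rep (hdmem i) (rep_mem rep _)
  have hzcomm : ∀ a ∈ env rep, z * a = a * z := fun a ha => by
    simpa using casimir 1 a ha
  have hzinj : ∀ a ∈ env rep, z * a = 0 → a = 0 := by
    intro a ha hza
    have hnil : ∀ a' ∈ env rep, z * a' = 0 → IsNilpotent a' := by
      intro a' ha' hza'
      obtain ⟨p, hp0, hpp, hp⟩ := exists_idem a'
      obtain ⟨q, rfl⟩ := X_dvd_iff.2 hp0
      refine hp ?_
      set e := aeval a' (X * q) with he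
      have hemem : e ∈ env rep := env_aeval rep ha' _
      have hze : z * e = 0 := by rw [he, map_mul, aeval_X, ← mul_assoc, hza', zero_mul]
      set Re : Matrix (Fin m) (Fin m) k := Matrix.of fun l i => (d l * (rep (b i) * e)).trace
        with hRe
      have hReRe : Re * Re = Re := by
        ext t i
        rw [Matrix.mul_apply]
        simp only [hRe, Matrix.of_apply]
        calc ∑ l, (d t * (rep (b l) * e)).trace * (d l * (rep (b i) * e)).trace
            = (d t * ((∑ l, (d l * (rep (b i) * e)).trace • rep (b l)) * e)).trace := by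
              rw [sum_mul, mul_sum, trace_sum]
              exact sum_congr rfl fun l _ => by
                rw [smul_mul_assoc, mul_smul_comm, trace_smul, smul_eq_mul, mul_comm]
          _ = _ := by rw [← expand _ (env_mul rep (rep_mem rep _) hemem), mul_assoc, hpp]
      have htr : Re.trace = 0 := by
        have : (z * e).trace = 0 := by rw [hze, trace_zero]
        rw [hz, sum_mul, trace_sum] at this
        simpa [hRe, Matrix.trace, mul_assoc] using this
      have hR0 := eq_zero_of_idem hReRe htr
      have hbe : ∀ i, rep (b i) * e = 0 := fun i => by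
        rw [expand _ (env_mul rep (rep_mem rep _) hemem)]
        refine sum_eq_zero fun l _ => ?_
        rw [show (d l * (rep (b i) * e)).trace = Re l i from rfl, hR0, Matrix.zero_apply, zero_smul]
      rw [← one_mul e, expand 1 (env_one rep), sum_mul]
      exact sum_eq_zero fun i _ => by rw [smul_mul_assoc, hbe, smul_zero]
    refine h a ha fun g => ?_
    refine (Matrix.isNilpotent_trace_of_isNilpotent (hnil _ (env_mul rep ha (rep_mem rep g)) ?_)).eq_zero
    rw [← mul_assoc, hza, zero_mul]
  obtain ⟨z', hz'mem, hz'⟩ : ∃ z' ∈ env rep, z * z' = 1 := by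
    set f : env rep →ₗ[k] env rep := (LinearMap.mulLeft k z).restrict fun a ha => env_mul rep hzmem ha
    have hf : Function.Injective f := (injective_iff_map_eq_zero f).2 fun a ha =>
      Subtype.ext (hzinj a a.2 (congrArg Subtype.val ha))
    obtain ⟨y, hy⟩ := LinearMap.injective_iff_surjective.1 hf ⟨1, env_one rep⟩
    exact ⟨y, y.2, congrArg Subtype.val hy⟩
  have hz'comm : ∀ g, z' * rep g = rep g * z' := fun g => by
    have hz2 : z' * z = 1 := by rw [← hzcomm z' hz'mem, hz']
    calc z' * rep g = z' * rep g * (z * z') := by rw [hz', mul_one]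
      _ = z' * (z * rep g) * z' := by
          rw [hzcomm _ (rep_mem rep g)]; simp only [mul_assoc]
      _ = _ := by rw [← mul_assoc z' z, hz2, one_mul]
  intro W hW
  obtain ⟨W₁, hW₁⟩ := Submodule.exists_isCompl W
  set P := LinearMap.toMatrix' (W.projection W₁ hW₁)
  set Q := z' * ∑ i, d i * P * rep (b i) with hQ
  have hQW : ∀ v, Q *ᵥ v ∈ W := fun v => by
    rw [hQ, ← mulVec_mulVec, sum_mulVec]
    refine env_preserves rep hW hz'mem (Submodule.sum_mem _ fun i _ => ?_)
    rw [← mulVec_mulVec, ← mulVec_mulVec]
    refine env_preserves rep hW (hdmem i) ?_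
    rw [LinearMap.toMatrix'_mulVec]
    exact Submodule.projection_apply_mem hW₁ _
  have hQid : ∀ w ∈ W, Q *ᵥ w = w := fun w hw => by
    have e : (∑ i, d i * P * rep (b i)) *ᵥ w = z *ᵥ w := by
      rw [hz, sum_mulVec, sum_mulVec]
      refine sum_congr rfl fun i _ => ?_
      rw [← mulVec_mulVec, ← mulVec_mulVec, ← mulVec_mulVec, LinearMap.toMatrix'_mulVec,
        Submodule.projection_apply_of_mem_left hW₁ (hW _ w hw)]
    rw [hQ, ← mulVec_mulVec, e, mulVec_mulVec, ← hzcomm z' hz'mem, hz', one_mulVec]
  refine ⟨LinearMap.ker Q.mulVecLin, ⟨?_, ?_⟩, fun g v hv => ?_⟩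
  · refine Submodule.disjoint_def.2 fun v hv hv' => ?_
    rw [← hQid v hv]
    exact hv'
  · refine codisjoint_iff.2 (eq_top_iff.2 fun v _ => ?_)
    refine Submodule.mem_sup.2 ⟨Q *ᵥ v, hQW v, v - Q *ᵥ v, ?_, by abel⟩
    rw [LinearMap.mem_ker, mulVecLin_apply, mulVec_sub, hQid _ (hQW v), sub_self]
  · rw [LinearMap.mem_ker, mulVecLin_apply] at hv ⊢
    rw [mulVec_mulVec, show Q * rep g = rep g * Q by
      rw [hQ, mul_assoc, casimir P _ (rep_mem rep g), ← mul_assoc, hz'comm, mul_assoc],
      ← mulVec_mulVec, hv, mulVec_zero]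

end Vale.Agent.P165.EX.Semi
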