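import Vale.Agent.P165.EX.Semi.Composition

/-!
# Generic parts of an irreducible image

An irreducible image with irreducible closure over a proper field has generic parts, given that
invariant subspaces meet the ranges of limits only in their images.
-/

namespace Vale.Agent.P165.EX.Semi

open Matrix Finset
open scoped Matrix.Norms.Elementwise MatrixGroups

variable {k : Type} [NontriviallyNormedField k] {n : ℕ} {Γ : Type} [Group Γ]
  {ρ : Γ →* SL(n, k)} {j : ℕ}

/-- The matrices all whose two-minors vanish. -/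
def minors (ν : Type) (k : Type) [Mul k] : Set (Matrix ν ν k) :=
  {w | ∀ a b c d, w a b * w c d = w a d * w c b}

theorem vecMulVec_mem_minors {ν : Type} (u r : ν → k) : vecMulVec u r ∈ minors ν k :=
  fun a b c d => by simp only [vecMulVec_apply]; ring

theorem isClosed_minors {ν : Type} [Fintype ν] : IsClosed (minors ν k) := by
  simp only [minors, Set.ofPred_forall]
  exact isClosed_iInter fun a => isClosed_iInter fun b => isClosed_iInter fun c =>
    isClosed_iInter fun d => isClosed_eq ((continuous_id.matrix_elem a b).mul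
      (continuous_id.matrix_elem c d)) ((continuous_id.matrix_elem a d).mul
      (continuous_id.matrix_elem c b))

theorem exists_vecMulVec {ν : Type} {w : Matrix ν ν k} (hw : w ∈ minors ν k) (h0 : w ≠ 0) :
    ∃ u r, u ≠ 0 ∧ r ≠ 0 ∧ w = vecMulVec u r := by
  obtain ⟨a, b, hab⟩ : ∃ a b, w a b ≠ 0 := by
    by_contra h
    push Not at h
    exact h0 (Matrix.ext fun a b => h a b)
  refine ⟨fun c => w c b, fun d => w a d / w a b, fun h => hab (congrFun h a),
    fun h => one_ne_zero ((div_self hab).symm.trans (congrFun h b)), Matrix.ext fun c d => ?_⟩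
  rw [vecMulVec_apply, mul_div, eq_div_iff hab, mul_comm, hw a b c d, mul_comm]

/-- A limit of rank one belongs to one step of the series. -/
theorem exists_step (F : ℕ → Submodule k (Sub n j → k)) [CompleteSpace k] (hF0 : F 0 = ⊥)
    (hFs : ∀ i, Stable ρ j (F i)) (N : ℕ) (hN : F N = ⊤) {u r : Sub n j → k}
    (hx : vecMulVec u r ∈ closure (multiples ρ j)) (hu : u ≠ 0) (hr : r ≠ 0) :
    ∃ i < N, u ∈ liftSpace ρ (F i) (F (i + 1)) ∧ ∀ a ∈ F i, vecMulVec u r *ᵥ a = 0 := by
  classical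
  obtain ⟨M, rfl⟩ : ∃ M, N = M + 1 := Nat.exists_eq_succ_of_ne_zero fun h => by
    subst h
    exact hu ((Submodule.mem_bot k).1 (hF0 ▸ hN.ge (Submodule.mem_top (x := u))))
  have hex : ∃ i, u ∈ F (i + 1) := ⟨M, hN.ge Submodule.mem_top⟩
  have hnot : u ∉ F (Nat.find hex) := by
    intro h
    rcases Nat.eq_zero_or_pos (Nat.find hex) with e | e
    · rw [e, hF0, Submodule.mem_bot] at h
      exact hu h
    · refine Nat.find_min hex (Nat.sub_lt e one_pos) ?_
      show u ∈ F (Nat.find hex - 1 + 1)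
      have e' : Nat.find hex - 1 + 1 = Nat.find hex := by omega
      rwa [e']
  have hkill : ∀ a ∈ F (Nat.find hex), vecMulVec u r *ᵥ a = 0 := by
    intro a ha
    have h := (hFs _).limit hx ha
    rw [vecMulVec_mulVec, op_smul_eq_smul] at h ⊢
    by_contra hne
    exact hnot ((Submodule.smul_mem_iff _ fun e => hne (by rw [e, zero_smul])).1 h)
  exact ⟨_, Nat.lt_succ_of_le (Nat.find_min' hex (hN.ge Submodule.mem_top)),
    Submodule.subset_span ⟨r, hx, hr, Nat.find_spec hex, hkill⟩, hkill⟩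

/-- A limit of rank one has full size on the factor of its step. -/
theorem factor_ne (hL : InterRange ρ) (hj : j ≤ n) {A B : Submodule k (Sub n j → k)}
    (hA : Stable ρ j A) (hB : Stable ρ j B) (Q : Matrix (Sub n j) (Sub n j) k)
    (hQB : ∀ b ∈ B, b - Q *ᵥ b ∈ A) {u r : Sub n j → k}
    (hx : vecMulVec u r ∈ closure (multiples ρ j)) (hu : u ≠ 0) (hr : r ≠ 0) (huB : u ∈ B)
    (h0 : ∀ a ∈ A, vecMulVec u r *ᵥ a = 0) :
    Q * vecMulVec u r ≠ 0 ∧ Q * vecMulVec u r * Q ≠ 0 := by
  have hQu : Q *ᵥ u ≠ 0 := fun h => by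
    have := hQB u huB
    rw [h, sub_zero] at this
    exact notMem_of_limit hL hj hA hx hu hr h0 this
  obtain ⟨t, ht⟩ := Function.ne_iff.1 hr
  have hmem : u ∈ LinearMap.range (vecMulVec u r).mulVecLin := ⟨Pi.single t (r t)⁻¹, by
    rw [mulVecLin_apply, vecMulVec_mulVec, dotProduct_single, mul_inv_cancel₀ ht,
      MulOpposite.op_one, one_smul]⟩
  obtain ⟨b, hb, e⟩ := hL j hj _ hx B hB ⟨huB, hmem⟩
  rw [mulVecLin_apply, ← sub_add_cancel b (Q *ᵥ b), mulVec_add, h0 _ (hQB b hb), zero_add] at e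
  constructor
  · intro h
    refine hQu ?_
    rw [← e, mulVec_mulVec, h, zero_mulVec]
  · intro h
    refine hQu ?_
    rw [← e, mulVec_mulVec, mulVec_mulVec, h, zero_mulVec]

variable [ProperSpace k]

/-- A product close to rank one has its column near one lift and full size on that factor. -/
theorem exists_dominant (hL : InterRange ρ) (hj : j ≤ n) (F : ℕ → Submodule k (Sub n j → k))
    (hF0 : F 0 = ⊥) (hFs : ∀ i, Stable ρ j (F i)) (N : ℕ) (hN : F N = ⊤)
    (Q P : ℕ → Matrix (Sub n j) (Sub n j) k) (hQB : ∀ i, ∀ b ∈ F (i + 1), b - Q i *ᵥ b ∈ F i)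
    (hP : ∀ i v, P i *ᵥ v ∈ liftSpace ρ (F i) (F (i + 1)))
    (hP' : ∀ i, ∀ w ∈ liftSpace ρ (F i) (F (i + 1)), P i *ᵥ w = w) :
    ∃ c : ℝ, 0 < c ∧ ∀ ε : ℝ, 0 < ε → ∃ δ : ℝ, 0 < δ ∧ ∀ (g : Γ) (u r : Sub n j → k),
      ‖cm ρ j g - vecMulVec u r‖ ≤ δ * ‖cm ρ j g‖ →
        ∃ i < N, ‖P i *ᵥ u - u‖ ≤ ε * ‖u‖ ∧ c * ‖u‖ ≤ ‖Q i *ᵥ u‖ ∧
          c * ‖cm ρ j g‖ ≤ ‖Q i * cm ρ j g * Q i‖ := by
  classical
  have : ProperSpace (Matrix (Sub n j) (Sub n j) k) := FiniteDimensional.proper k _
  set S : Set (Matrix (Sub n j) (Sub n j) k) := Metric.sphere 0 1 ∩ closure (multiples ρ j)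
  have hS : IsCompact S := (isCompact_sphere 0 1).inter_right isClosed_closure
  set K : ℕ → Set (Matrix (Sub n j) (Sub n j) k) := fun i =>
    (S ∩ minors _ k) ∩ ({x | P i * x = x} ∩ ⋂ a ∈ F i, {x | x *ᵥ a = 0})
  have hK : ∀ i, IsCompact (K i) := fun i => (hS.inter_right isClosed_minors).inter_right
    ((isClosed_eq (continuous_const.matrix_mul continuous_id) continuous_id).inter
      (isClosed_biInter fun a _ =>
        isClosed_eq (continuous_id.matrix_mulVec continuous_const) continuous_const))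
  have hpos : ∀ i, ∃ c : ℝ, 0 < c ∧ ∀ x ∈ K i, c ≤ min ‖Q i * x‖ ‖Q i * x * Q i‖ := fun i =>
    (hK i).exists_forall_le' ((continuous_const.matrix_mul continuous_id).norm.min
      ((continuous_const.matrix_mul continuous_id).matrix_mul continuous_const).norm).continuousOn
      fun x hx => by
      obtain ⟨⟨⟨hx1, hx2⟩, hxm⟩, hxP, hxA⟩ := hx
      obtain ⟨u, r, hu, hr, rfl⟩ := exists_vecMulVec hxm fun e => by simp [e] at hx1
      obtain ⟨t, ht⟩ := Function.ne_iff.1 hr
      have hPu : P i *ᵥ u = u := by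
        have h : (vecMulVec (P i *ᵥ u) r) = vecMulVec u r := by rw [← mul_vecMulVec]; exact hxP
        funext s
        have h' := congrFun (congrFun h s) t
        rw [vecMulVec_apply, vecMulVec_apply] at h'
        exact mul_right_cancel₀ ht h'
      have hne := factor_ne hL hj (hFs i) (hFs (i + 1)) (Q i) (hQB i) hx2 hu hr
        (liftSpace_le _ _ (hPu ▸ hP i u)) fun a ha => Set.mem_iInter₂.1 hxA a ha
      exact lt_min (norm_pos_iff.2 hne.1) (norm_pos_iff.2 hne.2)
  choose c hc0 hc using hpos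
  have hs0 : ∀ i, 0 < (c i)⁻¹ := fun i => inv_pos.2 (hc0 i)
  set c₀ : ℝ := (1 + ∑ i ∈ range N, (c i)⁻¹)⁻¹ / 2
  have hsum : 0 ≤ ∑ i ∈ range N, (c i)⁻¹ := sum_nonneg fun i _ => (hs0 i).le
  have hc₀ : 0 < c₀ := by positivity
  have hlt : ∀ i < N, c₀ < c i := fun i hi => by
    refine lt_of_lt_of_le (half_lt_self (by positivity)) (inv_le_of_inv_le₀ (hc0 i) ?_)
    linarith [single_le_sum (fun i _ => (hs0 i).le) (mem_range.2 hi)]
  refine ⟨c₀, hc₀, fun ε hε => ?_⟩
  set U : Set (Matrix (Sub n j) (Sub n j) k × Matrix (Sub n j) (Sub n j) k) := ⋃ i ∈ range N,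
    {p | ‖P i * p.2 - p.2‖ < ε * ‖p.2‖} ∩ ({p | c₀ * ‖p.2‖ < ‖Q i * p.2‖} ∩
      {p | c₀ < ‖Q i * p.1 * Q i‖})
  have hU : IsOpen U := isOpen_biUnion fun i _ =>
    (isOpen_lt ((continuous_const.matrix_mul continuous_snd).sub continuous_snd).norm
      (continuous_const.mul continuous_snd.norm)).inter
    ((isOpen_lt (continuous_const.mul continuous_snd.norm)
      (continuous_const.matrix_mul continuous_snd).norm).inter
    (isOpen_lt continuous_const
      ((continuous_const.matrix_mul continuous_fst).matrix_mul continuous_const).norm))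
  set Y := S ×ˢ (Metric.closedBall 0 2 ∩ minors (Sub n j) k) \ U
  have hY : IsCompact Y :=
    (hS.prod ((isCompact_closedBall 0 2).inter_right isClosed_minors)).diff hU
  obtain ⟨δ₀, hδ₀, hδ⟩ := hY.exists_forall_le'
    (continuous_fst.sub continuous_snd).norm.continuousOn (a := 0) fun p hp => by
      show 0 < ‖p.1 - p.2‖
      rw [norm_pos_iff, sub_ne_zero]
      intro he
      obtain ⟨⟨⟨hx1, hx2⟩, -, hxm⟩, hpU⟩ := hp
      obtain ⟨u, r, hu, hr, e⟩ := exists_vecMulVec hxm fun e => by simp [he, e] at hx1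
      rw [he, e] at hx1 hx2
      obtain ⟨i, hi, huS, hkill⟩ := exists_step F hF0 hFs N hN hx2 hu hr
      have hK' : vecMulVec u r ∈ K i := ⟨⟨⟨hx1, hx2⟩, vecMulVec_mem_minors u r⟩,
        (mul_vecMulVec _ u r).trans (by rw [hP' i u huS]), Set.mem_iInter₂.2 hkill⟩
      have hb := le_min_iff.1 (hc i _ hK')
      have hn1 : ‖vecMulVec u r‖ = 1 := by simpa using hx1
      refine hpU (Set.mem_biUnion (mem_range.2 hi) ⟨?_, ?_, ?_⟩)
      · show ‖P i * p.2 - p.2‖ < ε * ‖p.2‖
        rwa [e, mul_vecMulVec, hP' i u huS, sub_self, norm_zero, hn1, mul_one]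
      · show c₀ * ‖p.2‖ < ‖Q i * p.2‖
        rw [e, hn1, mul_one]
        exact (hlt i hi).trans_le hb.1
      · show c₀ < ‖Q i * p.1 * Q i‖
        rw [he, e]
        exact (hlt i hi).trans_le hb.2
  refine ⟨min δ₀ 1 / 2, by positivity, fun g u r hg => ?_⟩
  have hg0 := norm_cm_pos ρ hj g
  obtain ⟨s, hs, hs'⟩ := exists_unit_smul (cm ρ j g) (norm_pos_iff.1 hg0)
  have hd : ‖s • cm ρ j g - s • vecMulVec u r‖ ≤ min δ₀ 1 / 2 := by
    rw [← smul_sub, norm_smul]
    refine (mul_le_mul_of_nonneg_left hg (norm_nonneg _)).trans_eq ?_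
    rw [mul_left_comm, hs', mul_one]
  have hmem : (s • cm ρ j g, s • vecMulVec u r) ∈ U := by
    by_contra h
    have h' := hδ _ ⟨⟨⟨by simpa using hs, subset_closure ⟨(s, g), rfl⟩⟩,
      mem_closedBall_zero_iff.2 ?_, fun a b c d => ?_⟩, h⟩
    · change δ₀ ≤ ‖s • cm ρ j g - s • vecMulVec u r‖ at h'
      linarith [min_le_left δ₀ 1]
    · have := norm_sub_norm_le (s • vecMulVec u r) (s • cm ρ j g)
      rw [norm_sub_rev] at this
      linarith [min_le_right δ₀ 1]
    · rw [← smul_vecMulVec]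
      exact vecMulVec_mem_minors _ _ a b c d
  obtain ⟨i, hi, h1, h2, h3⟩ := Set.mem_iUnion₂.1 hmem
  simp only [Set.mem_ofPred_eq, Matrix.mul_smul, Matrix.smul_mul, ← smul_sub, norm_smul] at h1 h2 h3
  rw [mul_vecMulVec, ← sub_vecMulVec, norm_vecMulVec_eq, norm_vecMulVec_eq] at h1
  rw [mul_vecMulVec, norm_vecMulVec_eq, norm_vecMulVec_eq] at h2
  refine ⟨i, mem_range.1 hi, ?_, ?_, ?_⟩
  · exact (lt_of_mul_lt_mul_right (a := ‖s‖ * ‖r‖) (by linarith) (by positivity)).le
  · exact (lt_of_mul_lt_mul_right (a := ‖s‖ * ‖r‖) (by linarith) (by positivity)).le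
  · refine le_of_mul_le_mul_left ?_ (pos_of_mul_pos_left (hs'.symm ▸ one_pos) hg0.le)
    rw [mul_left_comm, hs', mul_one]
    exact h3.le

/-- An irreducible image with irreducible closure over a proper field has generic parts. -/
theorem parts_of_irreducible (ρ : Γ →* SL(n, k))
    (hirr : ∀ W : Submodule k (Fin n → k),
      (∀ g, ∀ w ∈ W, (ρ g : Matrix (Fin n) (Fin n) k) *ᵥ w ∈ W) → W = ⊥ ∨ W = ⊤)
    (hL : InterRange ρ)
    (hconn : ∀ f₁ f₂ : MvPolynomial (Fin n × Fin n) k,
      (∀ g, MvPolynomial.eval (fun e => (ρ g : Matrix (Fin n) (Fin n) k) e.1 e.2) f₁ = 0 ∨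
        MvPolynomial.eval (fun e => (ρ g : Matrix (Fin n) (Fin n) k) e.1 e.2) f₂ = 0) →
      (∀ g, MvPolynomial.eval (fun e => (ρ g : Matrix (Fin n) (Fin n) k) e.1 e.2) f₁ = 0) ∨
        ∀ g, MvPolynomial.eval (fun e => (ρ g : Matrix (Fin n) (Fin n) k) e.1 e.2) f₂ = 0) :
    ∃ S : Parts ρ, S.Generic := by
  classical
  choose F hF0 hFs hFle hFtop hFmax using fun j => exists_series ρ j
  choose N hN using hFtop
  choose Q hQQ hQ hQA hQB using fun j i => exists_quot (F j i) (F j (i + 1)) (hFle j i)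
  choose P hP hP' using fun j i => exists_onto (liftSpace ρ (F j i) (F j (i + 1)))
  let rep : Γ →* Matrix (Fin n) (Fin n) k :=
    { toFun := fun g => (ρ g : Matrix (Fin n) (Fin n) k)
      map_one' := coe_one ρ
      map_mul' := coe_mul ρ }
  have hone : ∀ W, Stable ρ 1 W → W = ⊥ ∨ W = ⊤ := fun W hW => by
    by_contra h
    push Not at h
    obtain ⟨f, hf0, hf⟩ := W.exists_le_ker_of_lt_top (lt_top_iff_ne_top.2 h.2)
    obtain ⟨u, hu, hu0⟩ := (Submodule.ne_bot_iff W).1 h.1
    have e : ∀ v, (fun s => f (Pi.single s 1)) ⬝ᵥ v = f v := fun v => by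
      conv_rhs => rw [pi_eq_sum_univ' v, map_sum]
      simp [dotProduct, mul_comm]
    obtain ⟨g, hg⟩ := coeff_one rep hirr (fun s => f (Pi.single s 1)) u (vecMul_one _)
      (fun h0 => hf0 (LinearMap.ext fun v => by rw [← e, h0, zero_dotProduct]; rfl))
      (one_mulVec u) hu0
    exact hg ((e _).trans (hf (hW g u hu)))
  let idx : ∀ j, Fin (Fintype.card {i : Fin (N j) // Q j i ≠ 0}) ≃ {i : Fin (N j) // Q j i ≠ 0} :=
    fun j => (Fintype.equivFin _).symm
  have hdiff : ∀ j i g v, v ∈ F j (i + 1) → Q j i *ᵥ (cm ρ j g *ᵥ (Q j i *ᵥ v)) =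
      Q j i *ᵥ (cm ρ j g *ᵥ v) := fun j i g v hv => by
    have h := hQA j i _ (hFs j i g _ (hQB j i v hv))
    rw [mulVec_sub, mulVec_sub, sub_eq_zero] at h
    exact h.symm
  let S : Parts ρ :=
    { cnt := fun j => Fintype.card {i : Fin (N j) // Q j i ≠ 0}
      quot := fun j i => Q j (idx j i).1
      lift := fun j i => P j (idx j i).1
      quot_sq := fun j i => hQQ _ _
      quot_mul := fun j i g h => Matrix.ext_of_mulVec_single fun s => by
        simp only [← mulVec_mulVec, cm_mul]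
        exact hdiff _ _ g _ (hFs _ _ h _ (hQ _ _ _))
      lift_inv := fun j i g => Matrix.ext_of_mulVec_single fun s => by
        simp only [← mulVec_mulVec]
        exact (hP' _ _ _ (liftSpace_stable (hFs _ _) g _ (hP _ _ _))).symm
      quot_lift := fun j i g => Matrix.ext_of_mulVec_single fun s => by
        simp only [← mulVec_mulVec]
        exact (hdiff _ _ g _ (liftSpace_le _ _ (hP _ _ _))).symm
      ne_zero := fun j i _ => (idx j i).2
      one := fun i => by
        rcases hone _ (hFs 1 ((idx 1 i).1 + 1)) with h | h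
        · exact absurd (Matrix.ext_of_mulVec_single fun s => by
            rw [zero_mulVec]; exact (Submodule.mem_bot k).1 (h ▸ hQ 1 _ _)) (idx 1 i).2
        rcases hone _ (hFs 1 (idx 1 i).1) with h' | h'
        · refine Matrix.ext_of_mulVec_single fun s => ?_
          have := hQB 1 (idx 1 i).1 (Pi.single s 1) (h ▸ Submodule.mem_top)
          rw [h', Submodule.mem_bot, sub_eq_zero] at this
          rw [one_mulVec, ← this]
        · exact absurd (Matrix.ext_of_mulVec_single fun s => by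
            rw [zero_mulVec]; exact hQA 1 _ _ (h' ▸ Submodule.mem_top)) (idx 1 i).2
      lift_le := fun j i hj =>
        exists_lift_le hL hj (hFs _ _) (hFs _ _) _ _ (hQA _ _) (hQB _ _) (hP _ _) (hP' _ _)
      total := fun j hj => by
        suffices h0 : ∀ z ∈ closure (multiples ρ j), z ≠ 0 →
            ∑ i, ‖Q j (idx j i).1 * z * Q j (idx j i).1‖ ≠ 0 by
          obtain ⟨C, hC⟩ := bound_of_closure (multiples ρ j)
            (fun c _ ⟨x, hx⟩ => ⟨(c * x.1, x.2), by simp [← hx, smul_smul]⟩)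
            (fun z => ∑ i, ‖Q j (idx j i).1 * z * Q j (idx j i).1‖)
            (continuous_finsetSum _ fun i _ =>
              ((continuous_const.matrix_mul continuous_id).matrix_mul continuous_const).norm)
            (fun c A => by simp only [Matrix.mul_smul, Matrix.smul_mul, norm_smul, mul_sum])
            (fun _ => sum_nonneg fun i _ => norm_nonneg _) h0
          exact ⟨C, fun g => hC _ ⟨(1, g), one_smul k _⟩⟩
        intro z hz hz0 hf
        rw [sum_eq_zero_iff_of_nonneg fun i _ => norm_nonneg _] at hf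
        refine hz0 (eq_zero_of_factors hL hj (F j) (hF0 j) (hFs j) (N j) (hN j) (Q j) (hQ j) (hQB j)
          hz fun i hi => ?_)
        by_cases h : Q j i = 0
        · rw [h, Matrix.mul_zero]
        · have := hf ((idx j).symm ⟨⟨i, hi⟩, h⟩) (mem_univ _)
          rwa [Equiv.apply_symm_apply, norm_eq_zero] at this
      dominant := fun j hj => by
        obtain ⟨c, hc, h⟩ := exists_dominant hL hj (F j) (hF0 j) (hFs j) (N j) (hN j) (Q j) (P j)
          (hQB j) (hP j) (hP' j)
        refine ⟨c, hc, fun ε hε => ?_⟩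
        obtain ⟨δ, hδ, h⟩ := h ε hε
        refine ⟨δ, hδ, fun g u r hg => ?_⟩
        obtain ⟨i, hi, h1, h2, h3⟩ := h g u r hg
        have hne : Q j i ≠ 0 := fun e => by
          rw [e, Matrix.mul_zero, norm_zero] at h3
          exact absurd h3 (not_le.2 (mul_pos hc (norm_cm_pos ρ hj g)))
        exact ⟨(idx j).symm ⟨⟨i, hi⟩, hne⟩, by rw [Equiv.apply_symm_apply]; exact ⟨h1, h2, h3⟩⟩ }
  refine ⟨S, fun m deg ix r u _ h => exists_generic rep hconn deg r u fun l => ?_⟩
  obtain ⟨hr0, hu0, hr, hu⟩ := h l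
  change r l ᵥ* Q (deg l) (idx (deg l) (ix l)).1 = r l at hr
  change Q (deg l) (idx (deg l) (ix l)).1 *ᵥ u l = u l at hu
  generalize ((idx (deg l) (ix l)).1 : ℕ) = i at hr hu
  by_contra hno
  push Not at hno
  have hrA : ∀ a ∈ F (deg l) i, r l ⬝ᵥ a = 0 := fun a ha => by
    rw [← hr, ← dotProduct_mulVec, hQA _ _ a ha, dotProduct_zero]
  set W := F (deg l) i ⊔ Submodule.span k (Set.range fun g => cm ρ (deg l) g *ᵥ u l) with hW
  have hWs : Stable ρ (deg l) W := by
    intro g w hw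
    obtain ⟨a, ha, b, hb, rfl⟩ := Submodule.mem_sup.1 hw
    rw [mulVec_add]
    refine Submodule.add_mem_sup (hFs _ _ g a ha) ?_
    refine Submodule.span_induction (p := fun x _ => cm ρ (deg l) g *ᵥ x ∈
        Submodule.span k (Set.range fun g => cm ρ (deg l) g *ᵥ u l)) ?_
      (by simp) (fun a b _ _ ha hb => by rw [mulVec_add]; exact Submodule.add_mem _ ha hb)
      (fun c a _ ha => by rw [mulVec_smul]; exact Submodule.smul_mem _ c ha) hb
    rintro _ ⟨g', rfl⟩
    exact Submodule.subset_span ⟨g * g', by simp [cm_mul, mulVec_mulVec]⟩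
  have huB : u l ∈ F (deg l) (i + 1) := hu ▸ hQ _ _ _
  have huW : u l ∈ W := Submodule.mem_sup_right (Submodule.subset_span ⟨1, by simp [cm_one]⟩)
  rcases hFmax _ i W hWs le_sup_left (sup_le (hFle _ i) (Submodule.span_le.2 (by
    rintro _ ⟨g, rfl⟩; exact hFs _ _ g _ huB))) with e | e
  · exact hu0 (hu.symm.trans (hQA _ _ _ (e ▸ huW)))
  · refine hr0 (dotProduct_eq_zero _ fun v => ?_)
    rw [← hr, ← dotProduct_mulVec]
    obtain ⟨a, ha, b, hb, hab⟩ := Submodule.mem_sup.1 (e.ge (hQ (deg l) i v))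
    rw [← hab, dotProduct_add, hrA a ha, zero_add]
    refine Submodule.span_induction (p := fun x _ => r l ⬝ᵥ x = 0) ?_ (dotProduct_zero _)
      (fun a b _ _ ha hb => by rw [dotProduct_add, ha, hb, add_zero])
      (fun c a _ ha => by rw [dotProduct_smul, ha, smul_zero]) hb
    rintro _ ⟨g, rfl⟩
    exact hno g

end Vale.Agent.P165.EX.Semi
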