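import Vale.Agent.P165.EX.Semi.Defs

/-!
# Irreducible images: finitely many types of pivot decompositions

The type of a pivot decomposition records, at each large gap of the diagonal, the factor whose lift is
close to the top column of the left factor. By compactness every type that occurs has an exact frame.
-/

namespace Vale.Agent.P165.EX.Semi

open Finset Matrix
open scoped Matrix.Norms.Elementwise MatrixGroups

/-- The first `j` coordinates. -/
def topSub {n j : ℕ} (hj : j ≤ n) : Sub n j :=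
  ⟨univ.map (Fin.castLEEmb hj), by simp⟩

/-- The column of the first `j` coordinates of the compound. -/
def topCol {k : Type} [Field k] {n j : ℕ} (hj : j ≤ n) (U : Matrix (Fin n) (Fin n) k) :
    Sub n j → k :=
  fun s => cmp j U s (topSub hj)

theorem prod_topSub {n j : ℕ} (hj : j ≤ n) (α : Fin n → ℝ) :
    ∏ i, α (emb (topSub hj) i) = pa α hj := by
  rw [prod_emb, topSub, prod_map]
  rfl

/-- Past a gap every other product of the same order is small. -/
theorem prod_gap {n j : ℕ} {α : Fin n → ℝ} {C : ℝ} (hC : 1 ≤ C) (hα : ∀ i, 0 < α i)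
    (hdec : ∀ i l, i ≤ l → α l ≤ C * α i) (hj : j + 1 < n) (s : Sub n (j + 1))
    (hs : s ≠ topSub hj.le) :
    α ⟨j, by omega⟩ * ∏ i, α (emb s i) ≤ C ^ (n + 1) * α ⟨j + 1, hj⟩ * pa α hj.le := by
  obtain ⟨x, hx, hxt⟩ := (Set.powersetCard.exists_mem_notMem_iff_ne s (topSub hj.le)).mp hs
  obtain ⟨l, rfl⟩ := (mem_iff s x).1 hx
  have hle : (⟨j + 1, hj⟩ : Fin n) ≤ emb s l := by
    by_contra h
    refine hxt ?_
    rw [topSub]
    exact mem_map.2 ⟨⟨(emb s l).1, by simpa [Fin.lt_def] using h⟩, mem_univ _, rfl⟩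
  rw [Fin.prod_univ_succAbove _ l]
  have h1 := prod_le_pa hC hα hdec (show j ≤ n by omega) (fun i => emb s (l.succAbove i))
    ((emb s).injective.comp Fin.succAbove_right_injective)
  have h2 := hdec _ _ hle
  rw [show pa α hj.le = pa α (show j ≤ n by omega) * α ⟨j, by omega⟩ from pa_succ α hj.le]
  have h3 := mul_le_mul h2 h1 (prod_nonneg fun i _ => (hα _).le)
    (mul_nonneg (zero_le_one.trans hC) (hα _).le)
  have h4 := mul_le_mul_of_nonneg_left h3 (hα ⟨j, by omega⟩).le
  rw [pow_succ]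
  linarith

variable {k : Type} [NontriviallyNormedField k] {n : ℕ} {Γ : Type} [Group Γ] {ρ : Γ →* SL(n, k)}

/-- At each coordinate nothing, or a gap before it with a factor of that order. -/
abbrev Pattern (S : Parts ρ) : Type := ∀ l : Fin n, Option (Fin (S.cnt l.1))

/-- A type: a pattern with an exact frame. -/
def Pattern.Real {S : Parts ρ} (τ : Pattern S) : Prop :=
  ∃ U : Matrix (Fin n) (Fin n) k, U.det ≠ 0 ∧ ∀ l i, τ l = some i →
    S.lift l.1 i *ᵥ topCol l.2.le U = topCol l.2.le U ∧ S.quot l.1 i *ᵥ topCol l.2.le U ≠ 0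

theorem topCol_ne_zero {j : ℕ} (hj : j ≤ n) {U : Matrix (Fin n) (Fin n) k} (hU : U.det ≠ 0) :
    topCol hj U ≠ 0 := fun h => by
  have h1 : (cmp j U⁻¹ * cmp j U) (topSub hj) (topSub hj) = 1 := by
    rw [← cmp_mul, nonsing_inv_mul _ (isUnit_iff_ne_zero.2 hU), cmp_one, one_apply_eq]
  rw [Matrix.mul_apply] at h1
  refine one_ne_zero (h1.symm.trans (sum_eq_zero fun s _ => ?_))
  rw [show cmp j U s (topSub hj) = 0 from congrFun h s, mul_zero]

theorem continuous_topCol {j : ℕ} (hj : j ≤ n) :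
    Continuous fun U : Matrix (Fin n) (Fin n) k => topCol hj U :=
  continuous_pi fun s => (continuous_id.matrix_submatrix (emb s) (emb (topSub hj))).matrix_det

/-- A pattern without exact frame stays a bounded distance away from all bounded frames. -/
theorem exists_residual [ProperSpace k] {S : Parts ρ} (C : ℝ) {c : ℝ} (hc : 0 < c) (τ : Pattern S)
    (hτ : ¬ τ.Real) : ∃ δ : ℝ, 0 < δ ∧ ∀ U Ui : Matrix (Fin n) (Fin n) k, Bdd C U Ui →
      ∃ l i, τ l = some i ∧
        δ ≤ ‖S.lift l.1 i *ᵥ topCol l.2.le U - topCol l.2.le U‖ +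
          max 0 (c * ‖topCol l.2.le U‖ - ‖S.quot l.1 i *ᵥ topCol l.2.le U‖) := by
  classical
  set f : Matrix (Fin n) (Fin n) k → ℝ := fun U =>
    ∑ l : Fin n, (τ l).elim 0 fun i => ‖S.lift l.1 i *ᵥ topCol l.2.le U - topCol l.2.le U‖ +
      max 0 (c * ‖topCol l.2.le U‖ - ‖S.quot l.1 i *ᵥ topCol l.2.le U‖)
  have hcf : Continuous f := by
    refine continuous_finsetSum _ fun l _ => ?_
    rcases τ l with _ | i
    · exact continuous_const
    · exact ((continuous_const.matrix_mulVec (continuous_topCol _)).sub (continuous_topCol _)).norm.add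
        (continuous_const.max ((continuous_const.mul (continuous_topCol _).norm).sub
          (continuous_const.matrix_mulVec (continuous_topCol _)).norm))
  set X := {x : Matrix (Fin n) (Fin n) k × Matrix (Fin n) (Fin n) k | Bdd C x.1 x.2}
  have hX : IsCompact X := by
    have : ProperSpace (Matrix (Fin n) (Fin n) k) := FiniteDimensional.proper k _
    refine ((isCompact_closedBall (0 : Matrix (Fin n) (Fin n) k) C).prod
      (isCompact_closedBall (0 : Matrix (Fin n) (Fin n) k) C)).of_isClosed_subset ?_ fun x hx =>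
        ⟨mem_closedBall_zero_iff.2 hx.2.2.1, mem_closedBall_zero_iff.2 hx.2.2.2⟩
    simp only [X, Bdd, Set.ofPred_and]
    exact (isClosed_eq (by fun_prop) continuous_const).inter ((isClosed_eq (by fun_prop)
      continuous_const).inter ((isClosed_le (by fun_prop) continuous_const).inter
        (isClosed_le (by fun_prop) continuous_const)))
  by_cases hne : X.Nonempty
  swap
  · exact ⟨1, one_pos, fun U Ui h => absurd ⟨(U, Ui), h⟩ hne⟩
  obtain ⟨x, hx, hmin⟩ := hX.exists_isMinOn hne (hcf.comp continuous_fst).continuousOn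
  have hterm : ∀ U, ∀ l ∈ (univ : Finset (Fin n)), 0 ≤
      (τ l).elim 0 fun i => ‖S.lift l.1 i *ᵥ topCol l.2.le U - topCol l.2.le U‖ +
        max 0 (c * ‖topCol l.2.le U‖ - ‖S.quot l.1 i *ᵥ topCol l.2.le U‖) := fun U l _ => by
    rcases τ l with _ | i
    · simp
    · exact add_nonneg (norm_nonneg _) (le_max_left _ _)
  have hpos : 0 < f x.1 := by
    have hdet : x.1.det ≠ 0 := by
      intro hd
      have := congrArg det hx.1
      rw [det_mul, hd, zero_mul, det_one] at this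
      exact zero_ne_one this
    refine lt_of_le_of_ne (sum_nonneg (hterm _)) fun h0 => hτ ⟨x.1, hdet, fun l i hl => ?_⟩
    have h := (sum_eq_zero_iff_of_nonneg (hterm x.1)).1 h0.symm l (mem_univ l)
    rw [hl, Option.elim_some, add_eq_zero_iff_of_nonneg (norm_nonneg _) (le_max_left _ _),
      norm_eq_zero, sub_eq_zero] at h
    refine ⟨h.1, fun h1 => ?_⟩
    have h2 := h.2
    rw [h1, norm_zero, sub_zero] at h2
    have h3 := mul_pos hc (norm_pos_iff.2 (topCol_ne_zero l.2.le hdet))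
    linarith [le_max_right (0 : ℝ) (c * ‖topCol l.2.le x.1‖)]
  refine ⟨f x.1 / (n + 1), by positivity, fun U Ui hU => ?_⟩
  by_contra hno
  push Not at hno
  have h1 : f x.1 ≤ f U := isMinOn_iff.1 hmin (U, Ui) hU
  have h2 : f U ≤ n * (f x.1 / (n + 1)) := by
    refine (sum_le_card_nsmul _ _ (f x.1 / (n + 1)) fun l _ => ?_).trans_eq (by simp)
    rcases hl : τ l with _ | i
    · exact div_nonneg hpos.le (by positivity)
    · exact (hno l i hl).le
  have h3 := h1.trans h2
  rw [mul_div_assoc', le_div_iff₀ (by positivity)] at h3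
  linarith

theorem norm_mulVec_le {ν : Type} [Fintype ν] (A : Matrix ν ν k) (x : ν → k) :
    ‖A *ᵥ x‖ ≤ Fintype.card ν * (‖A‖ * ‖x‖) := by
  refine (pi_norm_le_iff_of_nonneg (by positivity)).2 fun a => ?_
  rw [mulVec, dotProduct]
  refine (norm_sum_le _ _).trans ((sum_le_card_nsmul _ _ (‖A‖ * ‖x‖) fun b _ => ?_).trans_eq ?_)
  · rw [norm_mul]
    exact mul_le_mul (norm_entry_le_entrywise_sup_norm A) (norm_le_pi_norm x b) (norm_nonneg _)
      (norm_nonneg _)
  · simp

/-- A product of bounded matrices around a diagonal with one dominant entry is close to the product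
of the top column and the top row. -/
theorem near_rankOne {ν : Type} [Fintype ν] [DecidableEq ν] (A Ai B Bi : Matrix ν ν k) (D : ν → k)
    (s₀ : ν) {M ε : ℝ} (hM : 0 ≤ M) (hA : ‖A‖ ≤ M) (hAi : ‖Ai‖ ≤ M) (hB : ‖B‖ ≤ M) (hBi : ‖Bi‖ ≤ M)
    (hAA : Ai * A = 1) (hBB : B * Bi = 1) (hε : 0 ≤ ε)
    (hdom : ∀ s, s ≠ s₀ → ‖D s‖ ≤ ε * ‖D s₀‖) :
    ‖A * diagonal D * B - vecMulVec (fun s => A s s₀) (D s₀ • fun t => B s₀ t)‖ ≤
        (Fintype.card ν : ℝ) * M * M * ε *
          ((Fintype.card ν : ℝ) ^ 2 * M * M * ‖A * diagonal D * B‖) ∧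
      ‖D s₀‖ ≤ (Fintype.card ν : ℝ) ^ 2 * M * M * ‖A * diagonal D * B‖ := by
  have h2 : ‖D s₀‖ ≤ (Fintype.card ν : ℝ) ^ 2 * M * M * ‖A * diagonal D * B‖ := by
    have e : Ai * (A * diagonal D * B) * Bi = diagonal D := by
      rw [← Matrix.mul_assoc, ← Matrix.mul_assoc, hAA, Matrix.one_mul, Matrix.mul_assoc, hBB,
        Matrix.mul_one]
    calc ‖D s₀‖ = ‖(Ai * (A * diagonal D * B) * Bi) s₀ s₀‖ := by rw [e, diagonal_apply_eq]
      _ ≤ ‖Ai * (A * diagonal D * B) * Bi‖ := norm_entry_le_entrywise_sup_norm _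
      _ ≤ Fintype.card ν * ((Fintype.card ν * (M * ‖A * diagonal D * B‖)) * M) :=
        (norm_mul_le_card _ _).trans (mul_le_mul_of_nonneg_left (mul_le_mul
          ((norm_mul_le_card _ _).trans (mul_le_mul_of_nonneg_left
            (mul_le_mul_of_nonneg_right hAi (norm_nonneg _)) (Nat.cast_nonneg _))) hBi
          (norm_nonneg _) (by positivity)) (Nat.cast_nonneg _))
      _ = _ := by ring
  refine ⟨?_, h2⟩
  refine le_trans ((Matrix.norm_le_iff (by positivity)).2 fun a b => ?_)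
    (mul_le_mul_of_nonneg_left h2 (by positivity))
  rw [Matrix.sub_apply, vecMulVec_apply, Pi.smul_apply, smul_eq_mul, Matrix.mul_apply,
    ← add_sum_erase _ _ (mem_univ s₀), mul_diagonal,
    show A a s₀ * (D s₀ * B s₀ b) = A a s₀ * D s₀ * B s₀ b from (mul_assoc _ _ _).symm,
    add_sub_cancel_left]
  refine (norm_sum_le _ _).trans ((sum_le_card_nsmul _ _ (M * (ε * ‖D s₀‖) * M) fun s hs => ?_).trans
    ?_)
  · rw [mul_diagonal, norm_mul, norm_mul]
    exact mul_le_mul (mul_le_mul ((norm_entry_le_entrywise_sup_norm _).trans hA)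
      (hdom s (ne_of_mem_erase hs)) (norm_nonneg _) hM)
      ((norm_entry_le_entrywise_sup_norm _).trans hB) (norm_nonneg _) (by positivity)
  · rw [nsmul_eq_mul]
    refine (mul_le_mul_of_nonneg_right (Nat.cast_le.2 card_erase_le) (by positivity)).trans_eq ?_
    rw [card_univ]
    ring

/-- Every pivot decomposition has a type: exact frame, factor of full size at each recorded
coordinate, no large gap elsewhere. -/
theorem exists_types [ProperSpace k] (S : Parts ρ) {C : ℝ} (hC : 1 ≤ C) :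
    ∃ T : ℝ, 1 ≤ T ∧ ∀ (g : Γ) (U Ui U' Ui' : Matrix (Fin n) (Fin n) k) (e : Fin n → k),
      (ρ g : Matrix (Fin n) (Fin n) k) = U * diagonal e * U' → Bdd C U Ui → Bdd C U' Ui' →
      (∀ i, e i ≠ 0) → (∀ i l, i ≤ l → ‖e l‖ ≤ C * ‖e i‖) →
      ∃ τ : Pattern S, τ.Real ∧
        (∀ l i, τ l = some i →
          pa (fun i => ‖e i‖) l.2.le ≤ T * ‖S.blk l.1 i g‖) ∧
        ∀ l (hl : l + 1 < n), τ ⟨l + 1, hl⟩ = none →
          ‖e ⟨l, by omega⟩‖ ≤ T * ‖e ⟨l + 1, hl⟩‖ := by
  classical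
  set M : ℝ := 1 + ∑ j ∈ range (n + 1), (j.factorial : ℝ) * C ^ j
  have hC0 : 0 ≤ C := zero_le_one.trans hC
  have hM : 1 ≤ M := le_add_of_nonneg_right (sum_nonneg fun _ _ => by positivity)
  have hM0 : 0 ≤ M := zero_le_one.trans hM
  have hcm : ∀ j ≤ n, ∀ A : Matrix (Fin n) (Fin n) k, ‖A‖ ≤ C → ‖cmp j A‖ ≤ M := fun j hj A hA =>
    ((norm_cmp_le j A).trans (mul_le_mul_of_nonneg_left (pow_le_pow_left₀ (norm_nonneg _) hA j)
      (Nat.cast_nonneg _))).trans ((single_le_sum (f := fun j : ℕ => (j.factorial : ℝ) * C ^ j)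
        (fun j _ => by positivity) (mem_range.2 (Nat.lt_succ_of_le hj))).trans
          (le_add_of_nonneg_left zero_le_one))
  choose cd hcd hdom using fun l : Fin n => S.dominant l.1 l.2.le
  set c₀ : ℝ := 1 / (1 + ∑ l, 1 / cd l)
  have hden : 0 < 1 + ∑ l, 1 / cd l :=
    add_pos_of_pos_of_nonneg one_pos (sum_nonneg fun l _ => (one_div_pos.2 (hcd l)).le)
  have hc₀ : 0 < c₀ := one_div_pos.2 hden
  have hle0 : ∀ l, c₀ ≤ cd l := fun l => by
    rw [one_div_le hden (hcd l)]
    exact (single_le_sum (fun l _ => (one_div_pos.2 (hcd l)).le) (mem_univ l)).trans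
      (le_add_of_nonneg_left zero_le_one)
  choose δ hδ0 hδ using fun τ : {τ : Pattern S // ¬ τ.Real} => exists_residual C hc₀ τ.1 τ.2
  set ε : ℝ := 1 / (2 * M * (1 + ∑ τ, 1 / δ τ))
  have hX : 0 ≤ ∑ τ, 1 / δ τ := sum_nonneg fun τ _ => (one_div_pos.2 (hδ0 τ)).le
  have hε : 0 < ε := one_div_pos.2 (by positivity)
  choose dl hdl hnear using fun l => hdom l ε hε
  set N : Fin n → ℝ := fun l => (Fintype.card (Sub n l.1) : ℝ)
  set G : Fin n → ℝ := fun l => C ^ (n + 1) * (N l * M * M * (N l ^ 2 * M * M)) / dl l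
  set H : Fin n → ℝ := fun l => N l ^ 2 * M * M / cd l
  have hG : ∀ l, 0 ≤ G l := fun l => div_nonneg (by simp only [N]; positivity) (hdl l).le
  have hH : ∀ l, 0 ≤ H l := fun l => div_nonneg (by simp only [N]; positivity) (hcd l).le
  set T : ℝ := 1 + ∑ l, G l + ∑ l, H l
  have hG' : 0 ≤ ∑ l, G l := sum_nonneg fun l _ => hG l
  have hH' : 0 ≤ ∑ l, H l := sum_nonneg fun l _ => hH l
  have hT1 : 1 ≤ T := by simp only [T]; linarith
  have hT0 : 0 < T := zero_lt_one.trans_le hT1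
  refine ⟨T, hT1, fun g U Ui U' Ui' e hz hU hU' he hdec => ?_⟩
  set α : Fin n → ℝ := fun i => ‖e i‖
  have hα : ∀ i, 0 < α i := fun i => norm_pos_iff.2 (he i)
  let Good : ∀ l : Fin n, Fin (S.cnt l.1) → Prop := fun l i =>
    ‖S.lift l.1 i *ᵥ topCol l.2.le U - topCol l.2.le U‖ ≤ M * ε ∧
      c₀ * ‖topCol l.2.le U‖ ≤ ‖S.quot l.1 i *ᵥ topCol l.2.le U‖ ∧
      pa α l.2.le ≤ T * ‖S.blk l.1 i g‖
  have key : ∀ l (hl : l + 1 < n), T * α ⟨l + 1, hl⟩ < α ⟨l, by omega⟩ →
      ∃ i, Good ⟨l + 1, hl⟩ i := by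
    intro l hl hgap
    set L : Fin n := ⟨l + 1, hl⟩
    have hcz : cm ρ (l + 1) g = cmp (l + 1) U * diagonal (fun s => ∏ i, e (emb s i)) *
        cmp (l + 1) U' := by rw [cm, hz, cmp_mul, cmp_mul, cmp_diagonal]
    have hD : ∀ s : Sub n (l + 1), ‖∏ i, e (emb s i)‖ = ∏ i, α (emb s i) := fun s => norm_prod _ _
    obtain ⟨h1, h2⟩ := near_rankOne (cmp (l + 1) U) (cmp (l + 1) Ui) (cmp (l + 1) U')
      (cmp (l + 1) Ui') (fun s => ∏ i, e (emb s i)) (topSub hl.le) (ε := C ^ (n + 1) / T) hM0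
      (hcm _ hl.le _ hU.2.2.1) (hcm _ hl.le _ hU.2.2.2) (hcm _ hl.le _ hU'.2.2.1)
      (hcm _ hl.le _ hU'.2.2.2) (by rw [← cmp_mul, hU.2.1, cmp_one])
      (by rw [← cmp_mul, hU'.1, cmp_one]) (by positivity) fun s hs => by
        rw [hD, hD, prod_topSub, div_mul_eq_mul_div, le_div_iff₀ hT0]
        refine le_of_mul_le_mul_left ?_ (hα ⟨l, by omega⟩)
        have h1 := mul_le_mul_of_nonneg_left (prod_gap hC hα hdec hl s hs) hT0.le
        have h2 := mul_le_mul_of_nonneg_right hgap.le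
          (mul_nonneg (pow_nonneg hC0 (n + 1)) (pa_pos hα hl.le).le)
        linarith
    rw [← hcz] at h1 h2
    rw [hD, prod_topSub] at h2
    have hGT : G L ≤ T := by
      have := single_le_sum (fun l _ => hG l) (mem_univ L)
      simp only [T]
      linarith
    have hHT : H L ≤ T := by
      have := single_le_sum (fun l _ => hH l) (mem_univ L)
      simp only [T]
      linarith
    have hsmall : ‖cm ρ (l + 1) g - vecMulVec (topCol hl.le U) ((∏ i, e (emb (topSub hl.le) i)) •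
        fun t => cmp (l + 1) U' (topSub hl.le) t)‖ ≤ dl L * ‖cm ρ (l + 1) g‖ := by
      refine h1.trans ?_
      simp only [G] at hGT
      rw [div_le_iff₀ (hdl L)] at hGT
      rw [← sub_nonneg]
      have e1 : dl L * ‖cm ρ (l + 1) g‖ - N L * M * M * (C ^ (n + 1) / T) *
          (N L ^ 2 * M * M * ‖cm ρ (l + 1) g‖) = (T * dl L - C ^ (n + 1) *
            (N L * M * M * (N L ^ 2 * M * M))) / T * ‖cm ρ (l + 1) g‖ := by
        field_simp
      rw [show (Fintype.card (Sub n (l + 1)) : ℝ) = N L from rfl, e1]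
      exact mul_nonneg (div_nonneg (sub_nonneg.2 hGT) hT0.le) (norm_nonneg _)
    obtain ⟨i, hi1, hi2, hi3⟩ := hnear L g _ _ hsmall
    have hu : ‖topCol hl.le U‖ ≤ M := (pi_norm_le_iff_of_nonneg hM0).2 fun s =>
      (norm_entry_le_entrywise_sup_norm (cmp (l + 1) U) (i := s) (j := topSub hl.le)).trans
        (hcm _ hl.le _ hU.2.2.1)
    refine ⟨i, hi1.trans ((mul_le_mul_of_nonneg_left hu hε.le).trans_eq (mul_comm _ _)),
      (mul_le_mul_of_nonneg_right (hle0 L) (norm_nonneg _)).trans hi2, h2.trans ?_⟩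
    simp only [H] at hHT
    rw [div_le_iff₀ (hcd L)] at hHT
    refine (mul_le_mul_of_nonneg_right hHT (norm_nonneg _)).trans ?_
    rw [mul_assoc]
    exact mul_le_mul_of_nonneg_left hi3 hT0.le
  -- the pattern
  let τ : Pattern S := fun l => if h : ∃ i, Good l i then some h.choose else none
  have hτ : ∀ l i, τ l = some i → Good l i := fun l i hl => by
    simp only [τ] at hl
    split_ifs at hl with h
    rw [← Option.some.inj hl]
    exact h.choose_spec
  refine ⟨τ, ?_, fun l i hl => (hτ l i hl).2.2, fun l hl hno => ?_⟩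
  · by_contra hτR
    obtain ⟨l, i, hli, hd⟩ := hδ ⟨τ, hτR⟩ U Ui hU
    obtain ⟨g1, g2, -⟩ := hτ l i hli
    rw [max_eq_left (by linarith), add_zero] at hd
    have h1 := hd.trans g1
    have h2 : 1 / δ ⟨τ, hτR⟩ ≤ ∑ τ, 1 / δ τ :=
      single_le_sum (fun τ _ => (one_div_pos.2 (hδ0 τ)).le) (mem_univ _)
    rw [div_le_iff₀ (hδ0 _)] at h2
    have hMε : M * ε * (2 * (1 + ∑ τ, 1 / δ τ)) = 1 := by
      simp only [ε]
      field_simp
    have h3 := mul_le_mul_of_nonneg_right h1 (show 0 ≤ 2 * (1 + ∑ τ, 1 / δ τ) by positivity)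
    rw [hMε] at h3
    linarith [hδ0 ⟨τ, hτR⟩]
  · by_contra hgap
    simp only [τ] at hno
    split_ifs at hno with h
    exact h (key l hl (not_le.1 hgap))

end Vale.Agent.P165.EX.Semi
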